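import Vale.Agent.P236Z.SS.Tow

/-!
# P236, block SS: signs and values of classes
-/

open CategoryTheory MonoidalCategory Limits Pretriangulated
open Functor.LaxMonoidal Functor.OplaxMonoidal
open Vale.Agent.P251 Vale.Agent.P251.T Vale.Agent.P251.M Vale.Agent.P251.I Vale.Agent.P251.G
  Vale.Agent.P236Z.Cat Vale.Agent.P236Z.Mod Vale.Agent.P236Z.Top

noncomputable section

namespace Vale.Agent.P236Z.SS

theorem Sg.one : Sg 1 := Or.inl rfl
theorem Sg.neg {e : ℤ} (h : Sg e) : Sg (-e) := by rcases h with rfl | rfl <;> simp [Sg]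
theorem Sg.mul {e e' : ℤ} (h : Sg e) (h' : Sg e') : Sg (e * e') := by
  rcases h with rfl | rfl <;> rcases h' with rfl | rfl <;> simp [Sg]
theorem Sg.sq {e : ℤ} (h : Sg e) : e * e = 1 := by rcases h with rfl | rfl <;> simp
theorem Sg.smul_smul {A : Type} [AddCommGroup A] {e : ℤ} (h : Sg e) (a : A) : e • e • a = a := by
  rw [_root_.smul_smul, h.sq, one_smul]

variable {W : Tower}

/-- `A` is a sphere of dimension `d` -/
abbrev Sph (A : W.T₀.C) (d : ℤ) : Prop := Nonempty (A ≅ (𝟙_ W.T₀.C)⟦d⟧)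

theorem Sph.of_iso {A B : W.T₀.C} {d : ℤ} (h : Sph A d) (e : B ≅ A) : Sph B d := ⟨e ≪≫ h.some⟩

theorem Sph.cast {A : W.T₀.C} {d d' : ℤ} (h : Sph A d) (e : d = d') : Sph A d' := e ▸ h

theorem Sph.shift {A : W.T₀.C} {d : ℤ} (h : Sph A d) (n : ℤ) : Sph (A⟦n⟧) (d + n) :=
  ⟨(shiftFunctor _ n).mapIso h.some ≪≫ ((shiftFunctorAdd _ d n).app _).symm⟩

theorem Sph.tensor {A B : W.T₀.C} {d d' : ℤ} (h : Sph A d) (h' : Sph B d') :
    Sph (A ⊗ B) (d + d') :=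
  (h.shift d').of_iso (whiskerLeftIso A h'.some ≪≫ tensorUnitShiftIso A d')

theorem sph_unit : Sph (𝟙_ W.T₀.C) 0 := ⟨((shiftFunctorZero _ ℤ).app _).symm⟩

theorem sph_S (n : ℤ) : Sph ((Λ W).S n) (2 * n) := ⟨stdSph n⟩

theorem Sph.iso {A B : W.T₀.C} {d : ℤ} (h : Sph A d) (h' : Sph B d) : Nonempty (A ≅ B) :=
  ⟨h.some ≪≫ h'.some.symm⟩

theorem Sph.end_int {A : W.T₀.C} {d : ℤ} (h : Sph A d) (u : A ⟶ A) : ∃ m : ℤ, u = m • 𝟙 A := by
  obtain ⟨c⟩ := h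
  obtain ⟨u₀, hu⟩ := (shiftFunctor W.T₀.C d).map_surjective (c.inv ≫ u ≫ c.hom)
  obtain ⟨m, rfl⟩ := exists_int_unit W.F u₀
  refine ⟨m, ?_⟩
  rw [← cancel_epi c.inv, ← cancel_mono c.hom, Category.assoc, ← hu]
  simp

theorem Sph.zsmul_inj {A : W.T₀.C} {d : ℤ} (h : Sph A d) (m : ℤ) (hm : m • 𝟙 A = 0) : m = 0 := by
  obtain ⟨c⟩ := h
  refine eq_zero_of_zsmul_id W.F m ((shiftFunctor W.T₀.C d).map_injective ?_)
  rw [← cancel_epi c.hom, Functor.map_zsmul, CategoryTheory.Functor.map_id, Functor.map_zero,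
    Preadditive.comp_zsmul, Category.comp_id, comp_zero, ← Category.id_comp c.hom,
    ← Preadditive.zsmul_comp, hm, zero_comp]

/-- two isomorphisms of spheres differ by a sign -/
theorem Sph.sign {A B : W.T₀.C} {d : ℤ} (h : Sph A d) (f g : A ⟶ B) [IsIso f] [IsIso g] :
    ∃ e, Sg e ∧ f = e • g := by
  obtain ⟨m, hm⟩ := h.end_int (f ≫ inv g)
  obtain ⟨n, hn⟩ := h.end_int (g ≫ inv f)
  have h1 : (m * n - 1) • 𝟙 A = 0 := by
    rw [sub_smul, one_smul, sub_eq_zero, mul_smul, ← hn, ← Category.id_comp (g ≫ inv f),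
      ← Preadditive.zsmul_comp, ← hm]
    simp
  refine ⟨m, Int.eq_one_or_neg_one_of_mul_eq_one (sub_eq_zero.1 (h.zsmul_inj _ h1)), ?_⟩
  rw [← Category.id_comp g, ← Preadditive.zsmul_comp, ← hm]
  simp

theorem Sph.eq_zero {A Y : W.T₀.C} {d n : ℤ} (h : Sph A d) (hY : Conn n Y) (hd : d < n)
    (f : A ⟶ Y) : f = 0 := by
  rw [← cancel_epi h.some.inv, comp_zero]
  exact hY d hd _

theorem Sph.cell {A : W.T₀.C} {d : ℤ} (h : Sph A d) : BigCell W.T₀.C d A :=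
  (BigCell.sphere d le_rfl).of_iso h.some.symm

theorem cell_conn {A : W.T₀.C} {d : ℤ} (h : BigCell W.T₀.C d A) : Conn d A :=
  h.conn (unit_conn W.F) fun Y k f => StableCat.compact k Y f

@[reassoc] theorem un_shp {S : W.T₀.C} {Y : W.T₁.C} (u : S ⟶ (U W).obj Y) :
    W.s₁.un S ≫ (U W).map (shp u) = u := by
  rw [shp, Functor.map_comp, ← Category.assoc, W.s₁.un_nat, Category.assoc, W.s₁.un_cu,
    Category.comp_id]

theorem shp_un {S : W.T₀.C} {Y : W.T₁.C} (f : W.s₁.ind.obj S ⟶ Y) :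
    shp (W.s₁.un S ≫ (U W).map f) = f := W.s₁.un_ext (un_shp _)

@[reassoc] theorem shp_comp {S : W.T₀.C} {Y Y' : W.T₁.C} (u : S ⟶ (U W).obj Y) (f : Y ⟶ Y') :
    shp u ≫ f = shp (u ≫ (U W).map f) :=
  W.s₁.un_ext (by rw [Functor.map_comp, un_shp_assoc, un_shp])

@[reassoc] theorem comp_shp {S S' : W.T₀.C} {Y : W.T₁.C} (g : S' ⟶ S) (u : S ⟶ (U W).obj Y) :
    W.s₁.ind.map g ≫ shp u = shp (g ≫ u) := by
  rw [shp, shp, Functor.map_comp, Category.assoc]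

theorem shp_add {S : W.T₀.C} {Y : W.T₁.C} (u v : S ⟶ (U W).obj Y) :
    shp (u + v) = shp u + shp v := by rw [shp, shp, shp, Functor.map_add, Preadditive.add_comp]

theorem shp_zsmul {S : W.T₀.C} {Y : W.T₁.C} (e : ℤ) (u : S ⟶ (U W).obj Y) :
    shp (e • u) = e • shp u := by rw [shp, shp, Functor.map_zsmul, Preadditive.zsmul_comp]

theorem shp_zero {S : W.T₀.C} {Y : W.T₁.C} : shp (0 : S ⟶ (U W).obj Y) = 0 := by
  rw [shp, Functor.map_zero, zero_comp]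

theorem ind_eq_zero {S : W.T₀.C} {Y : W.T₁.C} {d n : ℤ} (h : Sph S d)
    (hY : Conn n ((U W).obj Y)) (hd : d < n) (f : W.s₁.ind.obj S ⟶ Y) : f = 0 := by
  rw [← shp_un f, h.eq_zero hY hd (_ ≫ _), shp_zero]

theorem ind_shift_eq_zero {S : W.T₀.C} {Y : W.T₁.C} {d n : ℤ} (h : Sph S d)
    (hY : Conn n ((U W).obj Y)) (hd : d + 1 < n) (f : (W.s₁.ind.obj S)⟦(1 : ℤ)⟧ ⟶ Y) : f = 0 := by
  rw [← cancel_epi ((W.s₁.ind.commShiftIso (1 : ℤ)).hom.app S), comp_zero]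
  exact ind_eq_zero (h.shift 1) hY hd _

@[reassoc] theorem cs_nat {Y Y' : W.T₁.C} (f : Y ⟶ Y') :
    (U W).map (f⟦(1 : ℤ)⟧') ≫ (cs W Y').hom = (cs W Y).hom ≫ ((U W).map f)⟦(1 : ℤ)⟧' :=
  ((U W).commShiftIso (1 : ℤ)).hom.naturality f

theorem dist_U {X Y Z : W.T₁.C} {f : X ⟶ Y} {g : Y ⟶ Z} {h : Z ⟶ X⟦(1 : ℤ)⟧}
    (D : H.Dist f g h) : H.Dist ((U W).map f) ((U W).map g) ((U W).map h ≫ (cs W X).hom) :=
  (U W).map_distinguished _ D

@[reassoc] theorem dd_nat (m : ℤ) {Y Y' : W.T₁.C} (f : Y ⟶ Y') :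
    dd m Y ≫ (U W).map f = (U W).map f ≫ dd m Y' := by
  unfold dd
  split_ifs
  · rw [Preadditive.sub_comp, Preadditive.comp_sub, W.s₁.γ_nat, Category.id_comp,
      Category.comp_id]
  · simp only [Preadditive.add_comp, Preadditive.comp_add, Category.assoc, Category.id_comp,
      Category.comp_id, ← W.s₁.γ_nat, ← reassoc_of% W.s₁.γ_nat]

variable (x : Mdl W)

@[reassoc] theorem γ_e : W.s₁.γ x.X₁ ≫ x.Y.e.hom = x.Y.e.hom ≫ x.P.ρ ≫ x.P.ρ ≫ x.P.ρ := by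
  have h : W.s₁.γ x.X₁ = (U W).map (W.s₂.γ x.X ≫ W.s₂.γ x.X ≫ W.s₂.γ x.X) :=
    congrArg (U W).map (W.s₂.γ_cube x.X).symm
  rw [h, Functor.map_comp, Functor.map_comp, Category.assoc, Category.assoc, x.Y.e_h,
    reassoc_of% x.Y.e_h, reassoc_of% x.Y.e_h]

theorem odd_zero {A : W.T₀.C} {d : ℤ} (h : Sph A d) (hd : Odd d) (u : A ⟶ (U W).obj x.X₁) :
    u = 0 := by
  obtain ⟨l, rfl⟩ := hd
  rw [← cancel_epi h.some.inv, ← cancel_mono x.Y.e.hom, comp_zero, zero_comp]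
  exact x.A.odd l _

theorem of_mem (n t : ℤ) (h : t = 2 * n) (a : (Λ W).S n ⟶ x.P.E) :
    HRing.of (Λ W) x.P.E n a ∈ deg x.P.E t := by
  unfold Top.deg
  split_ifs with h4
  · obtain rfl : n = t / 2 := by omega
    exact ⟨a, rfl⟩
  · rw [x.A.zero n (Int.odd_iff.2 (by omega)) a]
    exact AddSubgroup.mem_bot.2 (DirectSum.of ((Λ W).Gr x.P.E) n).map_zero

theorem mem_deg {n t : ℤ} (h : t = 2 * n) {y : RR x} (hy : y ∈ deg x.P.E t) :
    ∃ a : (Λ W).S n ⟶ x.P.E, HRing.of (Λ W) x.P.E n a = y := by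
  unfold Top.deg at hy
  split_ifs at hy with h4
  · obtain rfl : n = t / 2 := by omega
    exact hy
  · exact ⟨0, (map_zero _).trans (AddSubgroup.mem_bot.1 hy).symm⟩

theorem deg_odd {t : ℤ} (h : Odd t) {y : RR x} (hy : y ∈ deg x.P.E t) : y = 0 := by
  unfold Top.deg at hy
  rw [if_neg (by obtain ⟨l, rfl⟩ := h; omega)] at hy
  exact AddSubgroup.mem_bot.1 hy

namespace Tow

variable (τ : Tow W)

theorem val_eq {m t n : ℤ} (h : m + t = 2 * n) (u : τ.S m t ⟶ (U W).obj x.X₁) :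
    τ.val x m t u = HRing.of (Λ W) x.P.E n ((τ.φ m t n h).hom ≫ u ≫ x.Y.e.hom) := by
  obtain rfl : n = (m + t) / 2 := by omega
  exact dif_pos ⟨(m + t) / 2, by omega⟩

theorem val_odd {m t : ℤ} (h : Odd (m + t)) (u : τ.S m t ⟶ (U W).obj x.X₁) :
    τ.val x m t u = 0 := dif_neg (Int.not_even_iff_odd.2 h)

theorem val_add (m t : ℤ) (u v : τ.S m t ⟶ (U W).obj x.X₁) :
    τ.val x m t (u + v) = τ.val x m t u + τ.val x m t v := by
  rcases Int.even_or_odd' (m + t) with ⟨n, h | h⟩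
  · simp only [τ.val_eq x h, Preadditive.add_comp, Preadditive.comp_add, map_add]
  · simp only [τ.val_odd x ⟨n, h⟩, add_zero]

/-- the value as a homomorphism -/
def valH (m t : ℤ) : (τ.S m t ⟶ (U W).obj x.X₁) →+ RR x :=
  AddMonoidHom.mk' (τ.val x m t) (τ.val_add x m t)

theorem val_zero (m t : ℤ) : τ.val x m t 0 = 0 := (τ.valH x m t).map_zero

theorem val_zsmul (m t e : ℤ) (u : τ.S m t ⟶ (U W).obj x.X₁) :
    τ.val x m t (e • u) = e • τ.val x m t u := (τ.valH x m t).map_zsmul e u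

theorem val_sub (m t : ℤ) (u v : τ.S m t ⟶ (U W).obj x.X₁) :
    τ.val x m t (u - v) = τ.val x m t u - τ.val x m t v := (τ.valH x m t).map_sub u v

theorem val_neg (m t : ℤ) (u : τ.S m t ⟶ (U W).obj x.X₁) :
    τ.val x m t (-u) = -τ.val x m t u := (τ.valH x m t).map_neg u

theorem val_mem (m t : ℤ) (u : τ.S m t ⟶ (U W).obj x.X₁) :
    τ.val x m t u ∈ deg x.P.E (m + t) := by
  rcases Int.even_or_odd' (m + t) with ⟨n, h | h⟩
  · rw [τ.val_eq x h]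
    exact of_mem x n _ h _
  · rw [τ.val_odd x ⟨n, h⟩]
    exact zero_mem _

theorem val_eq_zero {m t : ℤ} {u : τ.S m t ⟶ (U W).obj x.X₁} (hu : τ.val x m t u = 0) :
    u = 0 := by
  rcases Int.even_or_odd' (m + t) with ⟨n, h | h⟩
  · rw [τ.val_eq x h, ← map_zero (DirectSum.of ((Λ W).Gr x.P.E) n)] at hu
    rw [← cancel_epi (τ.φ m t n h).hom, ← cancel_mono x.Y.e.hom, Category.assoc,
      DirectSum.of_injective n hu, comp_zero, zero_comp]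
  · exact odd_zero x (τ.sph m t) ⟨n, h⟩ u

theorem val_inj {m t : ℤ} {u v : τ.S m t ⟶ (U W).obj x.X₁}
    (h : τ.val x m t u = τ.val x m t v) : u = v :=
  sub_eq_zero.1 (τ.val_eq_zero x (by rw [val_sub, h, sub_self]))

theorem val_surj (m t : ℤ) {d : ℤ} (hd : m + t = d) {y : RR x} (hy : y ∈ deg x.P.E d) :
    ∃ u : τ.S m t ⟶ (U W).obj x.X₁, τ.val x m t u = y := by
  subst hd
  rcases Int.even_or_odd' (m + t) with ⟨n, h | h⟩
  · obtain ⟨a, rfl⟩ := mem_deg x h hy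
    exact ⟨(τ.φ m t n h).inv ≫ a ≫ x.Y.e.inv, by simp [τ.val_eq x h]⟩
  · exact ⟨0, (τ.val_zero x m t).trans (deg_odd x ⟨n, h⟩ hy).symm⟩

theorem val_γ (m t : ℤ) (u : τ.S m t ⟶ (U W).obj x.X₁) :
    τ.val x m t (u ≫ W.s₁.γ x.X₁) = hA x.P (τ.val x m t u) := by
  rcases Int.even_or_odd' (m + t) with ⟨n, h | h⟩
  · rw [τ.val_eq x h, τ.val_eq x h, Category.assoc, γ_e]
    refine Eq.trans ?_ (HRing.map_of (x.P.ρ ≫ x.P.ρ ≫ x.P.ρ) n _).symm
    simp only [Category.assoc]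
  · simp only [τ.val_odd x ⟨n, h⟩, map_zero]

theorem val_G (m t : ℤ) (u : τ.S m t ⟶ (U W).obj x.X₁) :
    τ.val x m t (u ≫ (U W).map (W.s₂.γ x.X)) = gA x.P (τ.val x m t u) := by
  rcases Int.even_or_odd' (m + t) with ⟨n, h | h⟩
  · rw [τ.val_eq x h, τ.val_eq x h, Category.assoc, x.Y.e_h]
    refine Eq.trans ?_ (HRing.map_of x.P.ρ n _).symm
    simp only [Category.assoc]
  · simp only [τ.val_odd x ⟨n, h⟩, map_zero]

theorem val_dd (m t k : ℤ) (u : τ.S m t ⟶ (U W).obj x.X₁) :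
    τ.val x m t (u ≫ dd k x.X₁) = d1 (hA x.P) k (τ.val x m t u) := by
  unfold dd d1
  split_ifs
  · rw [Preadditive.comp_sub, val_sub, val_γ, Category.comp_id]
  · rw [Preadditive.comp_add, Preadditive.comp_add, val_add, val_add, ← Category.assoc,
      val_γ x τ m t (_ ≫ _), val_γ, Category.comp_id, tr]

/-- change of the cell -/
theorem val_iso {m t m' t' : ℤ} (h : m + t = m' + t') (κ : τ.S m t ≅ τ.S m' t') :
    ∃ e, Sg e ∧ ∀ u, τ.val x m t (κ.hom ≫ u) = e • τ.val x m' t' u := by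
  rcases Int.even_or_odd' (m + t) with ⟨n, k | k⟩
  · obtain ⟨e, he, h1⟩ := (sph_S n).sign ((τ.φ m t n k).hom ≫ κ.hom) (τ.φ m' t' n (h ▸ k)).hom
    refine ⟨e, he, fun u => ?_⟩
    rw [τ.val_eq x k, τ.val_eq x (h ▸ k), Category.assoc, reassoc_of% h1, Preadditive.zsmul_comp]
    exact (DirectSum.of ((Λ W).Gr x.P.E) n).map_zsmul _ _
  · exact ⟨1, Sg.one, fun u => by rw [τ.val_odd x ⟨n, k⟩, τ.val_odd x ⟨n, h ▸ k⟩, smul_zero]⟩

/-- products, for a framed isomorphism -/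
theorem val_mul {m t m' t' m'' t'' n n' n'' e : ℤ} (k : m + t = 2 * n) (k' : m' + t' = 2 * n')
    (k'' : m'' + t'' = 2 * n'') (l : n + n' = n'') (θ : τ.S m'' t'' ⟶ τ.S m t ⊗ τ.S m' t')
    (hθ : (τ.φ m'' t'' n'' k'').hom ≫ θ =
      e • ((Λ W).mu n n' n'' l).inv ≫ ((τ.φ m t n k).hom ⊗ₘ (τ.φ m' t' n' k').hom))
    (u : τ.S m t ⟶ (U W).obj x.X₁) (v : τ.S m' t' ⟶ (U W).obj x.X₁) :
    τ.val x m'' t'' (θ ≫ (u ⊗ₘ v) ≫ μ (U W) _ _ ≫ (U W).map x.mul₁) =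
      e • (τ.val x m t u * τ.val x m' t' v) := by
  rw [τ.val_eq x k, τ.val_eq x k', τ.val_eq x k'', of_mul_of l, ← map_zsmul]
  refine congrArg _ ?_
  simp only [Category.assoc]
  rw [reassoc_of% hθ, Mdl.mul₁, x.Y.e_mul, Preadditive.zsmul_comp, EvenSpheres.gmul,
    EvenSpheres.ext]
  simp only [Category.assoc, tensorHom_comp_tensorHom_assoc]

/-- products, up to sign -/
theorem val_mul' {m t m' t' m'' t'' : ℤ} (l : m + t + (m' + t') = m'' + t'')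
    (θ : τ.S m'' t'' ≅ τ.S m t ⊗ τ.S m' t') : ∃ e, Sg e ∧
    ∀ (u : τ.S m t ⟶ (U W).obj x.X₁) (v : τ.S m' t' ⟶ (U W).obj x.X₁),
      τ.val x m'' t'' (θ.hom ≫ (u ⊗ₘ v) ≫ μ (U W) _ _ ≫ (U W).map x.mul₁) =
        e • (τ.val x m t u * τ.val x m' t' v) := by
  rcases Int.even_or_odd' (m + t) with ⟨n, k | k⟩
  · rcases Int.even_or_odd' (m' + t') with ⟨n', k' | k'⟩
    · have k'' : m'' + t'' = 2 * (n + n') := by omega
      obtain ⟨e, he, h1⟩ := (sph_S (n + n')).sign ((τ.φ m'' t'' _ k'').hom ≫ θ.hom)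
        (((Λ W).mu n n' _ rfl).inv ≫ ((τ.φ m t n k).hom ⊗ₘ (τ.φ m' t' n' k').hom))
      exact ⟨e, he, τ.val_mul x k k' k'' rfl _ h1⟩
    · refine ⟨1, Sg.one, fun u v => ?_⟩
      rw [odd_zero x (τ.sph m' t') ⟨n', k'⟩ v]
      simp [val_zero]
  · refine ⟨1, Sg.one, fun u v => ?_⟩
    rw [odd_zero x (τ.sph m t) ⟨n, k⟩ u]
    simp [val_zero]

theorem jj_add (m t : ℤ) (a b : τ.A m t ⟶ x.X₁) :
    τ.jj x m t (a + b) = τ.jj x m t a + τ.jj x m t b := by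
  rw [jj, jj, jj, Functor.map_add, Preadditive.comp_add, val_add]

theorem jj_zsmul (m t e : ℤ) (a : τ.A m t ⟶ x.X₁) : τ.jj x m t (e • a) = e • τ.jj x m t a := by
  rw [jj, jj, Functor.map_zsmul, Preadditive.comp_zsmul, val_zsmul]

end Tow

end Vale.Agent.P236Z.SS
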