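import Vale.Agent.P236Z.SS.Tow0
import Vale.Agent.P251.M.EvenSys

/-!
# P236, block SS: the tower of the powers of the rotation sphere
-/

open CategoryTheory MonoidalCategory Limits Pretriangulated
open Functor.LaxMonoidal Functor.OplaxMonoidal
open Vale.Agent.P251 Vale.Agent.P251.T Vale.Agent.P251.M Vale.Agent.P251.I Vale.Agent.P251.G
  Vale.Agent.P236Z.Cat Vale.Agent.P236Z.Mod Vale.Agent.P236Z.Top

noncomputable section

namespace Vale.Agent.P236Z.SS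

namespace AsmAux

theorem dg_f (k : ℤ) : dgP (k, false) = 2 * k := by simp [dgP]

theorem dg_t (k : ℤ) : dgP (k, true) = 2 * k + 1 := by simp [dgP]

section mon

variable {C : Type 1} [Category.{0} C] [MonoidalCategory C] [SymmetricCategory C]

/-- the product of two diagonals -/
def tt {V V' V'' Y Y' Y'' : C} (m : V'' ⟶ V ⊗ V') (d : Y'' ⟶ Y ⊗ Y') :
    V'' ⊗ Y'' ⟶ (V ⊗ Y) ⊗ (V' ⊗ Y') := (m ⊗ₘ d) ≫ tensorμ V V' Y Y'

/-- the product of two diagonals which are isomorphisms -/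
def tti {V V' V'' Y Y' Y'' : C} (m : V'' ≅ V ⊗ V') (d : Y'' ≅ Y ⊗ Y') :
    V'' ⊗ Y'' ≅ (V ⊗ Y) ⊗ (V' ⊗ Y') :=
  (m ⊗ᵢ d) ≪≫ ⟨tensorμ V V' Y Y', tensorδ V V' Y Y', tensorμ_tensorδ _ _ _ _,
    tensorδ_tensorμ _ _ _ _⟩

section

variable {V V' V'' Y Y' Y'' Z : C} (m : V'' ⟶ V ⊗ V') (d : Y'' ⟶ Y ⊗ Y')

@[reassoc]
theorem tt_pre (a : Z ⟶ Y'') : V'' ◁ a ≫ tt m d = tt m (a ≫ d) := by
  rw [tt, tt, whiskerLeft_comp_tensorHom_assoc]

@[reassoc]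
theorem tt_post {A A' B B' : C} (f : V ⟶ A) (f' : V' ⟶ A') (g : Y ⟶ B) (g' : Y' ⟶ B') :
    tt m d ≫ ((f ⊗ₘ g) ⊗ₘ (f' ⊗ₘ g')) = tt (m ≫ (f ⊗ₘ f')) (d ≫ (g ⊗ₘ g')) := by
  rw [tt, tt, Category.assoc, ← tensorμ_natural, tensorHom_comp_tensorHom_assoc]

@[reassoc]
theorem tt_l (a : Y ⟶ Z) : tt m d ≫ (V ◁ a) ▷ (V' ⊗ Y') = tt m (d ≫ a ▷ Y') := by
  simpa using tt_post m d (𝟙 _) (𝟙 _) a (𝟙 _)

@[reassoc]
theorem tt_r (a : Y' ⟶ Z) : tt m d ≫ (V ⊗ Y) ◁ (V' ◁ a) = tt m (d ≫ Y ◁ a) := by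
  simpa using tt_post m d (𝟙 _) (𝟙 _) (𝟙 _) a

theorem tt_unit : (ρ_ V'').inv ≫ tt m (λ_ (𝟙_ C)).inv = m ≫ ((ρ_ V).inv ⊗ₘ (ρ_ V').inv) := by
  rw [tt, MonoidalCategory.tensorHom_def, Category.assoc, ← rightUnitor_inv_naturality_assoc, tensorμ]
  simp only [braiding_tensorUnit_right]
  monoidal

theorem tt_oe {A A' A'' : C} {p : A ⟶ V} {p' : A' ⟶ V'} {p'' : A'' ⟶ V''} {n : A'' ⟶ A ⊗ A'}
    (h : p'' ≫ m = n ≫ (p ⊗ₘ p')) (S : C) : p'' ▷ S ≫ tt m (ρ_ S).inv = n ▷ S ≫ (α_ _ _ _).hom ≫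
      A ◁ (β_ A' S).hom ≫ (α_ _ _ _).inv ≫ (p ▷ S ⊗ₘ (p' ≫ (ρ_ V').inv)) := by
  rw [tt, whiskerRight_comp_tensorHom_assoc, h, tensorHom_def', Category.assoc, comp_whiskerRight,
    Category.assoc, tensorμ_natural_left, whisker_exchange_assoc, rightUnitor_inv_naturality,
    ← whiskerLeft_comp_tensorHom, tensorμ]
  monoidal

theorem tt_eo {A A' A'' : C} {p : A ⟶ V} {p' : A' ⟶ V'} {p'' : A'' ⟶ V''} {n : A'' ⟶ A ⊗ A'}
    (h : p'' ≫ m = n ≫ (p ⊗ₘ p')) (S : C) : p'' ▷ S ≫ tt m (λ_ S).inv = n ▷ S ≫ (α_ _ _ _).hom ≫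
      ((p ≫ (ρ_ V).inv) ⊗ₘ p' ▷ S) := by
  rw [tt, whiskerRight_comp_tensorHom_assoc, h, tensorHom_def', Category.assoc, comp_whiskerRight,
    Category.assoc, tensorμ_natural_left, whisker_exchange_assoc, rightUnitor_inv_naturality,
    ← whiskerRight_comp_tensorHom, tensorμ, braiding_tensorUnit_right]
  monoidal

theorem phi_ee {A A' A'' : C} {p : A ⟶ V} {p' : A' ⟶ V'} {p'' : A'' ⟶ V''} {n : A'' ⟶ A ⊗ A'}
    (h : p'' ≫ m = n ≫ (p ⊗ₘ p')) : (p'' ≫ (ρ_ V'').inv) ≫ tt m (λ_ (𝟙_ C)).inv =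
      n ≫ ((p ≫ (ρ_ V).inv) ⊗ₘ (p' ≫ (ρ_ V').inv)) := by
  rw [Category.assoc, tt_unit, reassoc_of% h, tensorHom_comp_tensorHom]

theorem isFr_tt {L : C} [IsInv L] {a a' a'' b b' b'' : ℤ} {F : Fr L a V} {F' : Fr L a' V'}
    {F'' : Fr L a'' V''} {G : Fr L b Y} {G' : Fr L b' Y'} {G'' : Fr L b'' Y''}
    (ha : a'' = a + a') (hb : b'' = b + b') (hm : IsFr F'' (F.tensor F') m)
    (hd : IsFr G'' (G.tensor G') d) (h : SymFr F' G) :
    IsFr (F''.tensor G'') ((F.tensor G).tensor (F'.tensor G')) (tt m d) :=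
  IsFr.comp (by omega) (by omega) (IsFr.tensor ha hb hm hd) (isFr_tensorμ _ _ _ _ h)

end

variable (E : EvenSpheres C)

/-- absorption of a sphere -/
def ν (k k' : ℤ) (h : k + 1 = k') : E.S k ⊗ E.L ≅ E.S k' ⊗ 𝟙_ C :=
  frIso ((E.fr k).tensor (Fr.self _)) ((E.fr k').tensor (Fr.unit _)) (by omega)

@[reassoc]
theorem ν_l {k l k' s s' : ℤ} (h : k + 1 = l) (h' : s + 1 = s') (u : k + k' = s)
    (u' : l + k' = s') : (ν E s s' h').hom ≫ tt (E.mu l k' s' u').inv (λ_ (𝟙_ C)).inv =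
      tt (E.mu k k' s u).inv (ρ_ E.L).inv ≫ (ν E k l h).hom ▷ (E.S k' ⊗ 𝟙_ C) :=
  IsFr.unique (F := (E.fr s).tensor (Fr.self _))
    (G := ((E.fr l).tensor (Fr.unit _)).tensor ((E.fr k').tensor (Fr.unit _))) (by omega)
    (IsFr.comp (by omega) (by omega) (isFr_frIso_hom _ _ _) (isFr_tt _ _ u'.symm rfl
      (isFr_frIso_inv _ _ _) (IsFr.inv' rfl (isFr_leftUnitor _)) (SymFr.unit _).symm))
    (IsFr.comp (by omega) (by omega) (isFr_tt _ _ u.symm rfl (isFr_frIso_inv _ _ _)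
      (IsFr.inv' rfl (isFr_rightUnitor _))
        (SymFr.of_isFr_right rfl E.isFr_oneIso (E.symFr k' 1)))
      (IsFr.whiskerRight (by omega) (isFr_frIso_hom _ _ _)))

@[reassoc]
theorem ν_r {k k' l s s' : ℤ} (h : k' + 1 = l) (h' : s + 1 = s') (u : k + k' = s)
    (u' : k + l = s') : (ν E s s' h').hom ≫ tt (E.mu k l s' u').inv (λ_ (𝟙_ C)).inv =
      tt (E.mu k k' s u).inv (λ_ E.L).inv ≫ (E.S k ⊗ 𝟙_ C) ◁ (ν E k' l h).hom :=
  IsFr.unique (F := (E.fr s).tensor (Fr.self _))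
    (G := ((E.fr k).tensor (Fr.unit _)).tensor ((E.fr l).tensor (Fr.unit _))) (by omega)
    (IsFr.comp (by omega) (by omega) (isFr_frIso_hom _ _ _) (isFr_tt _ _ u'.symm rfl
      (isFr_frIso_inv _ _ _) (IsFr.inv' rfl (isFr_leftUnitor _)) (SymFr.unit _).symm))
    (IsFr.comp (by omega) (by omega) (isFr_tt _ _ u.symm rfl (isFr_frIso_inv _ _ _)
      (IsFr.inv' rfl (isFr_leftUnitor _)) (SymFr.unit _).symm)
      (IsFr.whiskerLeft (by omega) (isFr_frIso_hom _ _ _)))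

/-- the unit or a given object -/
def Yo (P : C) : Bool → C
  | false => 𝟙_ C
  | true => P

variable {P : C} (a₀ : 𝟙_ C ⟶ P) (a₁ : P ⟶ E.L) (d : E.L ⟶ P ⊗ P)

/-- the steps -/
def st : ∀ i j : ℤ × Bool, dgP i + 1 = dgP j → (E.S i.1 ⊗ Yo P i.2 ⟶ E.S j.1 ⊗ Yo P j.2)
  | (k, false), (l, true), h => by
    obtain rfl : k = l := by rw [dg_f, dg_t] at h; omega
    exact E.S k ◁ a₀
  | (k, true), (l, false), h => E.S k ◁ a₁ ≫ (ν E k l (by rw [dg_f, dg_t] at h; omega)).hom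
  | (_, false), (_, false), h => absurd h (by rw [dg_f, dg_f]; omega)
  | (_, true), (_, true), h => absurd h (by rw [dg_t, dg_t]; omega)

/-- the diagonals -/
def dl : ∀ i i' j : ℤ × Bool, dgP i + dgP i' = dgP j →
    (E.S j.1 ⊗ Yo P j.2 ⟶ (E.S i.1 ⊗ Yo P i.2) ⊗ (E.S i'.1 ⊗ Yo P i'.2))
  | (k, false), (k', false), (s, false), h =>
    tt (E.mu k k' s (by simp only [dg_f] at h; omega)).inv (λ_ _).inv
  | (k, false), (k', true), (s, true), h =>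
    tt (E.mu k k' s (by simp only [dg_f, dg_t] at h; omega)).inv (λ_ _).inv
  | (k, true), (k', false), (s, true), h =>
    tt (E.mu k k' s (by simp only [dg_f, dg_t] at h; omega)).inv (ρ_ _).inv
  | (k, true), (k', true), (s, false), h =>
    (ν E (k + k') s (by simp only [dg_f, dg_t] at h; omega)).inv ≫ tt (E.mu k k' _ rfl).inv d
  | (_, false), (_, false), (_, true), h => absurd h (by simp only [dg_f, dg_t]; omega)
  | (_, false), (_, true), (_, false), h => absurd h (by simp only [dg_f, dg_t]; omega)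
  | (_, true), (_, false), (_, false), h => absurd h (by simp only [dg_f, dg_t]; omega)
  | (_, true), (_, true), (_, true), h => absurd h (by simp only [dg_t]; omega)

theorem dl_l (h1 : a₁ ≫ d = (λ_ P).inv ≫ a₀ ▷ P) (h2 : d ≫ a₁ ▷ P = (ρ_ _).inv ≫ E.L ◁ a₀) :
    ∀ {i j i' i'' j''} (h : dgP i + dgP i' = dgP i'') (h₁ : dgP j + dgP i' = dgP j'')
    (e : dgP i + 1 = dgP j) (e'' : dgP i'' + 1 = dgP j''),
    st E a₀ a₁ _ _ e'' ≫ dl E d _ _ _ h₁ = dl E d _ _ _ h ≫ st E a₀ a₁ _ _ e ▷ _ := by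
  rintro ⟨k, _ | _⟩ ⟨l, _ | _⟩ ⟨k', _ | _⟩ ⟨s, _ | _⟩ ⟨s', _ | _⟩ h h₁ e e'' <;>
    have := And.intro h (And.intro e e'') <;> simp only [dg_f, dg_t] at this <;> try omega
  · obtain rfl : k = l := by omega
    obtain rfl : s = s' := by omega
    exact (tt_pre _ _ _).trans ((congrArg _ (by monoidal)).trans (tt_l _ _ _).symm)
  · obtain rfl : k = l := by omega
    obtain rfl : k + k' = s := by omega
    refine ((Category.assoc _ _ _).trans (congrArg _ (Iso.hom_inv_id_assoc _ _))).trans ?_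
    exact (tt_pre _ _ _).trans ((congrArg _ h1).trans (tt_l _ _ _).symm)
  · change (_ ◁ a₁ ≫ (ν E s s' (by omega)).hom) ≫ tt (E.mu l k' s' (by omega)).inv (λ_ (𝟙_ C)).inv =
      tt (E.mu k k' s (by omega)).inv (ρ_ P).inv ≫ (_ ◁ a₁ ≫ (ν E k l (by omega)).hom) ▷ (_ ⊗ 𝟙_ C)
    rw [Category.assoc, ν_l E (by omega : k + 1 = l) _ (by omega), tt_pre_assoc, comp_whiskerRight,
      tt_l_assoc, rightUnitor_inv_naturality]
  · obtain rfl : s = s' := by omega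
    change _ ◁ a₀ ≫ tt (E.mu l k' s (by omega)).inv (λ_ P).inv = ((ν E (k + k') s (by omega)).inv ≫
      tt (E.mu k k' _ rfl).inv d) ≫ (_ ◁ a₁ ≫ (ν E k l (by omega)).hom) ▷ (_ ⊗ P)
    rw [Category.assoc, comp_whiskerRight, tt_l_assoc, h2, ← tt_r, Category.assoc, whisker_exchange,
      ← ν_l_assoc E _ (by omega : k + k' + 1 = s) _ (by omega), Iso.inv_hom_id_assoc, tt_pre, tt_r,
      leftUnitor_inv_naturality]

theorem dl_r (h1 : a₁ ≫ d = (ρ_ P).inv ≫ P ◁ a₀) (h2 : d ≫ P ◁ a₁ = (λ_ _).inv ≫ a₀ ▷ E.L) :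
    ∀ {i i' j' i'' j''} (h : dgP i + dgP i' = dgP i'') (h₁ : dgP i + dgP j' = dgP j'')
    (e : dgP i' + 1 = dgP j') (e'' : dgP i'' + 1 = dgP j''),
    st E a₀ a₁ _ _ e'' ≫ dl E d _ _ _ h₁ = dl E d _ _ _ h ≫ _ ◁ st E a₀ a₁ _ _ e := by
  rintro ⟨k, _ | _⟩ ⟨k', _ | _⟩ ⟨l, _ | _⟩ ⟨s, _ | _⟩ ⟨s', _ | _⟩ h h₁ e e'' <;>
    have := And.intro h (And.intro e e'') <;> simp only [dg_f, dg_t] at this <;> try omega
  · obtain rfl : k' = l := by omega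
    obtain rfl : s = s' := by omega
    exact (tt_pre _ _ _).trans
      ((congrArg _ (leftUnitor_inv_naturality _)).trans (tt_r _ _ _).symm)
  · change (_ ◁ a₁ ≫ (ν E s s' (by omega)).hom) ≫ tt (E.mu k l s' (by omega)).inv (λ_ (𝟙_ C)).inv =
      tt (E.mu k k' s (by omega)).inv (λ_ P).inv ≫ (_ ⊗ 𝟙_ C) ◁ (_ ◁ a₁ ≫ (ν E k' l (by omega)).hom)
    rw [Category.assoc, ν_r E (by omega : k' + 1 = l) _ (by omega), tt_pre_assoc,
      MonoidalCategory.whiskerLeft_comp, tt_r_assoc, leftUnitor_inv_naturality]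
  · obtain rfl : k' = l := by omega
    obtain rfl : k + k' = s := by omega
    refine ((Category.assoc _ _ _).trans (congrArg _ (Iso.hom_inv_id_assoc _ _))).trans ?_
    exact (tt_pre _ _ _).trans ((congrArg _ h1).trans (tt_r _ _ _).symm)
  · obtain rfl : s = s' := by omega
    change _ ◁ a₀ ≫ tt (E.mu k l s (by omega)).inv (ρ_ P).inv = ((ν E (k + k') s (by omega)).inv ≫
      tt (E.mu k k' _ rfl).inv d) ≫ (_ ⊗ P) ◁ (_ ◁ a₁ ≫ (ν E k' l (by omega)).hom)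
    rw [Category.assoc, MonoidalCategory.whiskerLeft_comp, tt_r_assoc, h2, ← tt_l, Category.assoc,
      ← whisker_exchange, ← ν_r_assoc E _ (by omega : k + k' + 1 = s) _ (by omega),
      Iso.inv_hom_id_assoc, tt_pre, tt_l, rightUnitor_inv_naturality, unitors_inv_equal]

theorem st_st (h1 : a₁ ≫ d = (λ_ P).inv ≫ a₀ ▷ P) (h2 : d ≫ a₁ ▷ P = (ρ_ _).inv ≫ E.L ◁ a₀) :
    ∀ {i j k} (h : dgP i + 1 = dgP j) (h' : dgP j + 1 = dgP k),
    ∃ ξ : E.S k.1 ⊗ Yo P k.2 ≅ E.L ⊗ (E.S i.1 ⊗ Yo P i.2),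
      st E a₀ a₁ _ _ h ≫ st E a₀ a₁ _ _ h' ≫ ξ.hom = (λ_ _).inv ≫ (a₀ ≫ a₁) ▷ _ := by
  rintro ⟨k, _ | _⟩ ⟨l, _ | _⟩ ⟨s, _ | _⟩ h h' <;>
    have := And.intro h h' <;> simp only [dg_f, dg_t] at this <;> try omega
  · obtain rfl : k = l := by omega
    refine ⟨(ν E k s (by omega)).symm ≪≫ β_ _ _ ≪≫ whiskerLeftIso _ (ρ_ _).symm, ?_⟩
    change _ ◁ a₀ ≫ (_ ◁ a₁ ≫ (ν E k s (by omega)).hom) ≫ (ν E k s (by omega)).inv ≫ (β_ _ _).hom ≫
      E.L ◁ (ρ_ (E.S k)).inv = (λ_ (E.S k ⊗ 𝟙_ C)).inv ≫ (a₀ ≫ a₁) ▷ (E.S k ⊗ 𝟙_ C)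
    rw [Category.assoc, Iso.hom_inv_id_assoc, ← MonoidalCategory.whiskerLeft_comp_assoc,
      BraidedCategory.braiding_naturality_right_assoc, ← whisker_exchange,
      braiding_tensorUnit_right]
    monoidal
  · obtain rfl : l = s := by omega
    refine ⟨whiskerRightIso ((ρ_ _).symm ≪≫ (ν E k l (by omega)).symm ≪≫ β_ _ _) P ≪≫ α_ _ _ _, ?_⟩
    change (_ ◁ a₁ ≫ (ν E k l (by omega)).hom) ≫ _ ◁ a₀ ≫
      ((ρ_ (E.S l)).inv ≫ (ν E k l (by omega)).inv ≫ (β_ _ _).hom) ▷ P ≫ (α_ E.L (E.S k) P).hom =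
        (λ_ (E.S k ⊗ P)).inv ≫ (a₀ ≫ a₁) ▷ (E.S k ⊗ P)
    have h3 : a₁ ≫ (ρ_ _).inv ≫ E.L ◁ a₀ = (λ_ _).inv ≫ (a₀ ≫ a₁) ▷ P := by
      rw [← h2, reassoc_of% h1, comp_whiskerRight]
    calc _ = E.S k ◁ (a₁ ≫ (ρ_ _).inv ≫ E.L ◁ a₀) ≫ (α_ _ _ _).inv ≫ (β_ _ _).hom ▷ P ≫
          (α_ E.L (E.S k) P).hom := by
          rw [whisker_exchange_assoc, whiskerRight_id, Category.assoc, Category.assoc,
            Category.assoc, Category.assoc, Iso.hom_inv_id_assoc, Category.assoc,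
            Iso.hom_inv_id_assoc, MonoidalCategory.whiskerLeft_comp, MonoidalCategory.whiskerLeft_comp, Category.assoc,
            Category.assoc, associator_inv_naturality_right_assoc, whisker_exchange_assoc]
          monoidal
      _ = _ := by
          rw [h3, MonoidalCategory.whiskerLeft_comp, Category.assoc,
            associator_inv_naturality_middle_assoc, ← comp_whiskerRight_assoc,
            BraidedCategory.braiding_naturality_right, braiding_tensorUnit_right]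
          monoidal

end mon

section tri

variable {T : Type 1} [Category.{0} T] [Preadditive T] [HasZeroObject T] [HasShift T ℤ]
  [∀ n : ℤ, (shiftFunctor T n).Additive] [Pretriangulated T]
  [MonoidalCategory T] [SymmetricCategory T] [TensorTriangulated T]

open TensorTriangulated

@[reassoc]
theorem e_inv_nat {Y Z : T} (f : Y ⟶ Z) :
    f⟦(1 : ℤ)⟧' ≫ (e Z).inv = (e Y).inv ≫ f ▷ (𝟙_ T)⟦(1 : ℤ)⟧ := by
  rw [Iso.comp_inv_eq, Category.assoc, Iso.eq_inv_comp, e_naturality]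

theorem rS_hom (A B : T) : (rS A B).hom = A ◁ (e B).inv ≫ (α_ _ _ _).inv ≫ (e (A ⊗ B)).hom :=
  P251.S.tensorLeft_commShiftIso_one_app A B

theorem rS_inv (A B : T) : (rS A B).inv = (e (A ⊗ B)).inv ≫ (α_ _ _ _).hom ≫ A ◁ (e B).hom := by
  rw [← cancel_epi (rS A B).hom, Iso.hom_inv_id, rS_hom]
  simp

theorem lS_inv (A B : T) : (lS A B).inv = (e (A ⊗ B)).inv ≫ (α_ _ _ _).hom ≫
    A ◁ (β_ B _).hom ≫ (α_ _ _ _).inv ≫ (e A).hom ▷ B := by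
  have h : (rS B A).hom ≫ (β_ B A).hom⟦(1 : ℤ)⟧' = (β_ B (A⟦(1 : ℤ)⟧)).hom ≫ (lS A B).hom :=
    NatTrans.shift_app_comm (BraidedCategory.tensorLeftIsoTensorRight B).hom (1 : ℤ) A
  rw [← cancel_epi (lS A B).hom, Iso.hom_inv_id, ← cancel_epi (β_ B (A⟦(1 : ℤ)⟧)).hom,
    ← reassoc_of% h, e_inv_nat_assoc, rS_hom]
  simp only [Category.assoc, Iso.hom_inv_id_assoc, Category.comp_id]
  rw [← cancel_mono ((e A).inv ▷ B), ← BraidedCategory.braiding_naturality_right]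
  simp

variable {X X' X'' A A' A'' : T} {p : A ⟶ X} {p' : A' ⟶ X'} {p'' : A'' ⟶ X''}
  {f : X'' ⟶ X ⊗ X'} {m : A'' ⟶ A ⊗ A'} (h : p'' ≫ f = m ≫ (p ⊗ₘ p'))
include h

theorem psi_oe : (p''⟦(1 : ℤ)⟧' ≫ (e X'').inv) ≫ tt f (ρ_ _).inv =
    m⟦(1 : ℤ)⟧' ≫ (lS A A').inv ≫ ((p⟦(1 : ℤ)⟧' ≫ (e X).inv) ⊗ₘ (p' ≫ (ρ_ X').inv)) := by
  rw [lS_inv, e_inv_nat, e_inv_nat, Category.assoc, tt_oe f h]
  simp only [Category.assoc, e_inv_nat_assoc, whiskerRight_comp_tensorHom, Iso.hom_inv_id_assoc]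

theorem psi_eo : (p''⟦(1 : ℤ)⟧' ≫ (e X'').inv) ≫ tt f (λ_ _).inv =
    m⟦(1 : ℤ)⟧' ≫ (rS A A').inv ≫ ((p ≫ (ρ_ X).inv) ⊗ₘ (p'⟦(1 : ℤ)⟧' ≫ (e X').inv)) := by
  rw [rS_inv, e_inv_nat, e_inv_nat, Category.assoc, tt_eo f h]
  simp only [Category.assoc, e_inv_nat_assoc, whiskerLeft_comp_tensorHom, Iso.hom_inv_id_assoc]

end tri

section tow

variable {W : Tower} (E : EvenSpheres W.T₁.C) {P : W.T₁.C}

/-- the generating cells of the first two stages -/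
def gg (g : (𝟙_ W.T₀.C)⟦(1 : ℤ)⟧ ⟶ (U W).obj P) :
    ∀ e, Yo ((𝟙_ W.T₀.C)⟦(1 : ℤ)⟧) e ⟶ (U W).obj (Yo P e)
  | false => ε (U W)
  | true => g

/-- the boundaries -/
def bb (b₀ : P ⟶ (W.s₁.ind.obj (𝟙_ W.T₀.C))⟦(1 : ℤ)⟧)
    (b₁ : E.L ⟶ (W.s₁.ind.obj ((𝟙_ W.T₀.C)⟦(1 : ℤ)⟧))⟦(1 : ℤ)⟧) :
    ∀ i j : ℤ × Bool, dgP i + 1 = dgP j → (E.S j.1 ⊗ Yo P j.2 ⟶
      (W.s₁.ind.obj ((U W).obj (E.S i.1) ⊗ Yo ((𝟙_ W.T₀.C)⟦(1 : ℤ)⟧) i.2))⟦(1 : ℤ)⟧)
  | (k, false), (l, true), h => by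
    obtain rfl : k = l := by rw [dg_f, dg_t] at h; omega
    exact tb (E.S k) b₀
  | (k, true), (l, false), h => (ν E k l (by rw [dg_f, dg_t] at h; omega)).inv ≫ tb (E.S k) b₁
  | (_, false), (_, false), h => absurd h (by rw [dg_f, dg_f]; omega)
  | (_, true), (_, true), h => absurd h (by rw [dg_t, dg_t]; omega)

/-- the restriction of the absorption -/
def ιU (k l : ℤ) (h : k + 1 = l) :
    (U W).obj (E.S l) ⊗ 𝟙_ W.T₀.C ≅ (U W).obj (E.S k) ⊗ (U W).obj E.L :=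
  whiskerLeftIso _ (Functor.Monoidal.εIso (U W)) ≪≫ Functor.Monoidal.μIso (U W) _ _ ≪≫
    (U W).mapIso (ν E k l h).symm ≪≫ (Functor.Monoidal.μIso (U W) _ _).symm

theorem tg_ν (k l : ℤ) (h : k + 1 = l) {Y : W.T₁.C} {Z Z' : W.T₀.C} {b : E.S k ⊗ E.L ⟶ Y}
    {c : (U W).obj Y ⟶ Z} {r : _ ⟶ Z'} {r' : Z' ⟶ Z}
    (h' : tg (E.S k) (𝟙 _) ≫ (U W).map b ≫ c = r ≫ r') :
    tg (E.S l) (ε (U W)) ≫ (U W).map ((ν E k l h).inv ≫ b) ≫ c = ((ιU E k l h).hom ≫ r) ≫ r' := by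
  rw [Category.assoc, ← h']
  simp [tg, ιU]

theorem dist_iso {A X Y Y' : W.T₁.C} {f : A ⟶ X} {g : X ⟶ Y} {h : Y ⟶ A⟦(1 : ℤ)⟧}
    (D : H.Dist f g h) (e : Y ≅ Y') : H.Dist f (g ≫ e.hom) (e.inv ≫ h) :=
  D.of_iso₃ e.inv (by simp) rfl

/-- the restriction of the diagonal -/
def um (k k' s : ℤ) (h : k + k' = s) :
    (U W).obj (E.S s) ≅ (U W).obj (E.S k) ⊗ (U W).obj (E.S k') :=
  (U W).mapIso (E.mu k k' s h).symm ≪≫ (Functor.Monoidal.μIso (U W) _ _).symm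

/-- the diagonals of the spheres -/
def th (θ : (U W).obj E.L ≅ (𝟙_ W.T₀.C)⟦(1 : ℤ)⟧ ⊗ (𝟙_ W.T₀.C)⟦(1 : ℤ)⟧) :
    ∀ i i' j : ℤ × Bool, dgP i + dgP i' = dgP j →
      ((U W).obj (E.S j.1) ⊗ Yo ((𝟙_ W.T₀.C)⟦(1 : ℤ)⟧) j.2 ≅
        ((U W).obj (E.S i.1) ⊗ Yo ((𝟙_ W.T₀.C)⟦(1 : ℤ)⟧) i.2) ⊗
          ((U W).obj (E.S i'.1) ⊗ Yo ((𝟙_ W.T₀.C)⟦(1 : ℤ)⟧) i'.2))
  | (k, false), (k', false), (s, false), h =>
    tti (um E k k' s (by simp only [dg_f] at h; omega)) (λ_ _).symm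
  | (k, false), (k', true), (s, true), h =>
    tti (um E k k' s (by simp only [dg_f, dg_t] at h; omega)) (λ_ _).symm
  | (k, true), (k', false), (s, true), h =>
    tti (um E k k' s (by simp only [dg_f, dg_t] at h; omega)) (ρ_ _).symm
  | (k, true), (k', true), (s, false), h =>
    ιU E (k + k') s (by simp only [dg_f, dg_t] at h; omega) ≪≫ tti (um E k k' _ rfl) θ
  | (_, false), (_, false), (_, true), h => absurd h (by simp only [dg_f, dg_t]; omega)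
  | (_, false), (_, true), (_, false), h => absurd h (by simp only [dg_f, dg_t]; omega)
  | (_, true), (_, false), (_, false), h => absurd h (by simp only [dg_f, dg_t]; omega)
  | (_, true), (_, true), (_, true), h => absurd h (by simp only [dg_t]; omega)

variable (π : ∀ k, (Λ W).S k ≅ (U W).obj (E.S k))

/-- the even framings -/
def ph : ∀ (i : ℤ × Bool) (n : ℤ), dgP i = 2 * n →
    ((Λ W).S n ≅ (U W).obj (E.S i.1) ⊗ Yo ((𝟙_ W.T₀.C)⟦(1 : ℤ)⟧) i.2)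
  | (k, false), n, h => by
    obtain rfl : k = n := by rw [dg_f] at h; omega
    exact π k ≪≫ (ρ_ _).symm
  | (_, true), _, h => absurd h (by rw [dg_t]; omega)

/-- the odd framings -/
def ps : ∀ (i : ℤ × Bool) (n : ℤ), dgP i = 2 * n + 1 →
    (((Λ W).S n)⟦(1 : ℤ)⟧ ≅ (U W).obj (E.S i.1) ⊗ Yo ((𝟙_ W.T₀.C)⟦(1 : ℤ)⟧) i.2)
  | (k, true), n, h => by
    obtain rfl : k = n := by rw [dg_t] at h; omega
    exact (shiftFunctor _ (1 : ℤ)).mapIso (π k) ≪≫ (TensorTriangulated.e _).symm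
  | (_, false), _, h => absurd h (by rw [dg_f]; omega)

theorem U_zero (V : W.T₁.C) {X Y : W.T₁.C} {f : X ⟶ Y} (h : (U W).map f = 0) :
    (U W).map (V ◁ f) = 0 := by
  rw [Functor.Monoidal.map_whiskerLeft, h, MonoidalPreadditive.whiskerLeft_zero, zero_comp,
    comp_zero]

theorem gen_l {S : W.T₀.C} {Y : W.T₁.C} (g : S ⟶ (U W).obj Y) {m m' : ℤ} (h : ¬Odd m) :
    g ≫ (U W).map (λ_ Y).inv ≫ δ (U W) _ _ = (λ_ S).inv ≫ cupf m m' (ε (U W)) g := by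
  rw [cupf, if_neg fun h' => h h'.1, Functor.Monoidal.map_leftUnitor_inv, Category.assoc,
    Category.assoc, Functor.Monoidal.μ_δ, Category.comp_id, leftUnitor_inv_naturality_assoc,
    tensorHom_def']

theorem gen_r {S : W.T₀.C} {Y : W.T₁.C} (g : S ⟶ (U W).obj Y) {m m' : ℤ} (h : ¬Odd m') :
    g ≫ (U W).map (ρ_ Y).inv ≫ δ (U W) _ _ = (ρ_ S).inv ≫ cupf m m' g (ε (U W)) := by
  rw [cupf, if_neg fun h' => h h'.2, Functor.Monoidal.map_rightUnitor_inv, Category.assoc,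
    Category.assoc, Functor.Monoidal.μ_δ, Category.comp_id, rightUnitor_inv_naturality_assoc,
    MonoidalCategory.tensorHom_def]

theorem ev (k : ℤ) : Even (dgP (k, false)) := ⟨k, by rw [dg_f]; omega⟩

theorem od (k : ℤ) : Odd (dgP (k, true)) := ⟨k, dg_t k⟩

end tow

end AsmAux

open AsmAux in
theorem asm (W : Tower) : ASM W := by
  intro G T h2 h3 σ
  obtain ⟨sw, L', ⟨j⟩⟩ := h2 G
  let E : EvenSpheres W.T₁.C := ⟨W.s₁.Lr, L', j, sw⟩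
  obtain ⟨hγ, π, hπ⟩ := h3 E ⟨σ.θ⟩ G.c1.2
  have hV : ∀ k, Sph ((U W).obj (E.S k)) (2 * k) := fun k => (sph_S k).of_iso (π k).symm
  exact ⟨{
    B i := E.S i.1 ⊗ Yo σ.P i.2
    st h := st E σ.a₀ σ.a₁ _ _ h
    S i := (U W).obj (E.S i.1) ⊗ Yo ((𝟙_ W.T₀.C)⟦(1 : ℤ)⟧) i.2
    sph := by
      rintro ⟨k, _ | _⟩
      · exact (hV k).tensor sph_unit
      · exact (hV k).tensor ⟨Iso.refl _⟩
    gen i := tg (E.S i.1) (gg σ.g i.2)
    b h := bb E σ.b₀ σ.b₁ _ _ h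
    dist := by
      rintro ⟨k, _ | _⟩ ⟨l, _ | _⟩ h <;> have := h <;> simp only [dg_f, dg_t] at this <;> try omega
      · obtain rfl : k = l := by omega
        exact T.dist _ σ.dist₀
      · exact dist_iso (T.dist _ σ.dist₁) (ν E k l (by omega))
    cell := by
      rintro ⟨k, _ | _⟩
      · exact ((hV k).cell.tensor (sph_unit.of_iso (Functor.Monoidal.εIso (U W)).symm).cell _
          rfl).of_iso (Functor.Monoidal.μIso (U W) _ _)
      · exact ((hV k).cell.tensor σ.cell _ rfl).of_iso (Functor.Monoidal.μIso (U W) _ _)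
    U_st := by
      rintro ⟨k, _ | _⟩ ⟨l, _ | _⟩ h <;> have := h <;> simp only [dg_f, dg_t] at this <;> try omega
      · obtain rfl : k = l := by omega
        exact U_zero _ σ.U_a₀
      · exact ((U W).map_comp _ _).trans ((congrArg (· ≫ _) (U_zero _ σ.U_a₁)).trans zero_comp)
    gen_iso := by
      rintro ⟨k, _ | _⟩ h
      · exact inferInstanceAs (IsIso (_ ◁ ε (U W) ≫ μ (U W) _ _))
      · exact absurd (od k) (Int.not_odd_iff_even.2 h)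
    gen_b := by
      rintro ⟨k, _ | _⟩ ⟨l, _ | _⟩ h <;> have := h <;> simp only [dg_f, dg_t] at this <;> try omega
      · obtain rfl : k = l := by omega
        refine ⟨whiskerLeftIso _ (Iso.refl _) ≪≫ rS _ _, T.gen_b _ (hγ k) ?_⟩
        rw [dd_congr (iff_of_true (ev k) Even.zero)]
        exact σ.g_b₀.trans (Category.id_comp _).symm
      · obtain ⟨κ, hκ⟩ := σ.g_b₁
        refine ⟨ιU E k l (by omega) ≪≫ whiskerLeftIso _ κ ≪≫ rS _ _, ?_⟩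
        rw [dd_congr (iff_of_false (Int.not_even_iff_odd.2 (od k)) Int.not_even_one)]
        exact tg_ν E k l (by omega) (T.gen_b _ (hγ k) ((Category.id_comp _).trans hκ))
    δ h := dl E σ.d _ _ _ h
    δ_l := dl_l E σ.a₀ σ.a₁ σ.d σ.a_d σ.d_a
    δ_r := dl_r E σ.a₀ σ.a₁ σ.d σ.a_d' σ.d_a'
    θ h := th E σ.θ _ _ _ h
    gen_δ := by
      rintro ⟨k, _ | _⟩ ⟨k', _ | _⟩ ⟨s, _ | _⟩ h <;> have := h <;>
        simp only [dg_f, dg_t] at this <;> try omega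
      · exact T.gen_δ _ (hγ k) (hγ k') (gen_l _ (Int.not_odd_iff_even.2 (ev k)))
      · exact T.gen_δ _ (hγ k) (hγ k') (gen_l _ (Int.not_odd_iff_even.2 (ev k)))
      · exact T.gen_δ _ (hγ k) (hγ k') (gen_r _ (Int.not_odd_iff_even.2 (ev k')))
      · rw [cupf_congr (iff_of_true ⟨od k, od k'⟩ ⟨odd_one, odd_one⟩)]
        exact tg_ν E (k + k') s (by omega)
          (T.gen_δ (E.mu k k' _ rfl).inv (hγ k) (hγ k') ((Category.id_comp _).trans σ.U_d))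
    φ := ph E π
    ψ := ps E π
    φ_ee := by
      rintro ⟨k, _ | _⟩ ⟨k', _ | _⟩ ⟨s, _ | _⟩ n n' n'' h l e e' e'' <;>
        have := And.intro e (And.intro e' e'') <;> simp only [dg_f, dg_t] at this <;> try omega
      obtain rfl : k = n := by omega
      obtain rfl : k' = n' := by omega
      obtain rfl : s = n'' := by omega
      exact phi_ee _ (hπ k k' s l)
    ψ_oe := by
      rintro ⟨k, _ | _⟩ ⟨k', _ | _⟩ ⟨s, _ | _⟩ n n' n'' h l e e' e'' <;>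
        have := And.intro e (And.intro e' e'') <;> simp only [dg_f, dg_t] at this <;> try omega
      obtain rfl : k = n := by omega
      obtain rfl : k' = n' := by omega
      obtain rfl : s = n'' := by omega
      exact psi_oe (hπ k k' s l)
    ψ_eo := by
      rintro ⟨k, _ | _⟩ ⟨k', _ | _⟩ ⟨s, _ | _⟩ n n' n'' h l e e' e'' <;>
        have := And.intro e (And.intro e' e'') <;> simp only [dg_f, dg_t] at this <;> try omega
      obtain rfl : k = n := by omega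
      obtain rfl : k' = n' := by omega
      obtain rfl : s = n'' := by omega
      exact psi_eo (hπ k k' s l)
    ξ h h' := σ.a_a ▸ st_st E σ.a₀ σ.a₁ σ.d σ.a_d σ.d_a h h'
    ζ := by
      rintro ⟨k, _ | _⟩ h <;> simp only [dg_f, dg_t] at h
      · obtain rfl : k = 0 := by omega
        exact ⟨λ_ _⟩
      · omega }⟩

end Vale.Agent.P236Z.SS
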