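import Vale.Agent.P236Z.SS.Tow0

/-!
# P236, block SS: the suspension coordinate of the tower (row EXT)
-/

open CategoryTheory MonoidalCategory Limits Pretriangulated BraidedCategory
open Functor.LaxMonoidal Functor.OplaxMonoidal
open Vale.Agent.P251 Vale.Agent.P251.T Vale.Agent.P251.M Vale.Agent.P251.I Vale.Agent.P251.G
  Vale.Agent.P236Z.Cat Vale.Agent.P236Z.Mod Vale.Agent.P236Z.Top

noncomputable section

namespace Vale.Agent.P236Z.SS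

namespace Ex

section sym

variable {T : Type 1} [Category.{0} T] [MonoidalCategory T] [SymmetricCategory T]

theorem sym1 (X X' Y Y' Z : T) : tensorμ X X' (Y ⊗ Z) Y' ≫ (α_ X Y Z).inv ▷ (X' ⊗ Y') ≫
    (α_ _ _ _).hom ≫ (X ⊗ Y) ◁ (β_ Z (X' ⊗ Y')).hom ≫ (α_ _ _ _).inv =
    (X ⊗ X') ◁ ((α_ Y Z Y').hom ≫ Y ◁ (β_ Z Y').hom ≫ (α_ _ _ _).inv) ≫ (α_ _ _ _).inv ≫
      tensorμ X X' Y Y' ▷ Z := by
  calc _ = 𝟙 _ ⊗≫ X ◁ (β_ X' Y).hom ▷ (Z ⊗ Y') ⊗≫ (X ⊗ Y) ◁ ((β_ X' Z).hom ≫ (β_ Z X').hom) ▷ Y' ⊗≫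
        (X ⊗ Y ⊗ X') ◁ (β_ Z Y').hom ⊗≫ 𝟙 _ := by
        rw [tensorμ, braiding_tensor_right_hom, braiding_tensor_right_hom]; monoidal
    _ = 𝟙 _ ⊗≫ X ◁ ((β_ X' Y).hom ▷ (Z ⊗ Y') ≫ (Y ⊗ X') ◁ (β_ Z Y').hom) ⊗≫ 𝟙 _ := by
        rw [SymmetricCategory.symmetry]; monoidal
    _ = _ := by rw [← whisker_exchange, tensorμ]; monoidal

theorem sym2 (X X' Y Y' Z : T) : tensorμ X X' Y (Y' ⊗ Z) ≫ (X ⊗ Y) ◁ (α_ X' Y' Z).inv ≫
    (α_ _ _ _).inv = (X ⊗ X') ◁ (α_ Y Y' Z).inv ≫ (α_ _ _ _).inv ≫ tensorμ X X' Y Y' ▷ Z := by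
  rw [tensorμ, tensorμ]; monoidal

theorem mu4 (E : EvenSpheres T) {a a' b b' a'' b'' n n' n'' : ℤ} (ha : a + a' = a'')
    (hb : b + b' = b'') (h : a + b = n) (h' : a' + b' = n') (h'' : a'' + b'' = n'')
    (l : n + n' = n'') :
    (E.mu a'' b'' n'' h'').inv ≫ ((E.mu a a' a'' ha).inv ⊗ₘ (E.mu b b' b'' hb).inv) ≫
      tensorμ _ _ _ _ = (E.mu n n' n'' l).inv ≫ ((E.mu a b n h).inv ⊗ₘ (E.mu a' b' n' h').inv) :=
  IsFr.unique (F := E.fr n'') (G := ((E.fr a).tensor (E.fr b)).tensor ((E.fr a').tensor (E.fr b')))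
    (by omega) (IsFr.comp (by omega) (by omega) (IsFr.inv' h'' (E.isFr_mu _ _ _ h''))
      (IsFr.comp (by omega) (by omega) (IsFr.tensor (by omega) (by omega)
        (IsFr.inv' ha (E.isFr_mu _ _ _ ha)) (IsFr.inv' hb (E.isFr_mu _ _ _ hb)))
        (isFr_tensorμ _ _ _ _ (E.symFr _ _))))
    (IsFr.comp (by omega) (by omega) (IsFr.inv' l (E.isFr_mu _ _ _ l)) (IsFr.tensor (by omega)
      (by omega) (IsFr.inv' h (E.isFr_mu _ _ _ h)) (IsFr.inv' h' (E.isFr_mu _ _ _ h'))))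

end sym

section tt

variable {T : Type 1} [Category.{0} T] [Preadditive T] [HasZeroObject T] [HasShift T ℤ]
  [∀ n : ℤ, (shiftFunctor T n).Additive] [Pretriangulated T]
  [MonoidalCategory T] [SymmetricCategory T] [TensorTriangulated T]

open TensorTriangulated

theorem rS_hom (A B : T) :
    (rS A B).hom = A ◁ (e B).inv ≫ (α_ _ _ _).inv ≫ (e (A ⊗ B)).hom :=
  S.tensorLeft_commShiftIso_one_app A B

theorem lS_hom (A B : T) : (lS A B).hom =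
    (e A).inv ▷ B ≫ (α_ _ _ _).hom ≫ A ◁ (β_ _ B).hom ≫ (α_ _ _ _).inv ≫ (e (A ⊗ B)).hom := by
  have h : (lS A B).hom = (β_ B _).inv ≫ (rS B A).hom ≫ (β_ B A).hom⟦(1 : ℤ)⟧' := rfl
  rw [h, rS_hom, Category.assoc, Category.assoc, ← e_naturality, ← braiding_inv_naturality_left_assoc,
    braiding_tensor_right_inv]
  simp [← comp_whiskerRight_assoc, SymmetricCategory.braiding_swap_eq_inv_braiding B]

@[reassoc] theorem e_nat {A B : T} (f : A ⟶ B) :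
    f⟦(1 : ℤ)⟧' ≫ (e B).inv = (e A).inv ≫ f ▷ _ := by
  rw [Iso.comp_inv_eq, Category.assoc, e_naturality, Iso.inv_hom_id_assoc]

@[reassoc] theorem rS_nat {A A' B B' : T} (f : A ⟶ A') (g : B ⟶ B') :
    (f ⊗ₘ g⟦(1 : ℤ)⟧') ≫ (rS A' B').hom = (rS A B).hom ≫ (f ⊗ₘ g)⟦(1 : ℤ)⟧' := by
  simp only [rS_hom, Category.assoc, ← e_naturality]
  rw [← id_tensorHom, ← id_tensorHom, tensorHom_comp_tensorHom_assoc, e_nat, Category.comp_id,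
    ← tensorHom_id, ← tensorHom_id, ← associator_inv_naturality_assoc,
    tensorHom_comp_tensorHom_assoc, Category.id_comp]

@[reassoc] theorem lS_nat {A A' B B' : T} (f : A ⟶ A') (g : B ⟶ B') :
    (f⟦(1 : ℤ)⟧' ⊗ₘ g) ≫ (lS A' B').hom = (lS A B).hom ≫ (f ⊗ₘ g)⟦(1 : ℤ)⟧' := by
  have h : ∀ A B : T, (lS A B).hom = (β_ B _).inv ≫ (rS B A).hom ≫ (β_ B A).hom⟦(1 : ℤ)⟧' :=
    fun _ _ => rfl
  rw [h, h, braiding_inv_naturality_assoc, rS_nat_assoc, Category.assoc, Category.assoc,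
    ← Functor.map_comp, ← Functor.map_comp, braiding_naturality]

theorem coh1 (X X' Y Y' : T) : tensorμ X X' (Y⟦(1 : ℤ)⟧) Y' ≫ (rS X Y).hom ▷ (X' ⊗ Y') ≫
    (lS _ _).hom = (X ⊗ X') ◁ (lS Y Y').hom ≫ (rS _ _).hom ≫ (tensorμ X X' Y Y')⟦(1 : ℤ)⟧' := by
  have h := tensorμ_natural_right X X' (e Y).inv (𝟙 Y')
  simp only [tensorHom_id, MonoidalCategory.whiskerLeft_id] at h
  simp only [rS_hom, lS_hom, Category.assoc, ← e_naturality, comp_whiskerRight,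
    hom_inv_whiskerRight_assoc, ← reassoc_of% h, reassoc_of% sym1,
    MonoidalCategory.whiskerLeft_comp, whiskerLeft_hom_inv_assoc]

theorem coh2 (X X' Y Y' : T) : tensorμ X X' Y (Y'⟦(1 : ℤ)⟧) ≫ (X ⊗ Y) ◁ (rS X' Y').hom ≫
    (rS _ _).hom = (X ⊗ X') ◁ (rS Y Y').hom ≫ (rS _ _).hom ≫ (tensorμ X X' Y Y')⟦(1 : ℤ)⟧' := by
  have h := tensorμ_natural_right X X' (𝟙 Y) (e Y').inv
  simp only [id_tensorHom, MonoidalCategory.whiskerLeft_id] at h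
  simp only [rS_hom, Category.assoc, ← e_naturality, ← reassoc_of% h, reassoc_of% sym2,
    MonoidalCategory.whiskerLeft_comp, whiskerLeft_hom_inv_assoc]

@[reassoc] theorem rS_inv {A A' B B' : T} (f : A ⟶ A') (g : B ⟶ B') :
    (rS A B).inv ≫ (f ⊗ₘ g⟦(1 : ℤ)⟧') = (f ⊗ₘ g)⟦(1 : ℤ)⟧' ≫ (rS A' B').inv := by
  rw [Iso.inv_comp_eq, ← rS_nat_assoc, Iso.hom_inv_id, Category.comp_id]

@[reassoc] theorem lS_inv {A A' B B' : T} (f : A ⟶ A') (g : B ⟶ B') :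
    (lS A B).inv ≫ (f⟦(1 : ℤ)⟧' ⊗ₘ g) = (f ⊗ₘ g)⟦(1 : ℤ)⟧' ≫ (lS A' B').inv := by
  rw [Iso.inv_comp_eq, ← lS_nat_assoc, Iso.hom_inv_id, Category.comp_id]

@[reassoc] theorem coh1' (X X' Y Y' : T) :
    (rS _ _).inv ≫ (X ⊗ X') ◁ (lS Y Y').inv ≫ tensorμ X X' (Y⟦(1 : ℤ)⟧) Y' =
      (tensorμ X X' Y Y')⟦(1 : ℤ)⟧' ≫ (lS _ _).inv ≫ (rS X Y).inv ▷ (X' ⊗ Y') := by
  rw [← cancel_mono ((rS X Y).hom ▷ (X' ⊗ Y') ≫ (lS _ _).hom)]
  simp only [Category.assoc, coh1, whiskerLeft_inv_hom_assoc, inv_hom_whiskerRight_assoc,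
    Iso.inv_hom_id_assoc, Iso.inv_hom_id, Category.comp_id]

@[reassoc] theorem coh2' (X X' Y Y' : T) :
    (rS _ _).inv ≫ (X ⊗ X') ◁ (rS Y Y').inv ≫ tensorμ X X' Y (Y'⟦(1 : ℤ)⟧) =
      (tensorμ X X' Y Y')⟦(1 : ℤ)⟧' ≫ (rS _ _).inv ≫ (X ⊗ Y) ◁ (rS X' Y').inv := by
  rw [← cancel_mono ((X ⊗ Y) ◁ (rS X' Y').hom ≫ (rS _ _).hom)]
  simp only [Category.assoc, coh2, whiskerLeft_inv_hom_assoc, Iso.inv_hom_id_assoc, Iso.inv_hom_id,
    Category.comp_id]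

theorem fin_l {A B C N X Y : T} {p : A⟦(1 : ℤ)⟧ ⟶ X} {τ : X ⟶ Y⟦(1 : ℤ)⟧} {φ : A ⟶ Y}
    (h : φ⟦(1 : ℤ)⟧' = p ≫ τ) (q : B ⟶ C) (M : N ⟶ A ⊗ B) :
    (M⟦(1 : ℤ)⟧' ≫ (lS _ _).inv ≫ (p ⊗ₘ q)) ≫ τ ▷ C ≫ (lS _ _).hom = (M ≫ (φ ⊗ₘ q))⟦(1 : ℤ)⟧' := by
  rw [Category.assoc, Category.assoc, ← tensorHom_id, tensorHom_comp_tensorHom_assoc, ← h,
    Category.comp_id, lS_nat, Iso.inv_hom_id_assoc, Functor.map_comp]

theorem fin_r {A B C N X Y : T} {p : A⟦(1 : ℤ)⟧ ⟶ X} {τ : X ⟶ Y⟦(1 : ℤ)⟧} {φ : A ⟶ Y}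
    (h : φ⟦(1 : ℤ)⟧' = p ≫ τ) (q : B ⟶ C) (M : N ⟶ B ⊗ A) :
    (M⟦(1 : ℤ)⟧' ≫ (rS _ _).inv ≫ (q ⊗ₘ p)) ≫ C ◁ τ ≫ (rS _ _).hom = (M ≫ (q ⊗ₘ φ))⟦(1 : ℤ)⟧' := by
  rw [Category.assoc, Category.assoc, ← id_tensorHom, tensorHom_comp_tensorHom_assoc, ← h,
    Category.comp_id, rS_nat, Iso.inv_hom_id_assoc, Functor.map_comp]

variable (E : EvenSpheres T) {a a' b b' a'' b'' n n' n'' : ℤ} (ha : a + a' = a'')
  (hb : b + b' = b'') (h : a + b = n) (h' : a' + b' = n') (h'' : a'' + b'' = n'')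
  (l : n + n' = n'') {V V' V'' S S' S'' : T} {σ : V'' ⟶ V ⊗ V'} {θ : S'' ⟶ S ⊗ S'}
  {s : E.S a ⟶ V} {s' : E.S a' ⟶ V'} {s'' : E.S a'' ⟶ V''}
  (hs : s'' ≫ σ = (E.mu a a' a'' ha).inv ≫ (s ⊗ₘ s'))

include hs

omit [Preadditive T] [HasZeroObject T] [HasShift T ℤ] [∀ n : ℤ, (shiftFunctor T n).Additive]
  [Pretriangulated T] [TensorTriangulated T] in
theorem fr_ee {φ : E.S b ⟶ S} {φ' : E.S b' ⟶ S'} {φ'' : E.S b'' ⟶ S''}
    (hφ : φ'' ≫ θ = (E.mu b b' b'' hb).inv ≫ (φ ⊗ₘ φ')) :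
    ((E.mu a'' b'' n'' h'').inv ≫ (s'' ⊗ₘ φ'')) ≫ (σ ⊗ₘ θ) ≫ tensorμ _ _ _ _ =
      (E.mu n n' n'' l).inv ≫ (((E.mu a b n h).inv ≫ (s ⊗ₘ φ)) ⊗ₘ
        ((E.mu a' b' n' h').inv ≫ (s' ⊗ₘ φ'))) := by
  rw [Category.assoc, tensorHom_comp_tensorHom_assoc, hs, hφ, ← tensorHom_comp_tensorHom_assoc,
    tensorμ_natural, reassoc_of% mu4 E ha hb h h' h'' l, tensorHom_comp_tensorHom]

theorem fr_oe {φ : (E.S b)⟦(1 : ℤ)⟧ ⟶ S} {φ' : E.S b' ⟶ S'} {φ'' : (E.S b'')⟦(1 : ℤ)⟧ ⟶ S''}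
    (hφ : φ'' ≫ θ = (E.mu b b' b'' hb).inv⟦(1 : ℤ)⟧' ≫ (lS _ _).inv ≫ (φ ⊗ₘ φ')) :
    ((E.mu a'' b'' n'' h'').inv⟦(1 : ℤ)⟧' ≫ (rS _ _).inv ≫ (s'' ⊗ₘ φ'')) ≫ (σ ⊗ₘ θ) ≫
      tensorμ _ _ _ _ = (E.mu n n' n'' l).inv⟦(1 : ℤ)⟧' ≫ (lS _ _).inv ≫
        (((E.mu a b n h).inv⟦(1 : ℤ)⟧' ≫ (rS _ _).inv ≫ (s ⊗ₘ φ)) ⊗ₘ
          ((E.mu a' b' n' h').inv ≫ (s' ⊗ₘ φ'))) := by
  rw [Category.assoc, Category.assoc, tensorHom_comp_tensorHom_assoc, hs, hφ,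
    ← tensorHom_comp_tensorHom_assoc, rS_inv_assoc, ← Category.id_comp (s ⊗ₘ s'),
    ← tensorHom_comp_tensorHom_assoc, tensorμ_natural, id_tensorHom, coh1'_assoc,
    ← Functor.map_comp_assoc, ← Functor.map_comp_assoc, Category.assoc, mu4 E ha hb h h' h'' l,
    Functor.map_comp_assoc, ← lS_inv_assoc, ← tensorHom_id, tensorHom_comp_tensorHom,
    tensorHom_comp_tensorHom, Category.id_comp]

theorem fr_eo {φ : E.S b ⟶ S} {φ' : (E.S b')⟦(1 : ℤ)⟧ ⟶ S'} {φ'' : (E.S b'')⟦(1 : ℤ)⟧ ⟶ S''}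
    (hφ : φ'' ≫ θ = (E.mu b b' b'' hb).inv⟦(1 : ℤ)⟧' ≫ (rS _ _).inv ≫ (φ ⊗ₘ φ')) :
    ((E.mu a'' b'' n'' h'').inv⟦(1 : ℤ)⟧' ≫ (rS _ _).inv ≫ (s'' ⊗ₘ φ'')) ≫ (σ ⊗ₘ θ) ≫
      tensorμ _ _ _ _ = (E.mu n n' n'' l).inv⟦(1 : ℤ)⟧' ≫ (rS _ _).inv ≫
        (((E.mu a b n h).inv ≫ (s ⊗ₘ φ)) ⊗ₘ
          ((E.mu a' b' n' h').inv⟦(1 : ℤ)⟧' ≫ (rS _ _).inv ≫ (s' ⊗ₘ φ'))) := by
  rw [Category.assoc, Category.assoc, tensorHom_comp_tensorHom_assoc, hs, hφ,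
    ← tensorHom_comp_tensorHom_assoc, rS_inv_assoc, ← Category.id_comp (s ⊗ₘ s'),
    ← tensorHom_comp_tensorHom_assoc, tensorμ_natural, id_tensorHom, coh2'_assoc,
    ← Functor.map_comp_assoc, ← Functor.map_comp_assoc, Category.assoc, mu4 E ha hb h h' h'' l,
    Functor.map_comp_assoc, ← rS_inv_assoc, ← id_tensorHom, tensorHom_comp_tensorHom,
    tensorHom_comp_tensorHom, Category.id_comp]

end tt

theorem paths {C : Type 1} [Category.{0} C] [Preadditive C] (X : ℤ → C)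
    (st : ∀ {m m'}, m + 1 = m' → (X m ⟶ X m')) : ∃ I : ∀ m m', X m ⟶ X m', (∀ m, I m m = 𝟙 _) ∧
      ∀ {m n n'} (h : n + 1 = n'), m ≤ n → I m n' = I m n ≫ st h := by
  refine ⟨fun m m' => if h : m ≤ m' then Int.leInduction (motive := fun n _ => X m ⟶ X n) (𝟙 _)
    (fun _ _ f => f ≫ st rfl) m' h else 0, fun m => ?_, fun {m n n'} h k => ?_⟩
  · beta_reduce
    rw [dif_pos le_rfl, Int.leInduction_base]
  · subst h
    beta_reduce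
    rw [dif_pos k, dif_pos (by omega), Int.leInduction_add_one _ _ _ k]

variable {W : Tower}

variable (W) in
/-- the spheres with trivial action -/
structure Sus where
  /-- the spheres -/
  V : ℤ → W.T₁.C
  γ : ∀ t, W.s₁.γ (V t) = 𝟙 _
  /-- the suspension -/
  τ : ∀ {t t'}, t + 1 = t' → (V t' ≅ (V t)⟦(1 : ℤ)⟧)
  /-- the diagonal -/
  σ : ∀ {t t' t''}, t + t' = t'' → (V t'' ≅ V t ⊗ V t')
  /-- the framings -/
  s : ∀ t a, t = 2 * a → ((Λ W).S a ≅ (U W).obj (V t))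
  s_σ : ∀ {t t' t'' a a' a''} (h : t + t' = t'') (l : a + a' = a'') (e : t = 2 * a)
    (e' : t' = 2 * a') (e'' : t'' = 2 * a''),
    (s t'' a'' e'').hom ≫ (U W).map (σ h).hom ≫ Functor.OplaxMonoidal.δ (U W) _ _ =
      ((Λ W).mu a a' a'' l).inv ≫ ((s t a e).hom ⊗ₘ (s t' a' e').hom)
  sph : ∀ t, Sph ((U W).obj (V t)) t
  ζ : ∀ t, Nonempty (V t ≅ (𝟙_ W.T₁.C)⟦t⟧)

theorem sus : Nonempty (Sus W) := by
  let c : ∀ t a, t = 2 * a → ((Λ W).S a ≅ (𝟙_ W.T₀.C)⟦t⟧) := fun t a h => h ▸ stdSph a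
  have h0 : ∀ t, Sph ((𝟙_ W.T₀.C)⟦t⟧) t := fun t => ⟨Iso.refl _⟩
  have : ∀ t t' t'' (_ : t + t' = t''), ∃ σ : (𝟙_ W.T₀.C)⟦t''⟧ ≅ (𝟙_ W.T₀.C)⟦t⟧ ⊗ (𝟙_ W.T₀.C)⟦t'⟧,
      ∀ a a' a'' (l : a + a' = a'') e e' e'', (c t'' a'' e'').hom ≫ σ.hom =
        ((Λ W).mu a a' a'' l).inv ≫ ((c t a e).hom ⊗ₘ (c t' a' e').hom) := fun t t' t'' h => by
    by_cases k : ∃ b b', t = 2 * b ∧ t' = 2 * b'
    · obtain ⟨b, b', e, e'⟩ := k
      refine ⟨(c t'' (b + b') (by omega)).symm ≪≫ ((Λ W).mu b b' _ rfl).symm ≪≫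
        tensorIso (c t b e) (c t' b' e'), fun a a' a'' l _ _ _ => ?_⟩
      obtain rfl : a = b := by omega
      obtain rfl : a' = b' := by omega
      subst l
      simp
    · exact ⟨((h0 t'').iso (((h0 t).tensor (h0 t')).cast h)).some, fun a a' _ _ e e' _ =>
        (k ⟨a, a', e, e'⟩).elim⟩
  choose σ hσ using this
  let u : ∀ X, (U W).obj (W.L₁.tv.F.obj X) ≅ X := fun X => W.s₁.tvU.app X
  refine ⟨⟨fun t => W.L₁.tv.F.obj ((𝟙_ W.T₀.C)⟦t⟧), fun t => ?_, fun {t t'} h =>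
    W.L₁.tv.F.mapIso ((shiftFunctorAdd' _ t 1 t' h).app _) ≪≫ (W.L₁.tv.F.commShiftIso (1 : ℤ)).app _,
    fun h => W.L₁.tv.F.mapIso (σ _ _ _ h) ≪≫ (Functor.Monoidal.μIso _ _ _).symm,
    fun t a e => c t a e ≪≫ (u _).symm, fun {t t' t'' a a' a''} h l e e' e'' => ?_,
    fun t => ⟨u _⟩, fun t => ⟨(W.L₁.tv.F.commShiftIso t).app _ ≪≫
      (shiftFunctor _ t).mapIso (Functor.Monoidal.εIso _).symm⟩⟩⟩
  · rw [Step.γ, W.L₁.tv_h, CategoryTheory.Functor.map_id]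
  · have h1 : ∀ {X Y} (f : X ⟶ Y), (u X).inv ≫ (U W).map (W.L₁.tv.F.map f) = f ≫ (u Y).inv :=
      fun f => (W.s₁.tvU.inv.naturality f).symm
    have h2 : ∀ X Y, μ (U W) _ _ ≫ (U W).map (μ W.L₁.tv.F X Y) ≫ (u (X ⊗ Y)).hom =
        ((u X).hom ⊗ₘ (u Y).hom) := fun X Y => by
      simpa [u] using NatTrans.IsMonoidal.tensor (τ := W.s₁.tvU.hom) X Y
    have h3 : ∀ X Y, (u (X ⊗ Y)).inv ≫ (U W).map (Functor.OplaxMonoidal.δ W.L₁.tv.F X Y) ≫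
        Functor.OplaxMonoidal.δ (U W) _ _ = ((u X).inv ⊗ₘ (u Y).inv) := fun X Y => by
      rw [← cancel_mono ((u X).hom ⊗ₘ (u Y).hom), tensorHom_comp_tensorHom, ← h2]
      simp [← Functor.map_comp_assoc]
    simp only [Iso.trans_hom, Iso.symm_hom, Functor.mapIso_hom, Functor.map_comp, Category.assoc,
      Functor.Monoidal.μIso_inv]
    rw [reassoc_of% h1, h3, reassoc_of% hσ _ _ _ h _ _ _ l e e' e'', tensorHom_comp_tensorHom]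

/-- reindexing -/
def re {ι : Type} {dg : ι → ℤ} (D : Tow0 W ι dg) (s : ℤ → ι) : Tow0 W ℤ fun m => dg (s m) where
  B m := D.B (s m)
  st := D.st
  S m := D.S (s m)
  sph _ := D.sph _
  gen _ := D.gen _
  b := D.b
  dist := D.dist
  cell _ := D.cell _
  U_st := D.U_st
  gen_iso _ := D.gen_iso _
  gen_b := D.gen_b
  δ := D.δ
  δ_l := D.δ_l
  δ_r := D.δ_r
  θ := D.θ
  gen_δ := D.gen_δ
  φ _ := D.φ _
  ψ _ := D.ψ _
  φ_ee := D.φ_ee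
  ψ_oe := D.ψ_oe
  ψ_eo := D.ψ_eo
  ξ := D.ξ
  ζ _ := D.ζ _

/-- the middle interchange -/
def mid {T : Type 1} [Category.{0} T] [MonoidalCategory T] [BraidedCategory T] (A B C D : T) :
    (A ⊗ B) ⊗ C ⊗ D ≅ (A ⊗ C) ⊗ B ⊗ D :=
  ⟨tensorμ A B C D, tensorδ A B C D, tensorμ_tensorδ .., tensorδ_tensorμ ..⟩

/-- the suspension of the spheres -/
def Sus.τ₀ (Z : Sus W) (S : W.T₀.C) {t t' : ℤ} (h : t + 1 = t') :
    (U W).obj (Z.V t') ⊗ S ≅ ((U W).obj (Z.V t) ⊗ S)⟦(1 : ℤ)⟧ :=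
  whiskerRightIso ((U W).mapIso (Z.τ h) ≪≫ cs W _) _ ≪≫ lS _ _

theorem frames (Z : Sus W) (D : Tow0 W ℤ fun m => m) :
    ∃ φ : ∀ m t n, m + t = 2 * n → ((Λ W).S n ≅ (U W).obj (Z.V t) ⊗ D.S m),
      (∀ {m t n} e {a b} ea eb (h : a + b = n), (φ m t n e).hom =
        ((Λ W).mu a b n h).inv ≫ ((Z.s t a ea).hom ⊗ₘ (D.φ m b eb).hom)) ∧
      ∀ {m t₀ t n} e (j : t₀ + 1 = t) {a b} ea eb (h : a + b = n),
        (φ m t₀ n e).hom⟦(1 : ℤ)⟧' = (((Λ W).mu a b n h).inv⟦(1 : ℤ)⟧' ≫ (rS _ _).inv ≫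
          ((Z.s t a ea).hom ⊗ₘ (D.ψ m b eb).hom)) ≫ (Z.τ₀ _ j).hom := by
  have : ∀ m t n (_ : m + t = 2 * n), ∃ φ : (Λ W).S n ≅ (U W).obj (Z.V t) ⊗ D.S m,
      (∀ a b ea eb (h : a + b = n), φ.hom =
        ((Λ W).mu a b n h).inv ≫ ((Z.s t a ea).hom ⊗ₘ (D.φ m b eb).hom)) ∧
      ∀ a b ea eb (h : a + b = n), φ.hom⟦(1 : ℤ)⟧' = (((Λ W).mu a b n h).inv⟦(1 : ℤ)⟧' ≫
        (rS _ _).inv ≫ ((Z.s (t + 1) a ea).hom ⊗ₘ (D.ψ m b eb).hom)) ≫ (Z.τ₀ _ rfl).hom := by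
    intro m t n e
    rcases Int.even_or_odd' m with ⟨b, k | k⟩
    · refine ⟨((Λ W).mu (n - b) b n (by omega)).symm ≪≫ tensorIso (Z.s t _ (by omega)) (D.φ m b k),
        fun a b' ea eb h => ?_, fun a b' ea eb h => by omega⟩
      obtain rfl : b' = b := by omega
      obtain rfl : a = n - b' := by omega
      rfl
    · refine ⟨(shiftFunctor _ (1 : ℤ)).preimageIso ((shiftFunctor _ (1 : ℤ)).mapIso
        ((Λ W).mu (n - b) b n (by omega)).symm ≪≫ (rS _ _).symm ≪≫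
          tensorIso (Z.s (t + 1) _ (by omega)) (D.ψ m b k) ≪≫ Z.τ₀ _ rfl),
        fun a b' ea eb h => by omega, fun a b' ea eb h => ?_⟩
      obtain rfl : b' = b := by omega
      obtain rfl : a = n - b' := by omega
      simp
  choose φ h1 h2 using this
  exact ⟨φ, fun e _ _ => h1 _ _ _ e _ _, fun e j _ _ => j ▸ h2 _ _ _ e _ _⟩

theorem ext0 (hT : TEN W) (D : Tow0 W ℤ fun m => m) : Nonempty (Tow W) := by
  obtain ⟨Z⟩ := sus (W := W)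
  obtain ⟨I, I0, I1⟩ := paths D.B D.st
  obtain ⟨φ, φe, φo⟩ := frames Z D
  have Is : ∀ {m m'} (h : m + 1 = m'), I m m' = D.st h := fun h => by
    rw [I1 h le_rfl, I0, Category.id_comp]
  have II : ∀ {m m' m''}, m ≤ m' → m' ≤ m'' → I m m' ≫ I m' m'' = I m m'' := fun {m m' m''} h h' => by
    induction m'', h' using Int.leInduction with
    | base => rw [I0, Category.comp_id]
    | succ n k ih => rw [I1 rfl k, I1 rfl (h.trans k), reassoc_of% ih]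
  have UI : ∀ {m m'}, m < m' → (U W).map (I m m') = 0 := fun {m m'} h => by
    rw [I1 (n := m' - 1) (by omega) (by omega), Functor.map_comp, D.U_st, comp_zero]
  have dl : ∀ {m m₁ m' m'' m₁''} (h : m + m' = m'') (h₁ : m₁ + m' = m₁''), m ≤ m₁ →
      I m'' m₁'' ≫ D.δ h₁ = D.δ h ≫ I m m₁ ▷ D.B m' := fun {m m₁ m' m'' m₁''} h h₁ k => by
    induction m₁, k using Int.leInduction generalizing m₁'' with
    | base =>
      obtain rfl : m'' = m₁'' := by omega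
      simp [I0]
    | succ n k ih =>
      rw [I1 (n := n + m') (by omega) (by omega), I1 rfl k, Category.assoc,
        D.δ_l rfl h₁ rfl, reassoc_of% ih rfl, comp_whiskerRight]
  have dr : ∀ {m m' m₁' m'' m₁''} (h : m + m' = m'') (h₁ : m + m₁' = m₁''), m' ≤ m₁' →
      I m'' m₁'' ≫ D.δ h₁ = D.δ h ≫ D.B m ◁ I m' m₁' := fun {m m' m₁ m'' m₁''} h h₁ k => by
    induction m₁, k using Int.leInduction generalizing m₁'' with
    | base =>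
      obtain rfl : m'' = m₁'' := by omega
      simp [I0]
    | succ n k ih =>
      rw [I1 (n := m + n) (by omega) (by omega), I1 rfl k, Category.assoc,
        D.δ_r rfl h₁ rfl, reassoc_of% ih rfl, MonoidalCategory.whiskerLeft_comp]
  have oe : ∀ {m : ℤ}, Odd m → ∃ b, m = 2 * b + 1 := fun h => h
  have ev : ∀ {m : ℤ}, Even m → ∃ b, m = 2 * b := fun ⟨b, h⟩ => ⟨b, by omega⟩
  exact ⟨{
    A m t := Z.V t ⊗ D.B m
    I m m' t := Z.V t ◁ I m m'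
    I_self m t := by rw [I0, MonoidalCategory.whiskerLeft_id]
    I_I t h h' := by rw [← MonoidalCategory.whiskerLeft_comp, II h h']
    τ m _ _ h := whiskerRightIso (Z.τ h) _ ≪≫ lS _ _
    τ_I h _ := by
      simp only [Iso.trans_hom, whiskerRightIso_hom, Category.assoc]
      rw [whisker_exchange_assoc, ← id_tensorHom, ← id_tensorHom, ← lS_nat,
        CategoryTheory.Functor.map_id]
    S m t := (U W).obj (Z.V t) ⊗ D.S m
    sph m t := ((Z.sph t).tensor (D.sph m)).cast (add_comm _ _)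
    gen m t := tg _ (D.gen m)
    b t h := tb _ (D.b h)
    dist t h := Is h ▸ hT.dist _ (D.dist h)
    cell m t := ((Z.sph t).cell.tensor (D.cell m) (m + t) (by omega)).of_iso
      (Functor.Monoidal.μIso _ _ _)
    U_I t h := by simp [Functor.Monoidal.map_whiskerLeft, UI h]
    gen_iso m t h := by
      have := D.gen_iso m h
      unfold tg
      infer_instance
    τ₀ m _ _ h := Z.τ₀ _ h
    gen_τ m t t' h := by
      simp only [tg, Sus.τ₀, Iso.trans_hom, whiskerRightIso_hom, Category.assoc, Functor.map_comp,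
        Functor.mapIso_hom, comp_whiskerRight]
      rw [← μ_natural_left_assoc, hT.μ_lS, whisker_exchange_assoc, whisker_exchange_assoc,
        ← id_tensorHom, ← id_tensorHom, ← lS_nat_assoc, CategoryTheory.Functor.map_id]
    gen_b t h := by
      obtain ⟨κ, hκ⟩ := D.gen_b h
      exact ⟨whiskerLeftIso _ κ ≪≫ rS _ _, hT.gen_b _ (Z.γ t) hκ⟩
    δ h k := ((Z.σ k).hom ⊗ₘ D.δ h) ≫ tensorμ _ _ _ _
    δ_l h h₁ k l := by
      rw [← id_tensorHom, tensorHom_comp_tensorHom_assoc, dl h h₁ l, Category.assoc,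
        ← tensorHom_id (_ ◁ _), ← MonoidalCategory.whiskerLeft_id, ← tensorμ_natural_right,
        ← id_tensorHom, tensorHom_comp_tensorHom_assoc, tensorHom_id (I _ _), Category.id_comp,
        Category.comp_id]
    δ_r h h₁ k l := by
      rw [← id_tensorHom, tensorHom_comp_tensorHom_assoc, dr h h₁ l, Category.assoc,
        ← id_tensorHom _ (_ ◁ _), ← MonoidalCategory.whiskerLeft_id, ← tensorμ_natural_right,
        ← id_tensorHom (_ ⊗ _), tensorHom_comp_tensorHom_assoc, id_tensorHom _ (I _ _),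
        Category.id_comp, Category.comp_id]
    θ h k := tensorIso ((U W).mapIso (Z.σ k) ≪≫ (Functor.Monoidal.μIso _ _ _).symm) (D.θ h) ≪≫
      mid _ _ _ _
    gen_δ h k := hT.gen_δ _ (Z.γ _) (Z.γ _) (D.gen_δ h)
    φ := φ
    φ_ee {m m' m'' t t' t'' n n' n''} h k l e e' e'' hm hm' := by
      obtain ⟨b, eb⟩ := ev hm
      obtain ⟨b', eb'⟩ := ev hm'
      rw [φe e (a := n - b) (by omega) eb (by omega), φe e' (a := n' - b') (by omega) eb' (by omega),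
        φe e'' (a := n - b + (n' - b')) (b := b + b') (by omega) (by omega) (by omega)]
      exact fr_ee _ rfl rfl _ _ _ l (Z.s_σ k rfl _ _ _) (D.φ_ee h rfl _ _ _)
    φ_oe {m m' m'' t₀ t t' t₀'' t'' n n' n''} h k j j'' l e e' e'' hm hm' := by
      obtain ⟨b, eb⟩ := oe hm
      obtain ⟨b', eb'⟩ := ev hm'
      rw [φo e'' j'' (a := n - b + (n' - b')) (b := b + b') (by omega) (by omega) (by omega),
        Category.assoc, Iso.hom_inv_id_assoc, φe e' (a := n' - b') (by omega) eb' (by omega),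
        ← fin_l (φo e j (a := n - b) (by omega) eb (by omega)), ← Category.assoc]
      exact congrArg (· ≫ _) (fr_oe _ rfl rfl _ _ _ l (Z.s_σ k rfl _ _ _) (D.ψ_oe h rfl _ _ _))
    φ_eo {m m' m'' t t₀' t' t₀'' t'' n n' n''} h k j j'' l e e' e'' hm hm' := by
      obtain ⟨b, eb⟩ := ev hm
      obtain ⟨b', eb'⟩ := oe hm'
      rw [φo e'' j'' (a := n - b + (n' - b')) (b := b + b') (by omega) (by omega) (by omega),
        Category.assoc, Iso.hom_inv_id_assoc, φe e (a := n - b) (by omega) eb (by omega),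
        ← fin_r (φo e' j (a := n' - b') (by omega) eb' (by omega)), ← Category.assoc]
      exact congrArg (· ≫ _) (fr_eo _ rfl rfl _ _ _ l (Z.s_σ k rfl _ _ _) (D.ψ_eo h rfl _ _ _))
    ξ {m m'} t h := by
      obtain ⟨ξ, hξ⟩ := D.ξ (i := m) (j := m + 1) (k := m') rfl (by omega)
      refine ⟨whiskerLeftIso _ ξ ≪≫ (α_ _ _ _).symm ≪≫ whiskerRightIso (β_ _ _) _ ≪≫ α_ _ _ _, ?_⟩
      rw [I1 (n := m + 1) (by omega) (by omega), Is rfl, Iso.trans_hom, whiskerLeftIso_hom,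
        ← MonoidalCategory.whiskerLeft_comp_assoc, Category.assoc, hξ,
        MonoidalCategory.whiskerLeft_comp_assoc]
      simp only [Iso.trans_hom, Iso.symm_hom, whiskerRightIso_hom]
      rw [associator_inv_naturality_middle_assoc, ← comp_whiskerRight_assoc,
        braiding_naturality_right, braiding_tensorUnit_right]
      monoidal
    ζ t := ⟨whiskerLeftIso _ (D.ζ 0 rfl).some ≪≫ ρ_ _ ≪≫ (Z.ζ t).some⟩ }⟩

end Ex

theorem ext (W : Tower) : EXT W := fun hT _ _ s hs D =>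
  Ex.ext0 hT ((funext hs : _ = fun m => m) ▸ Ex.re D s)

end Vale.Agent.P236Z.SS
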