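import Vale.Agent.P236Z.SS.Val

/-!
# P236, block SS: products of relative classes in a tensor triangulated category
-/

open CategoryTheory MonoidalCategory Limits Pretriangulated
open Functor.LaxMonoidal Functor.OplaxMonoidal
open Vale.Agent.P251 Vale.Agent.P251.T Vale.Agent.P251.S Vale.Agent.P236Z.Cat

set_option linter.unusedSectionVars false

noncomputable section

namespace Vale.Agent.P236Z.SS

namespace Ms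

section

variable {T : Type 1} [Category.{0} T] [Preadditive T] [HasZeroObject T] [HasShift T ℤ]
  [∀ n : ℤ, (shiftFunctor T n).Additive] [Pretriangulated T]
  [MonoidalCategory T] [SymmetricCategory T] [TensorTriangulated T]

theorem rS_eq (A B : T) : (rS A B).hom = A ◁ (TensorTriangulated.e B).inv ≫
    (α_ A B ((𝟙_ T)⟦(1 : ℤ)⟧)).inv ≫ (TensorTriangulated.e (A ⊗ B)).hom :=
  tensorLeft_commShiftIso_one_app A B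

@[reassoc] theorem β_lS (A B : T) : (β_ B (A⟦(1 : ℤ)⟧)).hom ≫ (lS A B).hom =
    (rS B A).hom ≫ (β_ B A).hom⟦(1 : ℤ)⟧' :=
  (NatTrans.shift_app_comm (BraidedCategory.tensorLeftIsoTensorRight B).hom (1 : ℤ) A).symm

@[reassoc] theorem rS_nat {A A' B B' : T} (f : A ⟶ A') (g : B ⟶ B') :
    (f ⊗ₘ g⟦(1 : ℤ)⟧') ≫ (rS A' B').hom = (rS A B).hom ≫ (f ⊗ₘ g)⟦(1 : ℤ)⟧' := by
  have h1 : (rS A B).hom ≫ (f ▷ B)⟦(1 : ℤ)⟧' = f ▷ _ ≫ (rS A' B).hom :=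
    NatTrans.shift_app_comm (tlMap f) (1 : ℤ) B
  have h2 : A' ◁ g⟦(1 : ℤ)⟧' ≫ (rS A' B').hom = (rS A' B).hom ≫ (A' ◁ g)⟦(1 : ℤ)⟧' :=
    ((tensorLeft A').commShiftIso (1 : ℤ)).hom.naturality g
  rw [MonoidalCategory.tensorHom_def, MonoidalCategory.tensorHom_def, Category.assoc, h2,
    Functor.map_comp, reassoc_of% h1]

@[reassoc] theorem lS_nat {A A' B B' : T} (f : A ⟶ A') (g : B ⟶ B') :
    (f⟦(1 : ℤ)⟧' ⊗ₘ g) ≫ (lS A' B').hom = (lS A B).hom ≫ (f ⊗ₘ g)⟦(1 : ℤ)⟧' := by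
  have h1 : (lS A B).hom ≫ (A ◁ g)⟦(1 : ℤ)⟧' = _ ◁ g ≫ (lS A B').hom :=
    NatTrans.shift_app_comm (trMap g) (1 : ℤ) A
  have h2 : f⟦(1 : ℤ)⟧' ▷ B' ≫ (lS A' B').hom = (lS A B').hom ≫ (f ▷ B')⟦(1 : ℤ)⟧' :=
    ((tensorRight B').commShiftIso (1 : ℤ)).hom.naturality f
  rw [tensorHom_def', tensorHom_def', Category.assoc, h2, Functor.map_comp, reassoc_of% h1]

theorem dist_l {W Q A : T} {i : W ⟶ Q} {e : Q ⟶ A} {c : A ⟶ W⟦(1 : ℤ)⟧} (D : H.Dist i e c)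
    (B : T) : H.Dist (i ▷ B) (e ▷ B) (c ▷ B ≫ (lS W B).hom) := dist_whiskerRight B D

theorem dist_r {W Q A : T} {i : W ⟶ Q} {e : Q ⟶ A} {c : A ⟶ W⟦(1 : ℤ)⟧} (D : H.Dist i e c)
    (B : T) : H.Dist (B ◁ i) (B ◁ e) (B ◁ c ≫ (rS B W).hom) := dist_whiskerLeft B D

variable {W Q A W' Q' A' W'' Q'' A'' : T} {i : W ⟶ Q} {e : Q ⟶ A} {c : A ⟶ W⟦(1 : ℤ)⟧}
  {i' : W' ⟶ Q'} {e' : Q' ⟶ A'} {c' : A' ⟶ W'⟦(1 : ℤ)⟧}
  {i'' : W'' ⟶ Q''} {e'' : Q'' ⟶ A''} {c'' : A'' ⟶ W''⟦(1 : ℤ)⟧}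

/-- the diagonal of the relative objects -/
theorem exists_diag (D : H.Dist i e c) (D' : H.Dist i' e' c') (D'' : H.Dist i'' e'' c'')
    (d₀ : A'' ⟶ A ⊗ A') (d₁ : W'' ⟶ W ⊗ A') (d₂ : W'' ⟶ A ⊗ W')
    (h₁ : c'' ≫ d₁⟦(1 : ℤ)⟧' = d₀ ≫ c ▷ A' ≫ (lS W A').hom)
    (h₂ : c'' ≫ d₂⟦(1 : ℤ)⟧' = d₀ ≫ A ◁ c' ≫ (rS A W').hom)
    (z₁ : ∀ f : Q'' ⟶ (Q ⊗ W')⟦(1 : ℤ)⟧, f = 0) (z₂ : ∀ f : Q'' ⟶ (W ⊗ W')⟦(1 : ℤ)⟧, f = 0) :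
    ∃ d : Q'' ⟶ Q ⊗ Q', i'' ≫ d ≫ Q ◁ e' = d₁ ≫ i ▷ A' ∧ i'' ≫ d ≫ e ▷ Q' = d₂ ≫ A ◁ i' ∧
      d ≫ (e ⊗ₘ e') = e'' ≫ d₀ := by
  obtain ⟨a, a1, a2⟩ := D''.map₂ (dist_l D A') d₁ d₀ h₁
  obtain ⟨b, b1, b2⟩ := D''.map₂ (dist_r D' A) d₂ d₀ h₂
  obtain ⟨d, hd⟩ := (dist_r D' Q).lift₃ a (z₁ _)
  obtain ⟨κ, hκ⟩ := (dist_r D' A).lift₂ (d ≫ e ▷ Q' - b) (by
    rw [Preadditive.sub_comp, Category.assoc, ← whisker_exchange, reassoc_of% hd, ← a2, ← b2,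
      sub_self])
  obtain ⟨l, hl⟩ := (dist_l D W').lift₃ κ (z₂ _)
  have k1 : (d - l ≫ Q ◁ i') ≫ Q ◁ e' = a := by
    rw [Preadditive.sub_comp, hd, Category.assoc, (dist_r D' Q).zero₁₂, comp_zero, sub_zero]
  have k2 : (d - l ≫ Q ◁ i') ≫ e ▷ Q' = b := by
    rw [Preadditive.sub_comp, Category.assoc, whisker_exchange, reassoc_of% hl, hκ, sub_sub_cancel]
  refine ⟨d - l ≫ Q ◁ i', by rw [k1, a1], by rw [k2, b1], ?_⟩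
  rw [tensorHom_def', reassoc_of% k1, a2]

/-- maps out of a small object are detected on the quotient -/
theorem inj_top (D : H.Dist i e c) (D' : H.Dist i' e' c') {S : T}
    (z₁ : ∀ f : S ⟶ W ⊗ Q', f = 0) (z₂ : ∀ f : S ⟶ A ⊗ W', f = 0) (f : S ⟶ Q ⊗ Q')
    (h : f ≫ (e ⊗ₘ e') = 0) : f = 0 := by
  rw [MonoidalCategory.tensorHom_def, ← Category.assoc] at h
  obtain ⟨a, ha⟩ := (dist_r D' A).lift₂ _ h
  rw [z₂ a, zero_comp] at ha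
  obtain ⟨b, hb⟩ := (dist_l D Q').lift₂ _ ha.symm
  rw [← hb, z₁ b, zero_comp]

/-- maps out of a small object are detected on the two quotients -/
theorem inj_two (D : H.Dist i e c) (D' : H.Dist i' e' c') (hc : c' = 0) {S : T}
    (z : ∀ f : S ⟶ W ⊗ W', f = 0) (f : S ⟶ Q ⊗ Q') (h₁ : f ≫ Q ◁ e' = 0) (h₂ : f ≫ e ▷ Q' = 0) :
    f = 0 := by
  obtain ⟨a, rfl⟩ := (dist_r D' Q).lift₂ _ h₁
  rw [Category.assoc, whisker_exchange, ← Category.assoc] at h₂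
  have h3 : (a ≫ e ▷ W')⟦(1 : ℤ)⟧' ≫ (A ◁ i')⟦(1 : ℤ)⟧' = 0 := by
    rw [← Functor.map_comp, h₂, Functor.map_zero]
  obtain ⟨b, hb⟩ := (dist_r D' A).lift₁ _ h3
  rw [hc, MonoidalPreadditive.whiskerLeft_zero, zero_comp, comp_zero, eq_comm,
    Functor.map_eq_zero_iff] at hb
  obtain ⟨g, rfl⟩ := (dist_l D W').lift₂ _ hb
  rw [z g, zero_comp, zero_comp]

end

section

variable {T T' : TTC} (F : ExF T T')

/-- the functor commutes with the suspension -/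
def cx (Y : T.C) : F.F.obj (Y⟦(1 : ℤ)⟧) ≅ (F.F.obj Y)⟦(1 : ℤ)⟧ := (F.F.commShiftIso (1 : ℤ)).app Y

@[reassoc] theorem cx_nat {Y Y' : T.C} (f : Y ⟶ Y') :
    F.F.map (f⟦(1 : ℤ)⟧') ≫ (cx F Y').hom = (cx F Y).hom ≫ (F.F.map f)⟦(1 : ℤ)⟧' :=
  (F.F.commShiftIso (1 : ℤ)).hom.naturality f

theorem e_cx (X : T.C) : μ F.F X ((𝟙_ T.C)⟦(1 : ℤ)⟧) ≫ F.F.map (TensorTriangulated.e X).hom ≫
    (cx F X).hom = F.F.obj X ◁ ((cx F (𝟙_ T.C)).hom ≫ (η F.F)⟦(1 : ℤ)⟧') ≫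
      (TensorTriangulated.e (F.F.obj X)).hom := F.e_eq X

@[reassoc] theorem μ_rS (A B : T.C) : μ F.F A (B⟦(1 : ℤ)⟧) ≫ F.F.map (rS A B).hom ≫
    (cx F (A ⊗ B)).hom = F.F.obj A ◁ (cx F B).hom ≫ (rS _ _).hom ≫ (μ F.F A B)⟦(1 : ℤ)⟧' := by
  rw [← cancel_epi (F.F.obj A ◁ (μ F.F B ((𝟙_ T.C)⟦(1 : ℤ)⟧) ≫
    F.F.map (TensorTriangulated.e B).hom)), ← MonoidalCategory.whiskerLeft_comp_assoc,
    Category.assoc, e_cx, rS_eq, rS_eq]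
  simp only [MonoidalCategory.whiskerLeft_comp, Category.assoc, Functor.map_comp,
    whiskerLeft_hom_inv_assoc, μ_natural_right_assoc]
  rw [← F.F.map_comp_assoc (A ◁ _), whiskerLeft_hom_inv, CategoryTheory.Functor.map_id,
    Category.id_comp, Functor.LaxMonoidal.associativity_inv_assoc, e_cx,
    ← TensorTriangulated.e_naturality]
  simp only [MonoidalCategory.whiskerLeft_comp, Category.assoc,
    associator_inv_naturality_right_assoc, whisker_exchange_assoc]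

@[reassoc] theorem μ_lS (A B : T.C) : μ F.F (A⟦(1 : ℤ)⟧) B ≫ F.F.map (lS A B).hom ≫
    (cx F (A ⊗ B)).hom = (cx F A).hom ▷ F.F.obj B ≫ (lS _ _).hom ≫ (μ F.F A B)⟦(1 : ℤ)⟧' := by
  rw [← cancel_epi (β_ (F.F.obj B) (F.F.obj (A⟦(1 : ℤ)⟧))).hom,
    ← Functor.LaxBraided.braided_assoc, ← Functor.map_comp_assoc, β_lS, Functor.map_comp,
    Category.assoc, cx_nat, μ_rS_assoc, ← Functor.map_comp, Functor.LaxBraided.braided,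
    ← BraidedCategory.braiding_naturality_right_assoc, β_lS_assoc, Functor.map_comp]

@[reassoc] theorem rS_δ (A B : T.C) : F.F.map (rS A B).hom ≫ (cx F (A ⊗ B)).hom ≫
    (δ F.F A B)⟦(1 : ℤ)⟧' = δ F.F A (B⟦(1 : ℤ)⟧) ≫ F.F.obj A ◁ (cx F B).hom ≫ (rS _ _).hom := by
  rw [← cancel_epi (μ F.F A (B⟦(1 : ℤ)⟧)), μ_rS_assoc, ← Functor.map_comp,
    Functor.Monoidal.μ_δ, Functor.Monoidal.μ_δ_assoc, CategoryTheory.Functor.map_id,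
    Category.comp_id]

@[reassoc] theorem lS_δ (A B : T.C) : F.F.map (lS A B).hom ≫ (cx F (A ⊗ B)).hom ≫
    (δ F.F A B)⟦(1 : ℤ)⟧' = δ F.F (A⟦(1 : ℤ)⟧) B ≫ (cx F A).hom ▷ F.F.obj B ≫ (lS _ _).hom := by
  rw [← cancel_epi (μ F.F (A⟦(1 : ℤ)⟧) B), μ_lS_assoc, ← Functor.map_comp,
    Functor.Monoidal.μ_δ, Functor.Monoidal.μ_δ_assoc, CategoryTheory.Functor.map_id,
    Category.comp_id]

end

end Ms

end Vale.Agent.P236Z.SS
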