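import Vale.Agent.P236Z.SS.Tow0
import Vale.Agent.P236Z.SS.Massey
import Vale.Agent.P236Z.Cat.Add

/-!
# P236, block SS: tensor products of cell structures, and the swap of the rotation sphere
-/

open CategoryTheory MonoidalCategory Limits Pretriangulated
open Functor.LaxMonoidal Functor.OplaxMonoidal
open Vale.Agent.P251 Vale.Agent.P251.T Vale.Agent.P251.M Vale.Agent.P251.I Vale.Agent.P251.G
  Vale.Agent.P236Z.Cat Vale.Agent.P236Z.Mod Vale.Agent.P236Z.Top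

set_option linter.unusedSectionVars false

noncomputable section

namespace Vale.Agent.P236Z.SS

section

variable {T : Type 1} [Category.{0} T] [Preadditive T] [HasZeroObject T] [HasShift T ℤ]
  [∀ n : ℤ, (shiftFunctor T n).Additive] [Pretriangulated T]
  [MonoidalCategory T] [SymmetricCategory T] [TensorTriangulated T]

theorem rS_hom (A B : T) : (rS A B).hom = A ◁ (TensorTriangulated.e B).inv ≫
    (α_ A B ((𝟙_ T)⟦(1 : ℤ)⟧)).inv ≫ (TensorTriangulated.e (A ⊗ B)).hom := Ms.rS_eq A B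

theorem lS_hom (A B : T) : (lS A B).hom = (TensorTriangulated.e A).inv ▷ B ≫
    (α_ A ((𝟙_ T)⟦(1 : ℤ)⟧) B).hom ≫ A ◁ (β_ ((𝟙_ T)⟦(1 : ℤ)⟧) B).hom ≫
      (α_ A B ((𝟙_ T)⟦(1 : ℤ)⟧)).inv ≫ (TensorTriangulated.e (A ⊗ B)).hom := by
  rw [← cancel_epi (β_ B (A⟦(1 : ℤ)⟧)).hom, Ms.β_lS, rS_hom,
    ← BraidedCategory.braiding_naturality_right_assoc, BraidedCategory.braiding_tensor_right_hom]
  simp only [Category.assoc, Iso.inv_hom_id_assoc, ← TensorTriangulated.e_naturality]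
  rw [← MonoidalCategory.whiskerLeft_comp_assoc A, SymmetricCategory.symmetry,
    MonoidalCategory.whiskerLeft_id, Category.id_comp, Iso.hom_inv_id_assoc]

@[reassoc] theorem rS_nat {A A' B B' : T} (f : A ⟶ A') (g : B ⟶ B') :
    (f ⊗ₘ g⟦(1 : ℤ)⟧') ≫ (rS A' B').hom = (rS A B).hom ≫ (f ⊗ₘ g)⟦(1 : ℤ)⟧' := Ms.rS_nat f g

@[reassoc] theorem lS_nat {A A' B B' : T} (f : A ⟶ A') (g : B ⟶ B') :
    (f⟦(1 : ℤ)⟧' ⊗ₘ g) ≫ (lS A' B').hom = (lS A B).hom ≫ (f ⊗ₘ g)⟦(1 : ℤ)⟧' := Ms.lS_nat f g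

@[reassoc] theorem rS_nat_r (A : T) {B B' : T} (g : B ⟶ B') :
    A ◁ g⟦(1 : ℤ)⟧' ≫ (rS A B').hom = (rS A B).hom ≫ (A ◁ g)⟦(1 : ℤ)⟧' := by
  rw [← id_tensorHom, ← id_tensorHom, rS_nat]

@[reassoc] theorem rS_nat_l {A A' : T} (f : A ⟶ A') (B : T) :
    f ▷ B⟦(1 : ℤ)⟧ ≫ (rS A' B).hom = (rS A B).hom ≫ (f ▷ B)⟦(1 : ℤ)⟧' := by
  rw [← tensorHom_id, ← tensorHom_id, ← rS_nat, CategoryTheory.Functor.map_id]

@[reassoc] theorem lS_nat_l {A A' : T} (f : A ⟶ A') (B : T) :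
    f⟦(1 : ℤ)⟧' ▷ B ≫ (lS A' B).hom = (lS A B).hom ≫ (f ▷ B)⟦(1 : ℤ)⟧' := by
  rw [← tensorHom_id, ← tensorHom_id, lS_nat]

@[reassoc] theorem lS_nat_r (A : T) {B B' : T} (g : B ⟶ B') :
    A⟦(1 : ℤ)⟧ ◁ g ≫ (lS A B').hom = (lS A B).hom ≫ (A ◁ g)⟦(1 : ℤ)⟧' := by
  rw [← id_tensorHom, ← id_tensorHom, ← lS_nat, CategoryTheory.Functor.map_id]

theorem Tn.neg_iso {A B : T} (e : A ≅ B) (h : (β_ B B).hom = -𝟙 _) : (β_ A A).hom = -𝟙 _ := by
  rw [← cancel_mono (e.hom ⊗ₘ e.hom), ← BraidedCategory.braiding_naturality, h]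
  simp

theorem Tn.cancel {A L : T} [IsInv A] (h : (β_ (A ⊗ L) (A ⊗ L)).hom = -𝟙 _)
    (hA : (β_ A A).hom = -𝟙 _) : (β_ L L).hom = 𝟙 _ := by
  have h1 := congrArg (· ≫ tensorδ A A L L) (SymmetricCategory.tensorμ_braid_swap A L)
  have h2 : (-𝟙 (A ⊗ A)) ▷ (L ⊗ L) = -𝟙 _ :=
    ((tensorRight (L ⊗ L)).map_neg).trans (congrArg Neg.neg (id_whiskerRight _ _))
  simp only [h, hA, MonoidalCategory.tensorHom_def, h2, Category.assoc, tensorμ_tensorδ,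
    Preadditive.neg_comp, Preadditive.comp_neg, Category.id_comp, Category.comp_id, neg_inj] at h1
  exact whiskerLeft_inj (A ⊗ A) (by rw [← h1, MonoidalCategory.whiskerLeft_id])

end

theorem Tn.neg_map {T T' : TTC} (F : T.C ⥤ T'.C) [F.Braided] {X : T.C}
    (hF : F.map (-𝟙 (X ⊗ X)) = -𝟙 _) (h : (β_ X X).hom = -𝟙 _) :
    (β_ (F.obj X) (F.obj X)).hom = -𝟙 _ := by
  rw [← cancel_mono (μ F X X), ← Functor.LaxBraided.braided, h, hF]
  simp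

variable {W : Tower}

namespace Tn

theorem N_neg (A : W.T₀.C) : W.s₁.N.map (-𝟙 A) = -𝟙 _ := by
  have h := W.s₁.N_add (𝟙 A) (-𝟙 A)
  rw [← MonoidalPreadditive.tensor_add, ← MonoidalPreadditive.add_tensor, add_neg_cancel,
    MonoidalPreadditive.zero_tensor, MonoidalPreadditive.tensor_zero, zero_comp, comp_zero,
    W.s₁.tr_zero, W.s₁.N_zero, add_zero, CategoryTheory.Functor.map_id] at h
  exact (neg_eq_of_add_eq_zero_right h.symm).symm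

@[reassoc] theorem un_projMap (V : W.T₁.C) (S : W.T₀.C) :
    W.s₁.un ((U W).obj V ⊗ S) ≫ (U W).map (W.s₁.projMap V S) =
      (U W).obj V ◁ W.s₁.un S ≫ μ (U W) V (W.s₁.ind.obj S) := W.s₁.pun_projMap V S

theorem shp_tg (V : W.T₁.C) {S : W.T₀.C} {Y : W.T₁.C} (g : S ⟶ (U W).obj Y) :
    shp (tg V g) = W.s₁.projMap V S ≫ V ◁ shp g :=
  W.s₁.un_ext (by
    rw [un_shp, Functor.map_comp, un_projMap_assoc, ← μ_natural_right,
      ← MonoidalCategory.whiskerLeft_comp_assoc, un_shp, tg])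

@[reassoc] theorem γ_μ {V : W.T₁.C} (hV : W.s₁.γ V = 𝟙 _) (Y : W.T₁.C) :
    (U W).obj V ◁ W.s₁.γ Y ≫ μ (U W) V Y = μ (U W) V Y ≫ W.s₁.γ (V ⊗ Y) := by
  rw [W.s₁.μ_γ, hV, id_tensorHom]

@[reassoc] theorem dd_μ {V : W.T₁.C} (hV : W.s₁.γ V = 𝟙 _) (m : ℤ) (Y : W.T₁.C) :
    (U W).obj V ◁ dd m Y ≫ μ (U W) V Y = μ (U W) V Y ≫ dd m (V ⊗ Y) := by
  unfold dd
  split_ifs
  · have h : (U W).obj V ◁ (W.s₁.γ Y - 𝟙 _) = (U W).obj V ◁ W.s₁.γ Y - (U W).obj V ◁ 𝟙 _ :=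
      (tensorLeft ((U W).obj V)).map_sub
    rw [h, Preadditive.sub_comp, Preadditive.comp_sub, γ_μ hV, MonoidalCategory.whiskerLeft_id,
      Category.id_comp, Category.comp_id]
  · simp only [MonoidalPreadditive.whiskerLeft_add, Preadditive.add_comp, Preadditive.comp_add,
      MonoidalCategory.whiskerLeft_comp, Category.assoc, γ_μ hV, γ_μ_assoc hV,
      MonoidalCategory.whiskerLeft_id, Category.id_comp, Category.comp_id]

theorem tg_γ {V : W.T₁.C} (hV : W.s₁.γ V = 𝟙 _) {S : W.T₀.C} {Y : W.T₁.C}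
    (g : S ⟶ (U W).obj Y) : tg V g ≫ W.s₁.γ (V ⊗ Y) = tg V (g ≫ W.s₁.γ Y) := by
  rw [tg, tg, Category.assoc, ← γ_μ hV, MonoidalCategory.whiskerLeft_comp_assoc]

theorem tg_add (V : W.T₁.C) {S : W.T₀.C} {Y : W.T₁.C} (g g' : S ⟶ (U W).obj Y) :
    tg V (g + g') = tg V g + tg V g' := by
  rw [tg, tg, tg, MonoidalPreadditive.whiskerLeft_add, Preadditive.add_comp]

theorem tg_ten (V V' : W.T₁.C) {S S' : W.T₀.C} {Y Y' : W.T₁.C} (g : S ⟶ (U W).obj Y)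
    (g' : S' ⟶ (U W).obj Y') :
    ((U W).obj V ⊗ (U W).obj V') ◁ (g ⊗ₘ g') ≫ tensorμ _ _ _ _ ≫
      (μ (U W) V Y ⊗ₘ μ (U W) V' Y') = tensorμ _ _ S S' ≫ (tg V g ⊗ₘ tg V' g') := by
  rw [tensorμ_natural_right_assoc, tensorHom_comp_tensorHom, tg, tg]

theorem tg_cupf {V V' : W.T₁.C} (hV : W.s₁.γ V = 𝟙 _) (hV' : W.s₁.γ V' = 𝟙 _) (m m' : ℤ)
    {S S' : W.T₀.C} {Y Y' : W.T₁.C} (g : S ⟶ (U W).obj Y) (g' : S' ⟶ (U W).obj Y') :
    ((U W).obj V ⊗ (U W).obj V') ◁ cupf m m' g g' ≫ tensorμ _ _ _ _ ≫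
      (μ (U W) V Y ⊗ₘ μ (U W) V' Y') = tensorμ _ _ S S' ≫ cupf m m' (tg V g) (tg V' g') := by
  unfold cupf
  split_ifs
  · rw [MonoidalPreadditive.whiskerLeft_add, Preadditive.add_comp, Preadditive.comp_add, tg_ten,
      tg_ten, ← Category.assoc (tg V g), tg_γ hV, tg_γ hV, tg_γ hV', tg_add, Category.assoc]
  · exact tg_ten V V' g g'

theorem μ_tensorμ_δ (V V' Y Y' : W.T₁.C) :
    μ (U W) (V ⊗ V') (Y ⊗ Y') ≫ (U W).map (tensorμ V V' Y Y') ≫ δ (U W) _ _ =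
      (δ (U W) V V' ⊗ₘ δ (U W) Y Y') ≫ tensorμ _ _ _ _ ≫ (μ (U W) V Y ⊗ₘ μ (U W) V' Y') := by
  rw [← cancel_mono (μ (U W) (V ⊗ Y) (V' ⊗ Y'))]
  simp only [Category.assoc]
  rw [tensorμ_comp_μ_tensorHom_μ_comp_μ, tensorHom_comp_tensorHom_assoc]
  simp

end Tn

open Tn

variable (W)

theorem ten : TEN W where
  dist V S Y Y' g i b D := by
    let e := asIso (W.s₁.projMap V S)
    refine isomorphic_distinguished _ (Ms.dist_r D V) _ (Triangle.isoMk _ _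
      e (Iso.refl _) (Iso.refl _) ?_ ?_ ?_)
    · exact (Category.comp_id _).trans (shp_tg V g)
    · exact (Category.comp_id _).trans (Category.id_comp _).symm
    · change tb V b ≫ (W.s₁.projMap V S)⟦(1 : ℤ)⟧' = 𝟙 _ ≫ V ◁ b ≫ (rS _ _).hom
      rw [tb, Category.assoc, Category.assoc, ← Functor.map_comp, IsIso.inv_hom_id,
        CategoryTheory.Functor.map_id, Category.comp_id, Category.id_comp]
  gen_b V S S' Y' g' b m κ hV h := by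
    have h1 : μ (U W) V _ ≫ (U W).map (rS V (W.s₁.ind.obj S)).hom ≫ (cs W _).hom =
        (U W).obj V ◁ (cs W _).hom ≫ (rS _ _).hom ≫ (μ (U W) V _)⟦(1 : ℤ)⟧' :=
      Ms.μ_rS W.s₁.U V _
    have h2 : (U W).obj V ◁ (W.s₁.un S ≫ dd m _) ≫ μ (U W) V _ ≫
        (U W).map (inv (W.s₁.projMap V S)) = W.s₁.un _ ≫ dd m _ := by
      rw [MonoidalCategory.whiskerLeft_comp_assoc, dd_μ_assoc hV, dd_nat, ← un_projMap_assoc,
        ← Functor.map_comp_assoc, IsIso.hom_inv_id, CategoryTheory.Functor.map_id,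
        Category.id_comp]
    rw [tg, tb, Functor.map_comp, Functor.map_comp]
    simp only [Category.assoc]
    rw [cs_nat, ← μ_natural_right_assoc, reassoc_of% h1, ← MonoidalCategory.whiskerLeft_comp_assoc,
      ← MonoidalCategory.whiskerLeft_comp_assoc, Category.assoc, h,
      MonoidalCategory.whiskerLeft_comp_assoc, rS_nat_r_assoc, ← Functor.map_comp,
      ← Functor.map_comp, h2]
  gen_δ σ S S' S'' Y Y' Y'' g g' g'' d θ m m' hV hV' h := by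
    rw [tg, Functor.map_comp]
    simp only [Category.assoc]
    rw [← μ_natural_assoc, μ_tensorμ_δ, ← tg_cupf hV hV', ← id_tensorHom, ← id_tensorHom,
      tensorHom_comp_tensorHom_assoc, tensorHom_comp_tensorHom_assoc,
      tensorHom_comp_tensorHom_assoc, Category.assoc, Category.assoc, h, Category.id_comp,
      Category.comp_id]
  μ_lS V Y := Ms.μ_lS W.s₁.U V Y
  μ_rS V Y := Ms.μ_rS W.s₁.U V Y

theorem swap : SWAP W := fun hg => by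
  obtain ⟨ω, -⟩ := hg.n1
  obtain ⟨⟨r, -, hr⟩, -⟩ := hg.c1
  have h1 : (β_ (W.F.S.obj RRF) (W.F.S.obj RRF)).hom = -𝟙 _ :=
    neg_iso W.F.line TensorTriangulated.sign
  have s1 : Sph (W.F.S.obj RRF) 1 := ⟨W.F.line⟩
  have s2 : Sph ((U W).obj W.s₁.Lr) (0 + 1 + 1) :=
    ((sph_unit.shift 1).shift 1).of_iso (asIso (W.s₁.flat2 r)).symm
  have s3 : ∀ n : ℤ, Sph ((𝟙_ W.T₀.C)⟦n⟧) n := fun n => ⟨Iso.refl _⟩
  have : IsInv (W.L₁.tv.F.obj (W.F.S.obj RRF)) :=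
    IsInv.of_inverse (Functor.Monoidal.μIso _ _ _ ≪≫
      W.L₁.tv.F.mapIso ((s1.tensor (s3 (-1))).iso sph_unit).some ≪≫
        (Functor.Monoidal.εIso _).symm)
  refine ⟨cancel (neg_iso ω.symm (neg_map W.s₁.N (N_neg _) h1))
    (neg_map W.L₁.tv.F ?_ h1), W.s₁.exists_inv _ _ ((s2.tensor (s3 (-2))).iso sph_unit).some⟩
  rw [Functor.map_neg, CategoryTheory.Functor.map_id]

end Vale.Agent.P236Z.SS
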