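import Vale.Agent.P236Z.SS.Pre
import Vale.Agent.P236Z.SS.Ten
import Vale.Agent.P236Z.SS.Asm
import Vale.Agent.P236Z.SS.Ext

/-!
# P236: the blocks SS and NB
-/

namespace Vale.Agent.P236Z.SS

/-- **(SS + NB)** -/
theorem stRows : Vale.Agent.P236Z.Top.StRows := stRows_of_three ten swap asm ext

end Vale.Agent.P236Z.SS
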