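import Vale.Agent.P236Z.SS.Massey

/-!
# P236, block SS: coherence of the suspension coordinates, framings
-/

open CategoryTheory MonoidalCategory Limits Pretriangulated
open Vale.Agent.P251 Vale.Agent.P251.T Vale.Agent.P251.S Vale.Agent.P251.M

set_option linter.unusedSectionVars false

noncomputable section

namespace Vale.Agent.P236Z.SS

namespace Coh

section Mon

variable {C : Type 1} [Category.{0} C] [MonoidalCategory C] [SymmetricCategory C]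

theorem mid (X X' Y Y' S : C) : tensorμ X X' (Y ⊗ S) Y' ≫ (α_ X Y S).inv ▷ (X' ⊗ Y') ≫
    (α_ _ _ _).hom ≫ (X ⊗ Y) ◁ (β_ S (X' ⊗ Y')).hom ≫ (α_ _ _ _).inv =
    (X ⊗ X') ◁ ((α_ _ _ _).hom ≫ Y ◁ (β_ S Y').hom ≫ (α_ _ _ _).inv) ≫ (α_ _ _ _).inv ≫
      tensorμ X X' Y Y' ▷ S := by
  rw [tensorμ, tensorμ, BraidedCategory.braiding_tensor_right_hom,
    BraidedCategory.braiding_tensor_right_hom]
  calc _ = 𝟙 _ ⊗≫ X ◁ (β_ X' Y).hom ▷ (S ⊗ Y') ⊗≫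
        (X ⊗ Y) ◁ ((β_ X' S).hom ≫ (β_ S X').hom) ▷ Y' ⊗≫
        X ◁ (Y ⊗ X') ◁ (β_ S Y').hom ⊗≫ 𝟙 _ := by monoidal
    _ = 𝟙 _ ⊗≫ X ◁ ((β_ X' Y).hom ▷ (S ⊗ Y') ≫ (Y ⊗ X') ◁ (β_ S Y').hom) ⊗≫ 𝟙 _ := by
        rw [SymmetricCategory.symmetry]
        monoidal
    _ = _ := by
        rw [← whisker_exchange]
        monoidal

theorem last (X X' Y Y' S : C) : tensorμ X X' Y (Y' ⊗ S) ≫ (X ⊗ Y) ◁ (α_ X' Y' S).inv ≫
    (α_ _ _ _).inv = (X ⊗ X') ◁ (α_ _ _ _).inv ≫ (α_ _ _ _).inv ≫ tensorμ X X' Y Y' ▷ S := by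
  rw [tensorμ, tensorμ]
  monoidal

theorem unit_r (X X' S : C) : (X ⊗ X') ◁ (ρ_ S).inv ≫ tensorμ X X' S (𝟙_ C) ≫
    (X ⊗ S) ◁ (ρ_ X').hom ≫ (α_ _ _ _).hom ≫ X ◁ (β_ S X').hom ≫ (α_ _ _ _).inv = 𝟙 _ := by
  rw [tensorμ]
  calc _ = 𝟙 _ ⊗≫ X ◁ ((β_ X' S).hom ≫ (β_ S X').hom) ⊗≫ 𝟙 _ := by monoidal
    _ = _ := by
        rw [SymmetricCategory.symmetry]
        monoidal

theorem unit_l (X X' S : C) : (X ⊗ X') ◁ (λ_ S).inv ≫ tensorμ X X' (𝟙_ C) S ≫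
    (ρ_ X).hom ▷ (X' ⊗ S) ≫ (α_ _ _ _).inv = 𝟙 _ := by
  rw [tensorμ, braiding_tensorUnit_right]
  monoidal

variable {L : C}

theorem isFr_tensorμ [IsInv L] {a b c d : ℤ} {X₁ X₂ Y₁ Y₂ : C} (F₁ : Fr L a X₁) (F₂ : Fr L b X₂)
    (G₁ : Fr L c Y₁) (G₂ : Fr L d Y₂) (h : SymFr F₂ G₁) :
    IsFr ((F₁.tensor F₂).tensor (G₁.tensor G₂)) ((F₁.tensor G₁).tensor (F₂.tensor G₂))
      (tensorμ X₁ X₂ Y₁ Y₂) := by
  refine IsFr.comp (by omega) (by omega) (isFr_associator _ _ _)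
    (IsFr.comp (G := F₁.tensor ((F₂.tensor G₁).tensor G₂)) (by omega) (by omega)
      (IsFr.whiskerLeft (by omega) (IsFr.inv' (by omega) (isFr_associator _ _ _)))
    (IsFr.comp (G := F₁.tensor ((G₁.tensor F₂).tensor G₂)) (by omega) (by omega)
      (IsFr.whiskerLeft (by omega) (IsFr.whiskerRight (by omega) h))
    (IsFr.comp (G := F₁.tensor (G₁.tensor (F₂.tensor G₂))) (by omega) (by omega)
      (IsFr.whiskerLeft (by omega) (isFr_associator _ _ _))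
      (IsFr.inv' (by omega) (isFr_associator _ _ _)))))

theorem mu4 (E : EvenSpheres C) {a b c d ab cd ac bd n : ℤ} (h₁ : a + b = ab) (h₂ : c + d = cd)
    (h₃ : a + c = ac) (h₄ : b + d = bd) (h : ab + cd = n) (h' : ac + bd = n) :
    (E.mu ab cd n h).inv ≫ ((E.mu a b ab h₁).inv ⊗ₘ (E.mu c d cd h₂).inv) ≫ tensorμ _ _ _ _ =
      (E.mu ac bd n h').inv ≫ ((E.mu a c ac h₃).inv ⊗ₘ (E.mu b d bd h₄).inv) := by
  refine IsFr.unique (F := E.fr n)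
    (G := ((E.fr a).tensor (E.fr c)).tensor ((E.fr b).tensor (E.fr d))) (by omega) ?_ ?_
  · exact IsFr.comp (by omega) (by omega) (IsFr.inv' h (E.isFr_mu _ _ _ h))
      (IsFr.comp (by omega) (by omega) (IsFr.tensor (by omega) (by omega)
        (IsFr.inv' h₁ (E.isFr_mu _ _ _ h₁)) (IsFr.inv' h₂ (E.isFr_mu _ _ _ h₂)))
        (isFr_tensorμ _ _ _ _ (E.symFr b c)))
  · exact IsFr.comp (by omega) (by omega) (IsFr.inv' h' (E.isFr_mu _ _ _ h'))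
      (IsFr.tensor (by omega) (by omega)
        (IsFr.inv' h₃ (E.isFr_mu _ _ _ h₃)) (IsFr.inv' h₄ (E.isFr_mu _ _ _ h₄)))

end Mon

section TT

variable {T : Type 1} [Category.{0} T] [Preadditive T] [HasZeroObject T] [HasShift T ℤ]
  [∀ n : ℤ, (shiftFunctor T n).Additive] [Pretriangulated T]
  [MonoidalCategory T] [SymmetricCategory T] [TensorTriangulated T]

open TensorTriangulated

@[reassoc] theorem e_nat {Y Z : T} (f : Y ⟶ Z) :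
    (e Y).hom ≫ f⟦(1 : ℤ)⟧' = f ▷ ((𝟙_ T)⟦(1 : ℤ)⟧) ≫ (e Z).hom := (e_naturality f).symm

@[reassoc] theorem e_inv_nat {Y Z : T} (f : Y ⟶ Z) :
    f⟦(1 : ℤ)⟧' ≫ (e Z).inv = (e Y).inv ≫ f ▷ ((𝟙_ T)⟦(1 : ℤ)⟧) := by
  rw [Iso.comp_inv_eq, Category.assoc, Iso.eq_inv_comp, e_nat]

theorem rS_hom (A B : T) : (rS A B).hom = A ◁ (e B).inv ≫
    (α_ A B ((𝟙_ T)⟦(1 : ℤ)⟧)).inv ≫ (e (A ⊗ B)).hom := Ms.rS_eq A B

theorem lS_hom (A B : T) : (lS A B).hom = (e A).inv ▷ B ≫ (α_ _ _ _).hom ≫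
    A ◁ (β_ ((𝟙_ T)⟦(1 : ℤ)⟧) B).hom ≫ (α_ _ _ _).inv ≫ (e (A ⊗ B)).hom := by
  rw [← cancel_epi (β_ B (A⟦(1 : ℤ)⟧)).hom, Ms.β_lS, rS_hom, Category.assoc, Category.assoc, e_nat,
    ← BraidedCategory.braiding_naturality_right_assoc, BraidedCategory.braiding_tensor_right_hom]
  simp only [Category.assoc, Iso.inv_hom_id_assoc, ← MonoidalCategory.whiskerLeft_comp_assoc,
    SymmetricCategory.symmetry, MonoidalCategory.whiskerLeft_id, Category.id_comp,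
    Iso.hom_inv_id_assoc]

@[reassoc] theorem tensorμ_rS_lS (X X' Y Y' : T) :
    tensorμ X X' (Y⟦(1 : ℤ)⟧) Y' ≫ (rS X Y).hom ▷ (X' ⊗ Y') ≫ (lS _ _).hom =
      (X ⊗ X') ◁ (lS Y Y').hom ≫ (rS _ _).hom ≫ (tensorμ X X' Y Y')⟦(1 : ℤ)⟧' := by
  have h : tensorμ X X' (Y⟦(1 : ℤ)⟧) Y' ≫ (X ◁ (e Y).inv) ▷ (X' ⊗ Y') =
      (X ⊗ X') ◁ (e Y).inv ▷ Y' ≫ tensorμ X X' _ Y' := by
    simpa using (tensorμ_natural (𝟙 X) (𝟙 X') (e Y).inv (𝟙 Y')).symm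
  rw [rS_hom, rS_hom, lS_hom, lS_hom]
  simp only [comp_whiskerRight, Category.assoc, hom_inv_whiskerRight_assoc, e_nat]
  rw [reassoc_of% h, reassoc_of% mid]
  simp only [MonoidalCategory.whiskerLeft_comp, Category.assoc, whiskerLeft_hom_inv_assoc]

@[reassoc] theorem tensorμ_rS_rS (X X' Y Y' : T) :
    tensorμ X X' Y (Y'⟦(1 : ℤ)⟧) ≫ (X ⊗ Y) ◁ (rS X' Y').hom ≫ (rS _ _).hom =
      (X ⊗ X') ◁ (rS Y Y').hom ≫ (rS _ _).hom ≫ (tensorμ X X' Y Y')⟦(1 : ℤ)⟧' := by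
  have h : tensorμ X X' Y (Y'⟦(1 : ℤ)⟧) ≫ (X ⊗ Y) ◁ X' ◁ (e Y').inv =
      (X ⊗ X') ◁ Y ◁ (e Y').inv ≫ tensorμ X X' Y _ := by
    simpa using (tensorμ_natural (𝟙 X) (𝟙 X') (𝟙 Y) (e Y').inv).symm
  rw [rS_hom, rS_hom, rS_hom, rS_hom]
  simp only [MonoidalCategory.whiskerLeft_comp, Category.assoc, whiskerLeft_hom_inv_assoc, e_nat]
  rw [reassoc_of% h, reassoc_of% last]

@[reassoc] theorem e_ρ_tensorμ (X X' : T) :
    (e (X ⊗ X')).inv ≫ (X ⊗ X') ◁ (ρ_ _).inv ≫ tensorμ X X' ((𝟙_ T)⟦(1 : ℤ)⟧) (𝟙_ T) =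
      (lS X X').inv ≫ ((e X).inv ⊗ₘ (ρ_ X').inv) := by
  rw [Iso.eq_inv_comp, lS_hom, MonoidalCategory.tensorHom_def]
  simp only [Category.assoc, Iso.hom_inv_id_assoc]
  refine congrArg (_ ≫ ·) ?_
  rw [← cancel_mono ((X ⊗ _) ◁ (ρ_ X').hom ≫ (α_ _ _ _).hom ≫ X ◁ (β_ _ X').hom ≫ (α_ _ _ _).inv)]
  simp only [Category.assoc, unit_r, whiskerLeft_inv_hom_assoc, Category.comp_id]

@[reassoc] theorem e_lam_tensorμ (X X' : T) :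
    (e (X ⊗ X')).inv ≫ (X ⊗ X') ◁ (λ_ _).inv ≫ tensorμ X X' (𝟙_ T) ((𝟙_ T)⟦(1 : ℤ)⟧) =
      (rS X X').inv ≫ ((ρ_ X).inv ⊗ₘ (e X').inv) := by
  rw [Iso.eq_inv_comp, rS_hom, tensorHom_def']
  simp only [Category.assoc, Iso.hom_inv_id_assoc]
  refine congrArg (_ ≫ ·) ?_
  rw [← cancel_mono ((ρ_ X).hom ▷ (X' ⊗ _) ≫ (α_ _ _ _).inv)]
  simp only [Category.assoc, unit_l, inv_hom_whiskerRight_assoc, Category.comp_id]

end TT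

end Coh

end Vale.Agent.P236Z.SS
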