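import Vale.Agent.P236Z.SS.Val
import Vale.Agent.P236Z.Top.Unit

/-!
# P236, block SS: the exact couple of the tower
-/

open CategoryTheory MonoidalCategory Limits Pretriangulated
open Vale.Agent.P251 Vale.Agent.P251.T Vale.Agent.P251.M Vale.Agent.P251.I
  Vale.Agent.P236Z.Cat Vale.Agent.P236Z.Mod Vale.Agent.P236Z.Top

noncomputable section

namespace Vale.Agent.P236Z.SS

variable {W : Tower} (x : Mdl W)

namespace Tow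

variable (τ : Tow W)

theorem IsK.unique {m₀ m t t₁ : ℤ} {h : m₀ + 1 = m} {k : t + 1 = t₁}
    {u : τ.S m₀ t₁ ⟶ (U W).obj x.X₁} {a a' : τ.A m t ⟶ x.X₁} (h₁ : τ.IsK x h k u a)
    (h₂ : τ.IsK x h k u a') : a = a' :=
  (shiftFunctor _ (1 : ℤ)).map_injective ((cancel_epi (τ.τ m k).hom).1 (h₁.trans h₂.symm))

theorem exists_isK {m₀ m t t₁ : ℤ} (h : m₀ + 1 = m) (k : t + 1 = t₁)
    (u : τ.S m₀ t₁ ⟶ (U W).obj x.X₁) : ∃ a, τ.IsK x h k u a := by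
  obtain ⟨a, ha⟩ := (shiftFunctor _ (1 : ℤ)).map_surjective
    ((τ.τ m k).inv ≫ τ.b t₁ h ≫ (shp u)⟦(1 : ℤ)⟧')
  exact ⟨a, by rw [IsK, ha, Iso.hom_inv_id_assoc]⟩

theorem IsK.add {m₀ m t t₁ : ℤ} {h : m₀ + 1 = m} {k : t + 1 = t₁}
    {u v : τ.S m₀ t₁ ⟶ (U W).obj x.X₁} {a a' : τ.A m t ⟶ x.X₁} (h₁ : τ.IsK x h k u a)
    (h₂ : τ.IsK x h k v a') : τ.IsK x h k (u + v) (a + a') := by
  rw [IsK, Functor.map_add, Preadditive.comp_add, h₁, h₂, shp_add, Functor.map_add,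
    Preadditive.comp_add]

theorem IsK.comp {m₀ m t t₁ : ℤ} {h : m₀ + 1 = m} {k : t + 1 = t₁}
    {u : τ.S m₀ t₁ ⟶ (U W).obj x.X₁} {a : τ.A m t ⟶ x.X₁} (h₁ : τ.IsK x h k u a)
    (g : x.X₁ ⟶ x.X₁) : τ.IsK x h k (u ≫ (U W).map g) (a ≫ g) := by
  rw [IsK, Functor.map_comp, reassoc_of% (show _ = _ from h₁), ← shp_comp, Functor.map_comp]

/-- the class on the cell with a given value -/
def cl (s t : ℤ) (y : Top.deg x.P.E (s + t)) : τ.S (s - 1) (t + 1) ⟶ (U W).obj x.X₁ :=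
  (τ.val_surj x (s - 1) (t + 1) (by ring) y.2).choose

theorem val_cl (s t : ℤ) (y : Top.deg x.P.E (s + t)) :
    τ.val x (s - 1) (t + 1) (τ.cl x s t y) = y :=
  (τ.val_surj x (s - 1) (t + 1) (by ring) y.2).choose_spec

/-- the boundary -/
def kk (s t : ℤ) (y : Top.deg x.P.E (s + t)) : τ.A s t ⟶ x.X₁ :=
  (τ.exists_isK x (sub_add_cancel s 1) rfl (τ.cl x s t y)).choose

theorem isK_kk {s₀ s t t₁ : ℤ} (h : s₀ + 1 = s) (k : t + 1 = t₁) (y : Top.deg x.P.E (s + t))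
    (u : τ.S s₀ t₁ ⟶ (U W).obj x.X₁) (hu : τ.val x s₀ t₁ u = y) :
    τ.IsK x h k u (τ.kk x s t y) := by
  obtain rfl : s₀ = s - 1 := by omega
  subst k
  rw [τ.val_inj x (hu.trans (τ.val_cl x s t y).symm)]
  exact (τ.exists_isK x (sub_add_cancel s 1) rfl (τ.cl x s t y)).choose_spec

theorem kk_eq {s₀ s t t₁ : ℤ} {h : s₀ + 1 = s} {k : t + 1 = t₁} (y : Top.deg x.P.E (s + t))
    {u : τ.S s₀ t₁ ⟶ (U W).obj x.X₁} (hu : τ.val x s₀ t₁ u = y) {a : τ.A s t ⟶ x.X₁}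
    (ha : τ.IsK x h k u a) : τ.kk x s t y = a := (τ.isK_kk x h k y u hu).unique x τ ha

theorem exists_kk {s₀ s t t₁ : ℤ} {h : s₀ + 1 = s} {k : t + 1 = t₁}
    {u : τ.S s₀ t₁ ⟶ (U W).obj x.X₁} {a : τ.A s t ⟶ x.X₁} (ha : τ.IsK x h k u a) :
    ∃ hy : τ.val x s₀ t₁ u ∈ Top.deg x.P.E (s + t), τ.kk x s t ⟨_, hy⟩ = a :=
  ⟨(show s₀ + t₁ = s + t by omega) ▸ τ.val_mem x s₀ t₁ u, τ.kk_eq x _ rfl ha⟩

/-- The exact couple. -/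
def cpl0 : Cpl0 (RR x) (Top.deg x.P.E) where
  D s t := τ.A s t ⟶ x.X₁
  I s s' t := Preadditive.leftComp _ (τ.I s s' t)
  I_self s t a := by
    change τ.I s s t ≫ a = a
    rw [τ.I_self, Category.id_comp]
  I_I t a h h' := by
    change τ.I _ _ t ≫ τ.I _ _ t ≫ a = τ.I _ _ t ≫ a
    rw [← Category.assoc, τ.I_I t h h']
  j s t := AddMonoidHom.mk' (τ.jj x s t) (τ.jj_add x s t)
  j_mem s t a := τ.val_mem x s t _
  k s t := AddMonoidHom.mk' (τ.kk x s t) fun y z =>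
    τ.kk_eq x _ (by rw [val_add, val_cl, val_cl]; rfl)
      ((τ.isK_kk x (sub_add_cancel s 1) rfl y _ (τ.val_cl x s t y)).add x τ
        (τ.isK_kk x (sub_add_cancel s 1) rfl z _ (τ.val_cl x s t z)))
  ex_I {s₀ s} t a h := by
    have key : ∀ a : τ.A s t ⟶ x.X₁, τ.I s₀ s (t + 1) ≫ (τ.τ s rfl).hom ≫ a⟦(1 : ℤ)⟧' =
        (τ.τ s₀ rfl).hom ≫ (τ.I s₀ s t ≫ a)⟦(1 : ℤ)⟧' := fun a => by
      rw [reassoc_of% τ.τ_I rfl (show s₀ ≤ s by omega), Functor.map_comp]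
    change τ.I s₀ s t ≫ a = 0 ↔ ∃ y, τ.kk x s t y = a
    constructor
    · intro ha
      obtain ⟨w, hw⟩ := (τ.dist (t + 1) h).desc₃ _
        ((key a).trans (by rw [ha, Functor.map_zero, comp_zero]))
      obtain ⟨w, rfl⟩ := (shiftFunctor _ (1 : ℤ)).map_surjective w
      rw [← shp_un w] at hw
      obtain ⟨hy, e⟩ := τ.exists_kk x (h := h) (k := rfl) hw.symm
      exact ⟨_, e⟩
    · rintro ⟨y, rfl⟩
      obtain ⟨u, hu⟩ := τ.val_surj x s₀ (t + 1) (by omega) y.2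
      apply (shiftFunctor _ (1 : ℤ)).map_injective
      rw [← cancel_epi (τ.τ s₀ rfl).hom, ← key, τ.isK_kk x h rfl y u hu,
        reassoc_of% (τ.dist (t + 1) h).zero₂₃, Functor.map_zero, zero_comp, comp_zero]
  ex_j {s s₁} t a h := by
    change τ.jj x s t a = 0 ↔ ∃ b, τ.I s s₁ t ≫ b = a
    constructor
    · intro ha
      exact (τ.dist t h).desc₂ a (by rw [shp_comp, τ.val_eq_zero x ha, shp_zero])
    · rintro ⟨b, rfl⟩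
      rw [jj, Functor.map_comp, τ.U_I t (by omega), zero_comp, comp_zero, val_zero]
  ex_k {s₀ s t t₁} y h k := by
    obtain ⟨u, hu⟩ := τ.val_surj x s₀ t₁ (by omega) y.2
    have h1 := τ.isK_kk x h k y u hu
    change τ.kk x s t y = 0 ↔ ∃ a, τ.jj x s₀ t₁ a = y
    constructor
    · intro h0
      rw [IsK, h0, Functor.map_zero, comp_zero] at h1
      obtain ⟨w, hw⟩ := (τ.dist t₁ h).desc₁ _ h1.symm
      obtain ⟨w, rfl⟩ := (shiftFunctor _ (1 : ℤ)).map_surjective w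
      rw [← Functor.map_comp, shp_comp] at hw
      refine ⟨w, ?_⟩
      rw [jj, ← un_shp (_ ≫ _), (shiftFunctor _ (1 : ℤ)).map_injective hw, un_shp, hu]
    · rintro ⟨a, ha⟩
      refine τ.kk_eq x y (h := h) (k := k) ha ?_
      rw [IsK, ← shp_comp, Functor.map_comp, reassoc_of% (τ.dist t₁ h).zero₃₁, Functor.map_zero,
        zero_comp, comp_zero]

theorem dif_iff (s s' t : ℤ) (y z : RR x) : (τ.cpl0 x).Dif s s' t y z ↔ τ.Dif x s s' t y z := by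
  constructor
  · rintro ⟨s₁, h, hy, a, h1, h2⟩
    obtain ⟨u, hu⟩ := τ.val_surj x s (t + 1) (by omega) hy
    exact ⟨s₁, t + 1, h, rfl, u, a, hu,
      (show τ.kk x s₁ t ⟨y, hy⟩ = τ.I s₁ s' t ≫ a from h1) ▸ τ.isK_kk x h rfl ⟨y, hy⟩ u hu, h2⟩
  · rintro ⟨s₁, t₁, h, k, u, a, rfl, h1, h2⟩
    obtain ⟨hy, e⟩ := τ.exists_kk x h1
    exact ⟨s₁, h, hy, a, e, h2⟩

theorem jj_isK {m₀ m t t₁ : ℤ} (h : m₀ + 1 = m) (k : t + 1 = t₁) : ∃ e, Sg e ∧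
    ∀ (u : τ.S m₀ t₁ ⟶ (U W).obj x.X₁) (a : τ.A m t ⟶ x.X₁), τ.IsK x h k u a →
      τ.jj x m t a = e • d1 (hA x.P) m₀ (τ.val x m₀ t₁ u) := by
  obtain ⟨κ, hκ⟩ := τ.gen_b t₁ h
  let κ' : τ.S m t ≅ τ.S m₀ t₁ :=
    (shiftFunctor _ (1 : ℤ)).preimageIso ((τ.τ₀ m k).symm ≪≫ κ)
  obtain ⟨e, he, h1⟩ := τ.val_iso x (by omega) κ'
  refine ⟨e, he, fun u a ha => ?_⟩
  rw [← val_dd, ← h1, jj]
  refine congrArg _ ((shiftFunctor _ (1 : ℤ)).map_injective ?_)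
  have h2 : κ'.hom⟦(1 : ℤ)⟧' = (τ.τ₀ m k).inv ≫ κ.hom := Functor.map_preimage _ _
  rw [Functor.map_comp, Functor.map_comp, h2, Category.assoc, Iso.eq_inv_comp,
    ← reassoc_of% τ.gen_τ m k, ← cs_nat, ← Functor.map_comp_assoc, ha, Functor.map_comp_assoc,
    cs_nat, reassoc_of% hκ, ← Functor.map_comp, Category.assoc, dd_nat,
    un_shp_assoc]

/-- The multiplicative couple. -/
def cpl (hl : τ.Leib x) : Cpl (RR x) (Top.deg x.P.E) (hA x.P) (gA x.P) where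
  toCpl0 := τ.cpl0 x
  dif1 s₀ s t h := by
    obtain ⟨e, he, h1⟩ := τ.jj_isK x h (rfl : t + 1 = t + 1)
    refine ⟨e, he, fun y => ?_⟩
    obtain ⟨u, hu⟩ := τ.val_surj x s₀ (t + 1) (by omega) y.2
    exact (h1 u _ (τ.isK_kk x h rfl y u hu)).trans (by rw [hu])
  leib r s₁ s₁' t₁ s₂ s₂' t₂ s₃ s₃' t₃ a b c d e f := by
    simp only [dif_iff]
    exact hl r s₁ s₁' t₁ s₂ s₂' t₂ s₃ s₃' t₃ a b c d e f
  G s t := Preadditive.rightComp _ (W.s₂.γ x.X)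
  G_I s s' t a := Category.assoc _ _ _
  G_j s t (a : τ.A s t ⟶ x.X₁) := by
    change τ.jj x s t (a ≫ W.s₂.γ x.X) = gA x.P (τ.jj x s t a)
    rw [jj, Functor.map_comp, ← Category.assoc, val_G, jj]
  G_k s t y z h := (τ.kk_eq x z (by rw [val_G, val_cl, h])
    ((τ.isK_kk x (sub_add_cancel s 1) rfl y _ (τ.val_cl x s t y)).comp x τ _)).symm

theorem isEta (hl : τ.Leib x) (h : ETA2 W) (η : (𝟙_ W.T₁.C)⟦(1 : ℤ)⟧ ⟶ x.X₁)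
    (hη : Fund x (η + η ≫ W.s₂.γ _ + η ≫ W.s₂.γ _ ≫ W.s₂.γ _))
    (ζ : τ.A 0 1 ≅ (𝟙_ W.T₁.C)⟦(1 : ℤ)⟧) : ∃ e, Force.IsEta (τ.cpl x hl) (ζ.hom ≫ η) e := by
  obtain ⟨u, e, he, h1, h2⟩ := h x τ _ hη ζ
  have hy : (1 : RR x) ∈ Top.deg x.P.E (-1 + 1) := h1 ▸ τ.val_mem x (-2) 2 u
  refine ⟨e, ⟨1, hy⟩, he, rfl, ?_⟩
  change τ.I (-1) 0 1 ≫ (ζ.hom ≫ η + (ζ.hom ≫ η) ≫ W.s₂.γ _ +
    ((ζ.hom ≫ η) ≫ W.s₂.γ _) ≫ W.s₂.γ _) = e • τ.kk x (-1) 1 ⟨1, hy⟩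
  rw [τ.kk_eq x ⟨1, hy⟩ h1 h2, he.smul_smul]
  simp only [Preadditive.comp_add, Category.assoc]

theorem bound (h1 : NRM W) (h2 : ACT W) (hg : W.Geo) {n s s₀ t : ℤ} {M : ℕ} (hs : s = 4 * n)
    (ht : t = 2 * n) (h₀ : s₀ + 2 * M = s) (u : (Λ W).S n ⟶ x.P.E)
    (hu : W.s₁.N.map u ≫ x.nm₁ ≫ act W.s₁.ar M _ = 0) : ∃ a : τ.A s t ⟶ x.X₁,
      τ.jj x s t a = nm (hA x.P) (HRing.of (Λ W) x.P.E n u) ∧ τ.I s₀ s t ≫ a = 0 := by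
  obtain ⟨a, ⟨χ, rfl⟩, e, he, h3⟩ := h1 hg x τ n s t hs ht u
  obtain ⟨-, -, h4⟩ := h2 τ M s₀ s t h₀
  refine ⟨e • (χ.hom ≫ W.s₁.N.map u ≫ x.nm₁), by rw [jj_zsmul, h3, he.smul_smul], ?_⟩
  rw [Preadditive.comp_zsmul, (h4 _ _).2 (by simp only [Category.assoc, hu, comp_zero]), smul_zero]

/-- The homotopy theoretic input of the forcing argument. -/
theorem nb (hl : τ.Leib x) (hg : W.Geo) (ht : HasTate x.P x.A) (h1 : NRM W) (h2 : ACT W)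
    (h3 : BND W) (k1 : KILL W) (k2 : DUAL W) (h4 : NIL W) (h5 : OM W) (h6 : ETA1 W) (h7 : ETA2 W)
    (h8 : ALPHA W) : (τ.cpl x hl).NB (sg x.P) where
  norm n s t hs ht y hy := by
    obtain ⟨u, rfl⟩ := mem_deg x (n := 2 * n) (by ring) hy
    obtain ⟨a, -, e, he, h⟩ := h1 hg x τ (2 * n) s t (by omega) (by omega) u
    exact ⟨e • a, (τ.jj_zsmul x s t e a).trans (by rw [h, he.smul_smul])⟩
  bd3 := by
    obtain ⟨u, hu, h⟩ := h3 hg k1 k2 x 3 2 (by norm_num) (by norm_num)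
    exact hu ▸ τ.bound x h1 h2 hg (by norm_num) (by norm_num) (by norm_num) u h
  bd9 := by
    obtain ⟨u, hu, h⟩ := h3 hg k1 k2 x 9 8 (by norm_num) (by norm_num)
    exact hu ▸ τ.bound x h1 h2 hg (by norm_num) (by norm_num) (by norm_num) u h
  bd27 := by
    obtain ⟨u, hu, h⟩ := h3 hg k1 k2 x 27 26 (by norm_num) (by norm_num)
    exact hu ▸ τ.bound x h1 h2 hg (by norm_num) (by norm_num) (by norm_num) u h
  nil s s' t (a : τ.A s' t ⟶ x.X₁) hs := by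
    obtain ⟨u, hu, h⟩ := h3 hg k1 k2 x 27 26 (by norm_num) (by norm_num)
    obtain ⟨O, _, red, y, -, -, h27, -⟩ := ht
    have h0 := h4 x 26 u _ (x.isUnit_of_isU₀ ((x.isU₀_iff u).2 (hu ▸ h27))) h
    obtain ⟨-, -, h9⟩ := h2 τ (3 * 27 + 1) s (s + 164) t (by norm_num)
    change τ.I s s' t ≫ a = 0
    rw [← τ.I_I t (show s ≤ s + 164 by omega) hs, Category.assoc, h9, h0, comp_zero]
  eta := by
    obtain ⟨C, e₀, e₁, D⟩ := H.exists_cone (𝟙 _ - (W.L₂.t.h W.s₂.O).hom)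
    obtain ⟨p, hp⟩ := D.desc₂ W.s₂.oe (by
      rw [Preadditive.sub_comp, ← W.L₂.t.nat, W.L₂.t.one, Category.id_comp, Category.comp_id,
        sub_self])
    obtain ⟨η, -, hη⟩ := h6 hg x (h5 hg x ht) C e₀ e₁ p D hp
    obtain ⟨e, he⟩ := τ.isEta x hl h7 _ hη (τ.ζ 1).some
    exact ⟨_, e, he⟩
  alpha := by
    obtain ⟨α, e, he, h, h'⟩ := h8 hg x τ
    refine ⟨α, e, he, h, ?_⟩
    obtain ⟨-, -, h9⟩ := h2 τ 2 (-4) 0 3 (by norm_num)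
    change τ.I (-4) 1 3 ≫ α = 0
    rw [← τ.I_I 3 (show (-4 : ℤ) ≤ 0 by omega) (show (0 : ℤ) ≤ 1 by omega), Category.assoc, h9,
      Category.assoc, h']

end Tow

variable (W) in
/-- from the rows of the couple to the rows of the model -/
def ROWT : Prop := W.Geo → NRM W → ACT W → ∀ (x : Mdl W) (τ : Tow W) (hl : τ.Leib x) (O : Type)
  [CommRing O] (red : RR x →+* O), (∀ a, IsUnit (red a) ↔ IsUnit (x.A.ev a)) →
  (∀ (C : W.T₂.C) (e₀ : W.s₂.O ⟶ C) (e₁ : C ⟶ W.s₂.O⟦(1 : ℤ)⟧) (p : C ⟶ 𝟙_ W.T₂.C),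
    H.Dist (𝟙 _ - (W.L₂.t.h W.s₂.O).hom) e₀ e₁ → e₀ ≫ p = W.s₂.oe →
    ∃ η : W.s₂.O⟦(1 : ℤ)⟧ ⟶ x.X,
      ((3 : ℤ) • (p ≫ x.Y.one) + e₁ ≫ η) ≫ (λ_ _).inv ≫ W.a ▷ x.X = 0 ∧
      ∀ ζ : τ.A 0 1 ≅ (𝟙_ W.T₁.C)⟦(1 : ℤ)⟧,
        Force.RowsC (τ.cpl x hl) red (ζ.hom ≫ Mdl.flat1 η)) → x.Rows

/-- The blocks SS and NB. -/
theorem stRows_of (h0 : ∀ W, TOW W) (hl : ∀ W, LEIB W) (h1 : ∀ W, NRM W) (h2 : ∀ W, ACT W)
    (h3 : ∀ W, BND W) (k1 : ∀ W, KILL W) (k2 : ∀ W, DUAL W) (h4 : ∀ W, NIL W) (h5 : ∀ W, OM W)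
    (h6 : ∀ W, ETA1 W) (h7 : ∀ W, ETA2 W) (h8 : ∀ W, ALPHA W) (h9 : ∀ W, ROWT W) : StRows := by
  intro hF W hg x ht
  obtain ⟨τ⟩ := h0 W hg
  have hn := τ.nb x (hl W x τ) hg ht (h1 W) (h2 W) (h3 W) (k1 W) (k2 W) (h4 W) (h5 W) (h6 W)
    (h7 W) (h8 W)
  have h3' := h5 W hg x ht
  obtain ⟨O, _, red, y, hT, -, -, hu⟩ := ht
  refine h9 W hg (h1 W) (h2 W) x τ (hl W x τ) O red hu fun C e₀ e₁ p D hp => ?_
  obtain ⟨η, e1, e2⟩ := h6 W hg x h3' C e₀ e₁ p D hp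
  refine ⟨η, e1, fun ζ => ?_⟩
  obtain ⟨e, he⟩ := τ.isEta x (hl W x τ) (h7 W) _ e2 ζ
  exact hF _ O _ _ _ _ _ red y hT hn _ e he

end Vale.Agent.P236Z.SS
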