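import Mathlib.Algebra.Ring.Equiv
import Mathlib.Algebra.Group.Subgroup.Defs
import Mathlib.Algebra.Group.Int.Even
import Mathlib.Algebra.Ring.Int.Parity
import Mathlib.Tactic.Ring
import Mathlib.Tactic.Linarith

/-!
# P236, block SS: the abstract multiplicative exact couple of the `C₃` Tate tower

`R` is the homotopy ring of the underlying spectrum, `deg n` its part of degree `n`, `h` the
generator of `C₃` and `g` the generator of `C₉`.  `D s t` is the group of filtration `s` and stem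
`t`: for `s = 2 k` the `C₃`-maps `S^t ∧ S^(k λ) ⟶ X`.  The term `E₁^s` in stem `t` is
`deg (s + t)`.  The class `c^l` is `1` in filtration `2 l` and stem `-2 l`.
-/

namespace Vale.Agent.P236Z.SS

variable {R : Type} [CommRing R]

/-- the trace -/
def tr (h : R ≃+* R) (x : R) : R := x + h x + h (h x)

/-- the norm -/
def nm (h : R ≃+* R) (x : R) : R := x * h x * h (h x)

/-- the first differential, up to sign -/
def d1 (h : R ≃+* R) (s : ℤ) (x : R) : R := if Even s then h x - x else tr h x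

/-- the cup product of cocycles of filtrations `s` and `s'` -/
def cup (h : R ≃+* R) (s s' : ℤ) (x y : R) : R :=
  if Odd s ∧ Odd s' then h x * y + h (h x) * (y + h y) else x * y

/-- a sign -/
def Sg (e : ℤ) : Prop := e = 1 ∨ e = -1

/-- An exact couple with `E₁` term `deg (s + t)`. -/
structure Cpl0 (R : Type) [CommRing R] (deg : ℤ → AddSubgroup R) where
  /-- the groups of the tower -/
  D : ℤ → ℤ → Type
  [grp : ∀ s t, AddCommGroup (D s t)]
  /-- the maps of the tower (meaningful for `s ≤ s'`) -/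
  I : ∀ s s' t, D s' t →+ D s t
  I_self : ∀ s t a, I s s t a = a
  I_I : ∀ {s s' s''} t a, s ≤ s' → s' ≤ s'' → I s s' t (I s' s'' t a) = I s s'' t a
  /-- the leading term -/
  j : ∀ s t, D s t →+ R
  j_mem : ∀ s t a, j s t a ∈ deg (s + t)
  /-- the boundary, from filtration `s - 1` and stem `t + 1` -/
  k : ∀ s t, deg (s + t) →+ D s t
  ex_I : ∀ {s₀ s} t (a : D s t), s₀ + 1 = s → (I s₀ s t a = 0 ↔ ∃ x, k s t x = a)
  ex_j : ∀ {s s₁} t (a : D s t), s + 1 = s₁ → (j s t a = 0 ↔ ∃ b, I s s₁ t b = a)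
  ex_k : ∀ {s₀ s t t₁} (x : deg (s + t)), s₀ + 1 = s → t + 1 = t₁ →
    (k s t x = 0 ↔ ∃ a : D s₀ t₁, j s₀ t₁ a = x)

attribute [instance] Cpl0.grp

/-- `C.Dif s s' t x y` : the differential `d_(s' - s)` sends `x` (filtration `s`, stem `t + 1`) to
`y` (filtration `s'`, stem `t`). -/
def Cpl0.Dif {deg : ℤ → AddSubgroup R} (C : Cpl0 R deg) (s s' t : ℤ) (x y : R) : Prop :=
  ∃ (s₁ : ℤ) (_ : s + 1 = s₁) (hx : x ∈ deg (s₁ + t)) (a : C.D s' t),
    C.k s₁ t ⟨x, hx⟩ = C.I s₁ s' t a ∧ C.j s' t a = y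

theorem Cpl0.dif_iff {deg : ℤ → AddSubgroup R} (C : Cpl0 R deg) {s s₁ s' t : ℤ} (e : s + 1 = s₁)
    {x y : R} : C.Dif s s' t x y ↔ ∃ (hx : x ∈ deg (s₁ + t)) (a : C.D s' t),
      C.k s₁ t ⟨x, hx⟩ = C.I s₁ s' t a ∧ C.j s' t a = y := by
  subst e
  exact ⟨fun ⟨_, e, h⟩ => by subst e; exact h, fun h => ⟨_, rfl, h⟩⟩

/-- The multiplicative couple with the action of `C₉`. -/
structure Cpl (R : Type) [CommRing R] (deg : ℤ → AddSubgroup R) (h g : R ≃+* R)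
    extends Cpl0 R deg where
  /-- the first differential (from filtration `s₀ = s - 1`) -/
  dif1 : ∀ s₀ s t, s₀ + 1 = s → ∃ e, Sg e ∧ ∀ x : deg (s + t), j s t (k s t x) = e • d1 h s₀ x
  /-- the Leibniz rule -/
  leib : ∀ (r s₁ s₁' t₁ s₂ s₂' t₂ s₃ s₃' t₃ : ℤ), 5 ≤ r → s₁ + r = s₁' → s₂ + r = s₂' →
    s₁ + s₂ = s₃ → s₃ + r = s₃' → t₁ + t₂ + 1 = t₃ → ∃ e₁ e₂, Sg e₁ ∧ Sg e₂ ∧
    (Even s₁ → Even s₂ → e₁ = 1 ∧ e₂ = 1) ∧ ∀ x x' y y',
      toCpl0.Dif s₁ s₁' t₁ x x' → toCpl0.Dif s₂ s₂' t₂ y y' →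
      toCpl0.Dif s₃ s₃' t₃ (cup h s₁ s₂ x y)
        (e₁ • cup h s₁' s₂ x' y + e₂ • cup h s₁ s₂' x y')
  /-- the action of the generator of `C₉` -/
  G : ∀ s t, D s t →+ D s t
  G_I : ∀ s s' t a, G s t (I s s' t a) = I s s' t (G s' t a)
  G_j : ∀ s t a, j s t (G s t a) = g (j s t a)
  G_k : ∀ s t (x y : deg (s + t)), (y : R) = g x → G s t (k s t x) = k s t y

/-- The homotopy theoretic input of the forcing argument; `σ m` is the coefficient of `x ^ m` in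
`h x`. -/
structure Cpl.NB {deg : ℤ → AddSubgroup R} {h g : R ≃+* R} (C : Cpl R deg h g)
    (σ : ℕ → R) : Prop where
  /-- norms are permanent cycles -/
  norm : ∀ (n s t : ℤ), s = 8 * n → t = 4 * n → ∀ x ∈ deg (4 * n), ∃ a : C.D s t,
    C.j s t a = nm h x
  bd3 : ∃ a : C.D 8 4, C.j 8 4 a = nm h (σ 3) ∧ C.I (-12) 8 4 a = 0
  bd9 : ∃ a : C.D 32 16, C.j 32 16 a = nm h (σ 9) ∧ C.I (-24) 32 16 a = 0
  bd27 : ∃ a : C.D 104 52, C.j 104 52 a = nm h (σ 27) ∧ C.I (-60) 104 52 a = 0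
  /-- the tower is nilpotent -/
  nil : ∀ s s' t (a : C.D s' t), s + 164 ≤ s' → C.I s s' t a = 0
  /-- the class whose trace is the boundary of `c⁻¹` -/
  eta : ∃ (η : C.D 0 1) (e : ℤ) (x : deg (-1 + 1)), Sg e ∧ (x : R) = 1 ∧
    C.I (-1) 0 1 (η + C.G 0 1 η + C.G 0 1 (C.G 0 1 η)) = e • C.k (-1) 1 x
  /-- `a² α = 0` -/
  alpha : ∃ (α : C.D 1 3) (e : ℤ), Sg e ∧ C.j 1 3 α = e • σ 3 ∧ C.I (-4) 1 3 α = 0

end Vale.Agent.P236Z.SS
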