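import Vale.Agent.P236Z.SS.LeibA

/-!
# P236, block SS: the Leibniz rule
-/

open CategoryTheory MonoidalCategory Limits Pretriangulated
open Functor.LaxMonoidal Functor.OplaxMonoidal
open Vale.Agent.P251 Vale.Agent.P251.T Vale.Agent.P251.M Vale.Agent.P251.I Vale.Agent.P251.G
  Vale.Agent.P236Z.Cat Vale.Agent.P236Z.Mod Vale.Agent.P236Z.Top

noncomputable section

namespace Vale.Agent.P236Z.SS

namespace Ms

variable {W : Tower} {x : Mdl W} (τ : Tow W)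

section

variable {m m' m'' t t' t'' : ℤ} (h : m + m' = m'')

/-- the desuspension of the diagonal of the spheres in the left factor -/
def thL (k : t + 1 + t' = t'' + 1) : τ.S m'' t'' ≅ τ.S m t ⊗ τ.S m' t' :=
  (shiftFunctor W.T₀.C (1 : ℤ)).preimageIso ((τ.τ₀ m'' rfl).symm ≪≫ τ.θ h k ≪≫
    whiskerRightIso (τ.τ₀ m rfl) _ ≪≫ lS _ _)

theorem thL_hom (k : t + 1 + t' = t'' + 1) : (thL τ h k).hom⟦(1 : ℤ)⟧' =
    (τ.τ₀ m'' rfl).inv ≫ (τ.θ h k).hom ≫ (τ.τ₀ m rfl).hom ▷ _ ≫ (lS _ _).hom :=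
  Functor.map_preimage _ _

/-- the desuspension of the diagonal of the spheres in the right factor -/
def thR (k : t + (t' + 1) = t'' + 1) : τ.S m'' t'' ≅ τ.S m t ⊗ τ.S m' t' :=
  (shiftFunctor W.T₀.C (1 : ℤ)).preimageIso ((τ.τ₀ m'' rfl).symm ≪≫ τ.θ h k ≪≫
    whiskerLeftIso _ (τ.τ₀ m' rfl) ≪≫ rS _ _)

theorem thR_hom (k : t + (t' + 1) = t'' + 1) : (thR τ h k).hom⟦(1 : ℤ)⟧' =
    (τ.τ₀ m'' rfl).inv ≫ (τ.θ h k).hom ≫ _ ◁ (τ.τ₀ m' rfl).hom ≫ (rS _ _).hom :=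
  Functor.map_preimage _ _

theorem exists_dL (k : t + 1 + t' = t'' + 1) : ∃ d : τ.A m'' t'' ⟶ τ.A m t ⊗ τ.A m' t',
    (τ.τ m'' rfl).hom ≫ d⟦(1 : ℤ)⟧' = τ.δ h k ≫ (τ.τ m rfl).hom ▷ _ ≫ (lS _ _).hom ∧
    τ.gen m'' t'' ≫ (U W).map d ≫ δ (U W) _ _ =
      (thL τ h k).hom ≫ cupf m m' (τ.gen m t) (τ.gen m' t') := by
  obtain ⟨d, hd⟩ := (shiftFunctor W.T₁.C (1 : ℤ)).map_surjective
    ((τ.τ m'' rfl).inv ≫ τ.δ h k ≫ (τ.τ m rfl).hom ▷ _ ≫ (lS _ _).hom)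
  have e : (τ.τ m'' rfl).hom ≫ d⟦(1 : ℤ)⟧' = τ.δ h k ≫ (τ.τ m rfl).hom ▷ _ ≫ (lS _ _).hom := by
    rw [hd, Iso.hom_inv_id_assoc]
  refine ⟨d, e, (shiftFunctor W.T₀.C (1 : ℤ)).map_injective ?_⟩
  have e1 : (U W).map (lS (τ.A m t) (τ.A m' t')).hom ≫ (cs W _).hom ≫ (δ (U W) _ _)⟦(1 : ℤ)⟧' =
      δ (U W) _ _ ≫ (cs W _).hom ▷ _ ≫ (lS _ _).hom := lS_δ W.s₁.U _ _
  rw [Functor.map_comp, Functor.map_comp, Functor.map_comp, thL_hom,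
    ← cancel_epi (τ.τ₀ m'' rfl).hom, ← reassoc_of% τ.gen_τ m'' rfl, ← cs_nat_assoc,
    ← Functor.map_comp_assoc, e, Functor.map_comp, Functor.map_comp, Category.assoc,
    Category.assoc, e1, ← δ_natural_left_assoc, reassoc_of% τ.gen_δ h k,
    cupf_shift_l m m' _ (τ.gen_τ m rfl)]
  simp only [Category.assoc, Iso.hom_inv_id_assoc]

theorem exists_dR (k : t + (t' + 1) = t'' + 1) : ∃ d : τ.A m'' t'' ⟶ τ.A m t ⊗ τ.A m' t',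
    (τ.τ m'' rfl).hom ≫ d⟦(1 : ℤ)⟧' = τ.δ h k ≫ _ ◁ (τ.τ m' rfl).hom ≫ (rS _ _).hom ∧
    τ.gen m'' t'' ≫ (U W).map d ≫ δ (U W) _ _ =
      (thR τ h k).hom ≫ cupf m m' (τ.gen m t) (τ.gen m' t') := by
  obtain ⟨d, hd⟩ := (shiftFunctor W.T₁.C (1 : ℤ)).map_surjective
    ((τ.τ m'' rfl).inv ≫ τ.δ h k ≫ _ ◁ (τ.τ m' rfl).hom ≫ (rS _ _).hom)
  have e : (τ.τ m'' rfl).hom ≫ d⟦(1 : ℤ)⟧' = τ.δ h k ≫ _ ◁ (τ.τ m' rfl).hom ≫ (rS _ _).hom := by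
    rw [hd, Iso.hom_inv_id_assoc]
  refine ⟨d, e, (shiftFunctor W.T₀.C (1 : ℤ)).map_injective ?_⟩
  have e1 : (U W).map (rS (τ.A m t) (τ.A m' t')).hom ≫ (cs W _).hom ≫ (δ (U W) _ _)⟦(1 : ℤ)⟧' =
      δ (U W) _ _ ≫ _ ◁ (cs W _).hom ≫ (rS _ _).hom := rS_δ W.s₁.U _ _
  rw [Functor.map_comp, Functor.map_comp, Functor.map_comp, thR_hom,
    ← cancel_epi (τ.τ₀ m'' rfl).hom, ← reassoc_of% τ.gen_τ m'' rfl, ← cs_nat_assoc,
    ← Functor.map_comp_assoc, e, Functor.map_comp, Functor.map_comp, Category.assoc,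
    Category.assoc, e1, ← δ_natural_right_assoc, reassoc_of% τ.gen_δ h k,
    cupf_shift_r m m' _ (τ.gen_τ m' rfl)]
  simp only [Category.assoc, Iso.hom_inv_id_assoc]

end

theorem conn_shift {Y Y' : W.T₁.C} {d d' n : ℤ} (h : BigCell W.T₀.C d ((U W).obj Y))
    (h' : BigCell W.T₀.C d' ((U W).obj Y')) (e : n ≤ d + d' + 1) :
    Conn n ((U W).obj ((Y ⊗ Y')⟦(1 : ℤ)⟧)) :=
  (cell_conn ((((h.tensor h' _ rfl).of_iso (Functor.Monoidal.μIso (U W) Y Y')).shift 1 _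
    rfl).of_iso (cs W _).symm)).mono e

theorem dif_zsmul {m m' t : ℤ} {y z : RR x} (d : τ.Dif x m m' t y z) (e : ℤ) :
    τ.Dif x m m' t (e • y) (e • z) := by
  obtain ⟨m₁, t₁, h, k, u, a, rfl, hk, rfl⟩ := d
  refine ⟨m₁, t₁, h, k, e • u, e • a, τ.val_zsmul x _ _ _ _, ?_, τ.jj_zsmul x _ _ _ _⟩
  rw [Tow.IsK] at hk ⊢
  rw [shp_zsmul, Preadditive.comp_zsmul, Functor.map_zsmul, Functor.map_zsmul,
    Preadditive.comp_zsmul, Preadditive.comp_zsmul, hk]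

omit τ in
theorem cup_neg_left {R : Type} [CommRing R] (h : R ≃+* R) (s s' : ℤ) (a b : R) :
    cup h s s' (-a) b = -cup h s s' a b := by
  unfold cup
  split_ifs
  · simp only [map_neg]; ring
  · ring

omit τ in
theorem cup_neg_right {R : Type} [CommRing R] (h : R ≃+* R) (s s' : ℤ) (a b : R) :
    cup h s s' a (-b) = -cup h s s' a b := by
  unfold cup
  split_ifs
  · simp only [map_neg]; ring
  · ring

theorem leib_raw {r s₁ s₁' t₁ s₂ s₂' t₂ s₃ s₃' t₃ : ℤ} (hr : 5 ≤ r) (a₁ : s₁ + r = s₁')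
    (a₂ : s₂ + r = s₂') (h₀ : s₁ + s₂ = s₃) (h₁ : s₁' + s₂ = s₃') (h₂ : s₁ + s₂' = s₃')
    (k : t₁ + 1 + (t₂ + 1) = t₃ + 1) {e₀ e₁ e₂ : ℤ} (s₀ : Sg e₀) (f₀ : Fr x τ (τ.θ h₀ k).hom e₀)
    (f₁ : Fr x τ (thL τ h₁ k).hom e₁) (f₂ : Fr x τ (thR τ h₂ k).hom e₂) {y y' z z' : RR x}
    (d₁ : τ.Dif x s₁ s₁' t₁ y y') (d₂ : τ.Dif x s₂ s₂' t₂ z z') :
    τ.Dif x s₃ s₃' t₃ (cup (hA x.P) s₁ s₂ y z)
      ((e₀ * e₁) • cup (hA x.P) s₁' s₂ y' z + (e₀ * e₂) • cup (hA x.P) s₁ s₂' y z') := by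
  obtain ⟨R₁⟩ := exists_rel τ t₁ (by omega : s₁ + 1 ≤ s₁')
  obtain ⟨R₂⟩ := exists_rel τ t₂ (by omega : s₂ + 1 ≤ s₂')
  obtain ⟨R₃⟩ := exists_rel τ t₃ (by omega : s₃ + 1 ≤ s₃')
  obtain ⟨q₁, y1, rfl⟩ := R₁.of_dif (by omega) d₁
  obtain ⟨q₂, z1, rfl⟩ := R₂.of_dif (by omega) d₂
  obtain ⟨dL, l1, l2⟩ := exists_dL τ h₁ k
  obtain ⟨dR, r1, r2⟩ := exists_dR τ h₂ k
  have c₁ := R₁.cell (by omega)
  have c₂ := R₂.cell (by omega)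
  obtain ⟨D, D1, D2, D0⟩ := exists_diag R₁.dist R₂.dist R₃.dist (τ.δ h₀ k) dL dR
    (by rw [cc, cc, Category.assoc, l1, reassoc_of% τ.δ_l h₀ h₁ k (by omega),
      comp_whiskerRight_assoc])
    (by rw [cc, cc, Category.assoc, r1, reassoc_of% τ.δ_r h₀ h₂ k (by omega),
      MonoidalCategory.whiskerLeft_comp_assoc])
    (R₃.van (by omega) (conn_shift c₁ (τ.cell s₂' t₂) le_rfl) (by omega))
    (R₃.van (by omega) (conn_shift (τ.cell s₁' t₁) (τ.cell s₂' t₂) le_rfl) (by omega))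
  have U₁ := dist_U R₁.dist
  have U₂ := dist_U R₂.dist
  have L0 : R₃.σ ≫ (U W).map D ≫ δ (U W) _ _ = (τ.θ h₀ k).hom ≫ cupf s₁ s₂ R₁.σ R₂.σ := by
    refine sub_eq_zero.1 (inj_top U₁ U₂
      (Sph.eq_zero (τ.sph _ _) (cell_conn ((τ.cell s₁' t₁).tensor c₂ _ rfl)) (by omega))
      (Sph.eq_zero (τ.sph _ _) (cell_conn ((τ.cell s₁ _).tensor (τ.cell s₂' t₂) _ rfl)) (by omega))
      _ ?_)
    rw [Preadditive.sub_comp, Category.assoc, Category.assoc, Category.assoc, δ_natural,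
      ← Functor.map_comp_assoc, D0, Functor.map_comp_assoc, reassoc_of% R₃.σ_e, τ.gen_δ, cupf_nat,
      R₁.σ_e, R₂.σ_e, sub_self]
  have L1 : τ.gen s₃' t₃ ≫ (U W).map (R₃.i ≫ D) ≫ δ (U W) _ _ =
      (thL τ h₁ k).hom ≫ cupf s₁' s₂ (τ.gen s₁' t₁ ≫ (U W).map R₁.i) R₂.σ +
      (thR τ h₂ k).hom ≫ cupf s₁ s₂' R₁.σ (τ.gen s₂' t₂ ≫ (U W).map R₂.i) := by
    refine sub_eq_zero.1 (inj_two U₁ U₂ (Rel.U_c (by omega))
      (Sph.eq_zero (τ.sph _ _) (cell_conn ((τ.cell s₁' t₁).tensor (τ.cell s₂' t₂) _ rfl))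
        (by omega)) _ ?_ ?_)
    · have n1 := cupf_nat s₁' s₂ (τ.gen s₁' t₁ ≫ (U W).map R₁.i) R₂.σ (𝟙 _) R₂.e
      have n2 := cupf_nat s₁ s₂' R₁.σ (τ.gen s₂' t₂ ≫ (U W).map R₂.i) (𝟙 _) R₂.e
      have n3 := cupf_nat s₁' s₂ (τ.gen s₁' t₁) (τ.gen s₂ (t₂ + 1)) R₁.i (𝟙 _)
      rw [CategoryTheory.Functor.map_id] at n1 n2 n3
      rw [id_tensorHom, Category.comp_id] at n1 n2
      rw [tensorHom_id, Category.comp_id] at n3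
      rw [Category.assoc, U₂.zero₁₂, comp_zero, cupf_zero_right] at n2
      simp only [Preadditive.sub_comp, Preadditive.add_comp, Category.assoc]
      rw [n1, n2, R₂.σ_e, δ_natural_right, ← Functor.map_comp_assoc, Category.assoc, D1,
        Functor.map_comp_assoc, ← δ_natural_left, reassoc_of% l2, n3, comp_zero, add_zero,
        sub_self]
    · have n1 := cupf_nat s₁' s₂ (τ.gen s₁' t₁ ≫ (U W).map R₁.i) R₂.σ R₁.e (𝟙 _)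
      have n2 := cupf_nat s₁ s₂' R₁.σ (τ.gen s₂' t₂ ≫ (U W).map R₂.i) R₁.e (𝟙 _)
      have n3 := cupf_nat s₁ s₂' (τ.gen s₁ (t₁ + 1)) (τ.gen s₂' t₂) (𝟙 _) R₂.i
      rw [CategoryTheory.Functor.map_id] at n1 n2 n3
      rw [tensorHom_id, Category.comp_id] at n1 n2
      rw [id_tensorHom, Category.comp_id] at n3
      rw [Category.assoc, U₁.zero₁₂, comp_zero, cupf_zero_left] at n1
      simp only [Preadditive.sub_comp, Preadditive.add_comp, Category.assoc]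
      rw [n1, n2, R₁.σ_e, δ_natural_left, ← Functor.map_comp_assoc, Category.assoc, D2,
        Functor.map_comp_assoc, ← δ_natural_right, reassoc_of% r2, n3, comp_zero, zero_add,
        sub_self]
  have P : (U W).map ((q₁ ⊗ₘ q₂) ≫ x.mul₁) = δ (U W) _ _ ≫
      ((U W).map q₁ ⊗ₘ (U W).map q₂) ≫ μ (U W) _ _ ≫ (U W).map x.mul₁ := by
    rw [μ_natural_assoc, Functor.Monoidal.δ_μ_assoc, Functor.map_comp]
  have d₃ := dif_zsmul τ (R₃.dif_of (x := x) (by omega) (D ≫ (q₁ ⊗ₘ q₂) ≫ x.mul₁)) (-e₀)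
  rw [Functor.map_comp, P, reassoc_of% L0, cupf_nat_assoc, f₀.cupf, y1, z1, Tow.jj,
    ← Category.assoc R₃.i, Functor.map_comp, P, reassoc_of% L1, Preadditive.add_comp,
    Category.assoc, Category.assoc, cupf_nat_assoc, cupf_nat_assoc, Tow.val_add, f₁.cupf, f₂.cupf,
    y1, z1, Category.assoc, Category.assoc, ← Functor.map_comp, ← Functor.map_comp] at d₃
  simp only [cup_neg_left, cup_neg_right, neg_neg, smul_neg, smul_add, ← mul_smul, neg_mul,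
    neg_smul, s₀.sq, one_smul] at d₃
  exact d₃

theorem fr_ee {m m' m'' t t' t'' : ℤ} (h : m + m' = m'') (k : t + t' = t'') (a : Even m)
    (b : Even m') : Fr x τ (τ.θ h k).hom 1 := by
  rcases Int.even_or_odd' (m + t) with ⟨n, e | e⟩
  · rcases Int.even_or_odd' (m' + t') with ⟨n', e' | e'⟩
    · exact τ.val_mul x e e' (by omega) rfl _
        ((τ.φ_ee h k rfl e e' (by omega) a b).trans (one_smul ℤ _).symm)
    · exact Fr.of_odd _ _ (Or.inr ⟨n', e'⟩)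
  · exact Fr.of_odd _ _ (Or.inl ⟨n, e⟩)

theorem fr_oe {m m' m'' t t' t'' : ℤ} (h : m + m' = m'') (k : t + 1 + t' = t'' + 1) (a : Odd t)
    (b : Even m') : Fr x τ (thL τ h k).hom 1 := by
  rcases Int.even_or_odd' (m + t) with ⟨n, e | e⟩
  · rcases Int.even_or_odd' (m' + t') with ⟨n', e' | e'⟩
    · refine τ.val_mul x e e' (by omega : m'' + t'' = 2 * (n + n')) rfl _ ?_
      rw [one_smul]
      refine (shiftFunctor W.T₀.C (1 : ℤ)).map_injective ?_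
      rw [Functor.map_comp, thL_hom]
      obtain ⟨l, hl⟩ := a
      exact τ.φ_oe h k rfl rfl rfl e e' _ ⟨n - l - 1, by omega⟩ b
    · exact Fr.of_odd _ _ (Or.inr ⟨n', e'⟩)
  · exact Fr.of_odd _ _ (Or.inl ⟨n, e⟩)

theorem fr_eo {m m' m'' t t' t'' : ℤ} (h : m + m' = m'') (k : t + (t' + 1) = t'' + 1) (a : Even m)
    (b : Odd t') : Fr x τ (thR τ h k).hom 1 := by
  rcases Int.even_or_odd' (m + t) with ⟨n, e | e⟩
  · rcases Int.even_or_odd' (m' + t') with ⟨n', e' | e'⟩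
    · refine τ.val_mul x e e' (by omega : m'' + t'' = 2 * (n + n')) rfl _ ?_
      rw [one_smul]
      refine (shiftFunctor W.T₀.C (1 : ℤ)).map_injective ?_
      rw [Functor.map_comp, thR_hom]
      obtain ⟨l, hl⟩ := b
      exact τ.φ_eo h k rfl rfl rfl e e' _ a ⟨n' - l - 1, by omega⟩
    · exact Fr.of_odd _ _ (Or.inr ⟨n', e'⟩)
  · exact Fr.of_odd _ _ (Or.inl ⟨n, e⟩)

end Ms

open Ms in
theorem leib (W : Tower) : LEIB W := by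
  intro x τ r s₁ s₁' t₁ s₂ s₂' t₂ s₃ s₃' t₃ hr a₁ a₂ h₀ a₃ a₄
  have h₁ : s₁' + s₂ = s₃' := by omega
  have h₂ : s₁ + s₂' = s₃' := by omega
  have k : t₁ + 1 + (t₂ + 1) = t₃ + 1 := by omega
  obtain ⟨e₀, s0, f₀⟩ := τ.val_mul' x (by omega) (τ.θ h₀ k)
  obtain ⟨e₁, s1, f₁⟩ := τ.val_mul' x (by omega) (thL τ h₁ k)
  obtain ⟨e₂, s2, f₂⟩ := τ.val_mul' x (by omega) (thR τ h₂ k)
  by_cases ee : Even s₁ ∧ Even s₂
  · refine ⟨1, 1, Sg.one, Sg.one, fun _ _ => ⟨rfl, rfl⟩, fun y y' z z' d₁ d₂ => ?_⟩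
    obtain ⟨⟨n₁, p₁⟩, n₂, p₂⟩ := id ee
    rcases Int.even_or_odd' t₁ with ⟨l₁, o₁ | o₁⟩
    · have o : Odd (s₁ + (t₁ + 1)) := ⟨n₁ + l₁, by omega⟩
      have := leib_raw τ hr a₁ a₂ h₀ h₁ h₂ k s1 (Fr.of_odd _ _ (Or.inl o)) f₁
        (Fr.of_odd _ e₁ (Or.inl o)) d₁ d₂
      rwa [s1.sq] at this
    · rcases Int.even_or_odd' t₂ with ⟨l₂, o₂ | o₂⟩
      · have o : Odd (s₂ + (t₂ + 1)) := ⟨n₂ + l₂, by omega⟩
        have := leib_raw τ hr a₁ a₂ h₀ h₁ h₂ k s2 (Fr.of_odd _ _ (Or.inr o))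
          (Fr.of_odd _ e₂ (Or.inr o)) f₂ d₁ d₂
        rwa [s2.sq] at this
      · exact leib_raw τ hr a₁ a₂ h₀ h₁ h₂ k Sg.one (fr_ee τ h₀ k ee.1 ee.2)
          (fr_oe τ h₁ k ⟨l₁, o₁⟩ ee.2) (fr_eo τ h₂ k ee.1 ⟨l₂, o₂⟩) d₁ d₂
  · exact ⟨_, _, s0.mul s1, s0.mul s2, fun p₁ p₂ => absurd ⟨p₁, p₂⟩ ee,
      fun y y' z z' d₁ d₂ => leib_raw τ hr a₁ a₂ h₀ h₁ h₂ k s0 f₀ f₁ f₂ d₁ d₂⟩

end Vale.Agent.P236Z.SS
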