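import Vale.Agent.P236Z.SS.Massey

/-!
# P236, block SS: the cellular diagonal, relative objects and the differentials
-/

open CategoryTheory MonoidalCategory Limits Pretriangulated
open Functor.LaxMonoidal Functor.OplaxMonoidal
open Vale.Agent.P251 Vale.Agent.P251.T Vale.Agent.P251.M Vale.Agent.P251.I Vale.Agent.P251.G
  Vale.Agent.P236Z.Cat Vale.Agent.P236Z.Mod Vale.Agent.P236Z.Top

noncomputable section

namespace Vale.Agent.P236Z.SS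

namespace Ms

variable {W : Tower}

@[reassoc] theorem γ_cs (Y : W.T₁.C) :
    W.s₁.γ (Y⟦(1 : ℤ)⟧) ≫ (cs W Y).hom = (cs W Y).hom ≫ (W.s₁.γ Y)⟦(1 : ℤ)⟧' := by
  have h1 : (W.L₁.t.h ((𝟙_ W.T₁.C)⟦(1 : ℤ)⟧)).hom = 𝟙 _ := by
    let e : (𝟙_ W.T₁.C)⟦(1 : ℤ)⟧ ≅ W.L₁.tv.F.obj ((𝟙_ W.T₀.C)⟦(1 : ℤ)⟧) :=
      ((W.L₁.tv.F.commShiftIso (1 : ℤ)).app _ ≪≫
      (shiftFunctor _ (1 : ℤ)).mapIso (Functor.Monoidal.εIso W.L₁.tv.F).symm).symm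
    rw [← cancel_mono e.hom, ← W.L₁.t.nat, W.L₁.tv_h, Category.comp_id, Category.id_comp]
  have h2 : (W.L₁.t.h (Y⟦(1 : ℤ)⟧)).hom = (W.L₁.t.h Y).hom⟦(1 : ℤ)⟧' := by
    rw [← cancel_epi (TensorTriangulated.e Y).hom, W.L₁.t.nat, W.L₁.t.ten, h1, tensorHom_id,
      TensorTriangulated.e_naturality]
  rw [Step.γ, h2]
  exact cs_nat _

variable {S S' S₁ S₁' : W.T₀.C} {Y Y' Z Z' : W.T₁.C}

@[reassoc] theorem cupf_nat (m m' : ℤ) (u : S ⟶ (U W).obj Y) (v : S' ⟶ (U W).obj Y')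
    (f : Y ⟶ Z) (f' : Y' ⟶ Z') : cupf m m' u v ≫ ((U W).map f ⊗ₘ (U W).map f') =
      cupf m m' (u ≫ (U W).map f) (v ≫ (U W).map f') := by
  unfold cupf
  split_ifs
  · simp only [Preadditive.add_comp, tensorHom_comp_tensorHom, Category.assoc, ← W.s₁.γ_nat,
      ← reassoc_of% W.s₁.γ_nat]
  · rw [tensorHom_comp_tensorHom]

theorem cupf_zero_left (m m' : ℤ) (v : S' ⟶ (U W).obj Y') :
    cupf m m' (0 : S ⟶ (U W).obj Y) v = 0 := by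
  unfold cupf
  split_ifs <;> simp

theorem cupf_zero_right (m m' : ℤ) (u : S ⟶ (U W).obj Y) :
    cupf m m' u (0 : S' ⟶ (U W).obj Y') = 0 := by
  unfold cupf
  split_ifs <;> simp

theorem cupf_shift_l (m m' : ℤ) {u₁ : S₁ ⟶ (U W).obj Z} {u : S ⟶ (U W).obj Y}
    (v : S' ⟶ (U W).obj Y') {t : Z ⟶ Y⟦(1 : ℤ)⟧} {t₀ : S₁ ⟶ S⟦(1 : ℤ)⟧}
    (h : u₁ ≫ (U W).map t ≫ (cs W Y).hom = t₀ ≫ u⟦(1 : ℤ)⟧') :
    cupf m m' u₁ v ≫ (U W).map t ▷ _ ≫ (cs W Y).hom ▷ _ ≫ (lS _ _).hom =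
      t₀ ▷ S' ≫ (lS _ _).hom ≫ (cupf m m' u v)⟦(1 : ℤ)⟧' := by
  have key : ∀ (a₁ : S₁ ⟶ (U W).obj Z) (a : S ⟶ (U W).obj Y) (b : S' ⟶ (U W).obj Y'),
      a₁ ≫ (U W).map t ≫ (cs W Y).hom = t₀ ≫ a⟦(1 : ℤ)⟧' →
      (a₁ ⊗ₘ b) ≫ (U W).map t ▷ _ ≫ (cs W Y).hom ▷ _ ≫ (lS _ _).hom =
        t₀ ▷ S' ≫ (lS _ _).hom ≫ (a ⊗ₘ b)⟦(1 : ℤ)⟧' := fun a₁ a b e => by
    rw [← lS_nat, ← comp_whiskerRight_assoc, ← tensorHom_id, ← tensorHom_id,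
      tensorHom_comp_tensorHom_assoc, tensorHom_comp_tensorHom_assoc, e, Category.comp_id,
      Category.id_comp]
  have st : ∀ (a₁ : S₁ ⟶ (U W).obj Z) (a : S ⟶ (U W).obj Y),
      a₁ ≫ (U W).map t ≫ (cs W Y).hom = t₀ ≫ a⟦(1 : ℤ)⟧' →
      (a₁ ≫ W.s₁.γ Z) ≫ (U W).map t ≫ (cs W Y).hom = t₀ ≫ (a ≫ W.s₁.γ Y)⟦(1 : ℤ)⟧' :=
    fun a₁ a e => by
      rw [Category.assoc, ← reassoc_of% W.s₁.γ_nat, γ_cs, reassoc_of% e, Functor.map_comp]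
  unfold cupf
  split_ifs
  · rw [Preadditive.add_comp, Functor.map_add, Preadditive.comp_add, Preadditive.comp_add,
      key _ _ _ (st _ _ h), ← Category.assoc u₁, ← Category.assoc u, key _ _ _ (st _ _ (st _ _ h))]
  · exact key _ _ _ h

theorem cupf_shift_r (m m' : ℤ) (u : S ⟶ (U W).obj Y) {v₁ : S₁' ⟶ (U W).obj Z'}
    {v : S' ⟶ (U W).obj Y'} {t : Z' ⟶ Y'⟦(1 : ℤ)⟧} {t₀ : S₁' ⟶ S'⟦(1 : ℤ)⟧}
    (h : v₁ ≫ (U W).map t ≫ (cs W Y').hom = t₀ ≫ v⟦(1 : ℤ)⟧') :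
    cupf m m' u v₁ ≫ _ ◁ (U W).map t ≫ _ ◁ (cs W Y').hom ≫ (rS _ _).hom =
      S ◁ t₀ ≫ (rS _ _).hom ≫ (cupf m m' u v)⟦(1 : ℤ)⟧' := by
  have key : ∀ (a : S ⟶ (U W).obj Y) (b₁ : S₁' ⟶ (U W).obj Z') (b : S' ⟶ (U W).obj Y'),
      b₁ ≫ (U W).map t ≫ (cs W Y').hom = t₀ ≫ b⟦(1 : ℤ)⟧' →
      (a ⊗ₘ b₁) ≫ _ ◁ (U W).map t ≫ _ ◁ (cs W Y').hom ≫ (rS _ _).hom =
        S ◁ t₀ ≫ (rS _ _).hom ≫ (a ⊗ₘ b)⟦(1 : ℤ)⟧' := fun a b₁ b e => by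
    rw [← rS_nat, ← MonoidalCategory.whiskerLeft_comp_assoc, ← id_tensorHom, ← id_tensorHom,
      tensorHom_comp_tensorHom_assoc, tensorHom_comp_tensorHom_assoc, e, Category.comp_id,
      Category.id_comp]
  unfold cupf
  split_ifs
  · have h2 : (v₁ + v₁ ≫ W.s₁.γ Z') ≫ (U W).map t ≫ (cs W Y').hom =
        t₀ ≫ (v + v ≫ W.s₁.γ Y')⟦(1 : ℤ)⟧' := by
      rw [Preadditive.add_comp, Category.assoc, ← reassoc_of% W.s₁.γ_nat, γ_cs, reassoc_of% h, h,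
        Functor.map_add, Functor.map_comp, Preadditive.comp_add]
    rw [Preadditive.add_comp, Functor.map_add, Preadditive.comp_add, Preadditive.comp_add,
      key _ _ _ h, key _ _ _ h2]
  · exact key _ _ _ h

variable (x : Mdl W) (τ : Tow W)

/-- the product of values along `θ` has the sign `e` -/
def Fr {m t m' t' m'' t'' : ℤ} (θ : τ.S m'' t'' ⟶ τ.S m t ⊗ τ.S m' t') (e : ℤ) : Prop :=
  ∀ (u : τ.S m t ⟶ (U W).obj x.X₁) (v : τ.S m' t' ⟶ (U W).obj x.X₁),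
    τ.val x m'' t'' (θ ≫ (u ⊗ₘ v) ≫ μ (U W) _ _ ≫ (U W).map x.mul₁) =
      e • (τ.val x m t u * τ.val x m' t' v)

variable {x τ}

theorem Fr.of_odd {m t m' t' m'' t'' : ℤ} (θ : τ.S m'' t'' ⟶ τ.S m t ⊗ τ.S m' t') (e : ℤ)
    (h : Odd (m + t) ∨ Odd (m' + t')) : Fr x τ θ e := fun u v => by
  rcases h with h | h
  · rw [odd_zero x (τ.sph m t) h u]
    simp [Tow.val_zero]
  · rw [odd_zero x (τ.sph m' t') h v]
    simp [Tow.val_zero]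

theorem Fr.cupf {m t m' t' m'' t'' e : ℤ} {θ : τ.S m'' t'' ⟶ τ.S m t ⊗ τ.S m' t'}
    (h : Fr x τ θ e) (k k' : ℤ) (u : τ.S m t ⟶ (U W).obj x.X₁) (v : τ.S m' t' ⟶ (U W).obj x.X₁) :
    τ.val x m'' t'' (θ ≫ cupf k k' u v ≫ μ (U W) _ _ ≫ (U W).map x.mul₁) =
      e • cup (hA x.P) k k' (τ.val x m t u) (τ.val x m' t' v) := by
  unfold SS.cupf cup
  split_ifs
  · rw [Preadditive.add_comp, Preadditive.comp_add, Tow.val_add, h, h, ← Category.assoc u,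
      Tow.val_add, τ.val_γ x m t (u ≫ _), Tow.val_γ, Tow.val_γ, smul_add]
  · exact h u v

variable (τ) in
/-- the connecting map of the relative object -/
abbrev cc (m m' t : ℤ) : τ.A m (t + 1) ⟶ (τ.A m' t)⟦(1 : ℤ)⟧ :=
  τ.I m m' (t + 1) ≫ (τ.τ m' rfl).hom

variable (τ) in
/-- the relative object -/
structure Rel (m m' t : ℤ) where
  /-- the object -/
  Q : W.T₁.C
  /-- the inclusion -/
  i : τ.A m' t ⟶ Q
  /-- the projection -/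
  e : Q ⟶ τ.A m (t + 1)
  dist : H.Dist i e (cc τ m m' t)
  /-- the bottom cell -/
  σ : τ.S m (t + 1) ⟶ (U W).obj Q
  σ_e : σ ≫ (U W).map e = τ.gen m (t + 1)
  b_σ : τ.b (t + 1) rfl ≫ (shp σ)⟦(1 : ℤ)⟧' = -(cc τ (m + 1) m' t ≫ i⟦(1 : ℤ)⟧')

theorem exists_rel (τ : Tow W) {m m' : ℤ} (t : ℤ) (h : m + 1 ≤ m') : Nonempty (Rel τ m m' t) := by
  obtain ⟨Q, i, e, D⟩ := H.exists_mid (cc τ m m' t)
  obtain ⟨σ, h1, h2⟩ := (τ.dist (t + 1) (rfl : m + 1 = m + 1)).map₁ D.rot (𝟙 _)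
    (cc τ (m + 1) m' t) (by rw [reassoc_of% τ.I_I (t + 1) (by omega) h, Category.id_comp])
  refine ⟨⟨Q, i, e, D, W.s₁.un _ ≫ (U W).map σ, ?_, ?_⟩⟩
  · rw [Category.assoc, ← Functor.map_comp, ← h1, Category.comp_id, un_shp]
  · rw [shp_un, h2, Preadditive.comp_neg]

namespace Rel

variable {m m' t : ℤ} (R : Rel τ m m' t)

theorem dif_of (h : m + 1 ≤ m') (q : R.Q ⟶ x.X₁) :
    τ.Dif x m m' t (-τ.val x m (t + 1) (R.σ ≫ (U W).map q)) (τ.jj x m' t (R.i ≫ q)) := by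
  refine ⟨m + 1, t + 1, rfl, rfl, -(R.σ ≫ (U W).map q), R.i ≫ q, τ.val_neg x _ _ _, ?_, rfl⟩
  rw [Tow.IsK, ← neg_one_zsmul, shp_zsmul, neg_one_zsmul, ← shp_comp, Functor.map_neg,
    Functor.map_comp, Functor.map_comp, Functor.map_comp, Preadditive.comp_neg,
    reassoc_of% R.b_σ, ← reassoc_of% τ.τ_I rfl h]
  simp only [Preadditive.neg_comp, neg_neg, Category.assoc]

theorem of_dif (h : m + 1 ≤ m') {y z : RR x} (d : τ.Dif x m m' t y z) : ∃ q : R.Q ⟶ x.X₁,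
    τ.val x m (t + 1) (R.σ ≫ (U W).map q) = -y ∧ τ.jj x m' t (R.i ≫ q) = z := by
  obtain ⟨_, _, rfl, rfl, u, a, rfl, k, rfl⟩ := d
  rw [Tow.IsK, Functor.map_comp, ← reassoc_of% τ.τ_I rfl h] at k
  have D := τ.dist (t + 1) (rfl : m + 1 = m + 1)
  obtain ⟨q₁, h1⟩ := R.dist.desc₁ (a⟦(1 : ℤ)⟧') (by
    rw [cc, ← τ.I_I (t + 1) (by omega : m ≤ m + 1) h, Category.assoc, Category.assoc, k,
      reassoc_of% D.zero₂₃, zero_comp])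
  obtain ⟨q, rfl⟩ := (shiftFunctor W.T₁.C (1 : ℤ)).map_surjective q₁
  obtain ⟨w₁, h2⟩ := D.desc₁ ((shp u + shp R.σ ≫ q)⟦(1 : ℤ)⟧') (by
    rw [Functor.map_add, Functor.map_comp, Preadditive.comp_add, reassoc_of% R.b_σ,
      Preadditive.neg_comp, Category.assoc, Category.assoc, h1, k, add_neg_cancel])
  obtain ⟨w, rfl⟩ := (shiftFunctor W.T₁.C (1 : ℤ)).map_surjective w₁
  rw [← Functor.map_comp] at h1 h2
  have h3 := (shiftFunctor W.T₁.C (1 : ℤ)).map_injective h1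
  have h4 := congrArg (fun f => W.s₁.un _ ≫ (U W).map f)
    ((shiftFunctor W.T₁.C (1 : ℤ)).map_injective h2)
  simp only [Functor.map_add, Functor.map_comp, Preadditive.comp_add, un_shp, un_shp_assoc] at h4
  refine ⟨q - R.e ≫ w, ?_, ?_⟩
  · rw [← τ.val_neg, Functor.map_sub, Functor.map_comp, Preadditive.comp_sub, reassoc_of% R.σ_e,
      h4, sub_add_cancel_right]
  · rw [Preadditive.comp_sub, reassoc_of% R.dist.zero₁₂, zero_comp, sub_zero, h3]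

theorem U_c (h : m < m') : (U W).map (cc τ m m' t) ≫ (cs W _).hom = 0 := by
  rw [cc, Functor.map_comp, τ.U_I _ h, zero_comp, zero_comp]

theorem cell (h : m + 1 ≤ m') : BigCell W.T₀.C (m + (t + 1)) ((U W).obj R.Q) :=
  BigCell.ext _ (dist_U R.dist) ((τ.cell m' t).mono (by omega)) (τ.cell m (t + 1))

end Rel

theorem I_inj (τ : Tow W) {Z : W.T₁.C} {n t : ℤ} (hZ : Conn n ((U W).obj Z)) (m : ℤ) (r : ℕ)
    (hn : m + r + t ≤ n) (g : τ.A (m + r) t ⟶ Z⟦(1 : ℤ)⟧) (h : τ.I m (m + r) t ≫ g = 0) :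
    g = 0 := by
  induction r with
  | zero =>
    revert g
    rw [show m + (0 : ℕ) = m by simp]
    intro g h
    rwa [τ.I_self, Category.id_comp] at h
  | succ r ih =>
    have e : m + r + 1 = m + (r + 1 : ℕ) := by push_cast; ring
    rw [← τ.I_I (m' := m + r) t (by omega) (by omega), Category.assoc] at h
    obtain ⟨b, rfl⟩ := (τ.dist t e).desc₃ g (ih (by omega) _ h)
    obtain ⟨b, rfl⟩ := (shiftFunctor W.T₁.C (1 : ℤ)).map_surjective b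
    rw [ind_eq_zero (τ.sph _ _) hZ (by omega) b, Functor.map_zero, comp_zero]

theorem I_surj (τ : Tow W) {Z : W.T₁.C} {n t : ℤ} (hZ : Conn n ((U W).obj Z)) (m : ℤ) (r : ℕ)
    (hn : m + r + t ≤ n) (g : τ.A m t ⟶ Z) : ∃ g', τ.I m (m + r) t ≫ g' = g := by
  induction r with
  | zero =>
    rw [show m + (0 : ℕ) = m by simp]
    exact ⟨g, by rw [τ.I_self, Category.id_comp]⟩
  | succ r ih =>
    have e : m + r + 1 = m + (r + 1 : ℕ) := by push_cast; ring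
    obtain ⟨g, rfl⟩ := ih (by omega)
    obtain ⟨g, rfl⟩ := (τ.dist t e).desc₂ g (ind_eq_zero (τ.sph _ _) hZ (by omega) _)
    exact ⟨g, by rw [reassoc_of% τ.I_I (m' := m + r) t (by omega) (by omega)]⟩

theorem Rel.van {m m' t n : ℤ} (R : Rel τ m m' t) (h : m ≤ m') {Z : W.T₁.C}
    (hZ : Conn n ((U W).obj Z)) (hn : m' + t < n) (f : R.Q ⟶ Z) : f = 0 := by
  obtain ⟨r, rfl⟩ : ∃ r : ℕ, m' = m + r := ⟨(m' - m).toNat, by omega⟩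
  have h1 := I_inj τ hZ m r (by omega) ((τ.τ _ rfl).hom ≫ (R.i ≫ f)⟦(1 : ℤ)⟧') (by
    rw [Functor.map_comp, reassoc_of% R.dist.zero₃₁, zero_comp])
  rw [Preadditive.IsIso.comp_left_eq_zero, Functor.map_eq_zero_iff] at h1
  obtain ⟨g, rfl⟩ := R.dist.desc₂ f h1
  obtain ⟨g, rfl⟩ := I_surj τ hZ m r (by omega) g
  have := R.dist.zero₂₃
  rw [← Category.assoc, Preadditive.IsIso.comp_right_eq_zero] at this
  rw [reassoc_of% this, zero_comp]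

end Ms

end Vale.Agent.P236Z.SS
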