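import Vale.Agent.P236Z.SS.Tow0

/-!
# P236, block SS: framings along a monoidal functor
-/

open CategoryTheory MonoidalCategory
open Functor.LaxMonoidal Functor.OplaxMonoidal
open Vale.Agent.P251.M Vale.Agent.P236Z.Cat

noncomputable section

namespace Vale.Agent.P236Z.SS

namespace PushA

universe v u v' u'

variable {T : Type u} [Category.{v} T] [MonoidalCategory T] {T' : Type u'} [Category.{v'} T']
  [MonoidalCategory T'] (U : T' ⥤ T) [U.Monoidal] {L : T} {L' : T'} (c : U.obj L' ≅ L)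

/-- the powers are preserved -/
def pwIso : ∀ n : ℕ, Pw L n ≅ U.obj (Pw L' n)
  | 0 => Functor.Monoidal.εIso U
  | n + 1 => tensorIso c.symm (pwIso n) ≪≫ Functor.Monoidal.μIso U L' (Pw L' n)

theorem step {P Q : T} {P' Q' X : T'} (p : P ≅ U.obj P') (q : Q ≅ U.obj Q') (f : P' ⊗ X ⟶ Q') :
    ((c.inv ⊗ₘ p.hom) ≫ μ U L' P') ▷ U.obj X ≫ μ U (L' ⊗ P') X ≫
      U.map ((α_ L' P' X).hom ≫ L' ◁ f) ≫ δ U L' Q' ≫ (c.hom ⊗ₘ q.inv) =
      (α_ L P (U.obj X)).hom ≫ L ◁ (p.hom ▷ U.obj X ≫ μ U P' X ≫ U.map f ≫ q.inv) := by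
  rw [U.map_comp, comp_whiskerRight, Category.assoc, Category.assoc,
    Functor.LaxMonoidal.associativity_assoc, ← μ_natural_right_assoc,
    Functor.Monoidal.μ_δ_assoc, ← tensorHom_id, associator_naturality_assoc, ← id_tensorHom,
    ← id_tensorHom, ← id_tensorHom]
  simp only [tensorHom_comp_tensorHom, Category.id_comp, Iso.inv_hom_id, tensorHom_id]

/-- the image of a framing -/
def push {n : ℤ} {X : T'} (F : Fr L' n X) : Fr L n (U.obj X) where
  N := F.N
  φ a d hc h := whiskerRightIso (pwIso U c a) (U.obj X) ≪≫ Functor.Monoidal.μIso U _ X ≪≫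
    U.mapIso (F.φ a d hc h) ≪≫ (pwIso U c d).symm
  st a d hc h hc' h' := by
    have e := step U c (pwIso U c a) (pwIso U c d) (F.φ a d hc h).hom
    rw [← F.st a d hc h hc' h'] at e
    exact e

theorem push_φ {n : ℤ} {X : T'} (F : Fr L' n X) (a d : ℕ) (hc : F.N ≤ a) (h : (a : ℤ) + n = d) :
    ((push U c F).φ a d hc h).hom = (pwIso U c a).hom ▷ U.obj X ≫ μ U _ X ≫
      U.map (F.φ a d hc h).hom ≫ (pwIso U c d).inv := rfl

theorem isFr_map {n n' : ℤ} {X Y : T'} {F : Fr L' n X} {G : Fr L' n' Y} {f : X ⟶ Y}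
    (h : IsFr F G f) : IsFr (push U c F) (push U c G) (U.map f) := fun a d h1 h2 h3 h4 => by
  rw [push_φ U c F a d h1, push_φ U c G a d h3, ← h a d h1 h2 h3 h4, U.map_comp,
    whisker_exchange_assoc, μ_natural_right_assoc, Category.assoc]

theorem isFr_μ {m n : ℤ} {X Y : T'} (F : Fr L' m X) (G : Fr L' n Y) :
    IsFr ((push U c F).tensor (push U c G)) (push U c (F.tensor G)) (μ U X Y) := by
  intro a d h1 h2 h3 h4
  have e : (F.tensor G).N = max F.N ((G.N : ℤ) - m).toNat := rfl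
  have h5 : (F.tensor G).N ≤ a := h3
  have hi : (a : ℤ) + m = (((a : ℤ) + m).toNat : ℕ) := toNat_spec (by omega)
  generalize ((a : ℤ) + m).toNat = i at hi
  have a1 : F.N ≤ a := by omega
  have a2 : G.N ≤ i := by omega
  have a3 : (i : ℤ) + n = d := by omega
  rw [push_φ U c _ a d h5, Fr.tensor_φ F G a i d h5 h4 a1 hi a2 a3,
    Fr.tensor_φ (push U c F) (push U c G) a i d h1 h2 a1 hi a2 a3, push_φ U c F a i a1,
    push_φ U c G i d a2]
  simp only [U.map_comp, comp_whiskerRight, Category.assoc, inv_hom_whiskerRight_assoc,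
    μ_natural_left_assoc]
  rw [whisker_exchange_assoc, ← associator_inv_naturality_left_assoc]
  erw [Functor.LaxMonoidal.associativity_inv_assoc]

end PushA

open PushA in
/-- **PUSH** -/
theorem push (W : Tower) : PUSH W := by
  rintro E ⟨c⟩ hγ
  refine ⟨fun k => ?_, fun k => frIso ((Λ W).fr k) (PushA.push (U W) c (E.fr k)) rfl,
    fun k k' k'' h => ?_⟩
  · have h1 : ∀ n, W.s₁.γ (Pw E.L n) = 𝟙 _ := fun n => by
      induction n with
      | zero => exact (congrArg W.s₁.U.F.map W.L₁.t.one).trans (W.s₁.U.F.map_id _)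
      | succ n ih =>
        have e := W.s₁.μ_γ E.L (Pw E.L n)
        rw [hγ, ih, id_tensorHom_id, Category.id_comp] at e
        exact (Iso.cancel_iso_hom_left (Functor.Monoidal.μIso W.s₁.U.F _ _) _ _).1
          (e.trans (Category.comp_id _).symm)
    obtain ⟨a, d, ha, h⟩ := exists_level k (E.fr k).N
    have e1 := W.s₁.γ_nat ((E.fr k).φ a d ha h).hom
    rw [h1, Category.comp_id] at e1
    have e2 := W.s₁.μ_γ (Pw E.L a) (E.S k)
    rw [(cancel_mono _).1 (e1.symm.trans (Category.id_comp _).symm), h1, id_tensorHom,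
      Category.comp_id] at e2
    have := IsInv.of_iso (pwIso (U W) c a)
    refine whiskerLeft_inj ((U W).obj (Pw E.L a)) ?_
    rw [whiskerLeft_id]
    exact (cancel_mono _).1 (e2.symm.trans (Category.id_comp _).symm)
  · refine IsFr.unique (F := (Λ W).fr k'')
      (G := (PushA.push (U W) c (E.fr k)).tensor (PushA.push (U W) c (E.fr k'))) h.symm ?_ ?_
    · exact IsFr.comp rfl h.symm (isFr_frIso_hom _ _ rfl) (IsFr.comp h.symm rfl
        (isFr_map (U W) c (IsFr.inv' h (E.isFr_mu k k' k'' h)))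
        (IsFr.inv' rfl (f := Functor.Monoidal.μIso (U W) _ _) (isFr_μ (U W) c _ _)))
    · exact IsFr.comp h.symm rfl (IsFr.inv' h ((Λ W).isFr_mu k k' k'' h))
        (IsFr.tensor rfl rfl (isFr_frIso_hom _ _ rfl) (isFr_frIso_hom _ _ rfl))

end Vale.Agent.P236Z.SS
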