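import Vale.Agent.P236Z.SS.Couple
import Vale.Agent.P236Z.Nb.Nm1
import Vale.Agent.P236Z.Q.Psi

/-!
# P236, block SS: from the rows of the couple to the rows of the model
-/

open CategoryTheory MonoidalCategory Limits Pretriangulated
open Functor.LaxMonoidal Functor.OplaxMonoidal
open Vale.Agent.P251 Vale.Agent.P251.T Vale.Agent.P251.M Vale.Agent.P251.I Vale.Agent.P251.G
  Vale.Agent.P236Z.Cat Vale.Agent.P236Z.Mod Vale.Agent.P236Z.Top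

noncomputable section

namespace Vale.Agent.P236Z.SS

namespace Rw

section Eu

variable {C D : Type 1} [Category.{0} C] [MonoidalCategory C] [Category.{0} D] [MonoidalCategory D]

/-- `f` is the multiplication by `a`, up to an isomorphism of the target -/
def Eu {L A B : C} (a : 𝟙_ C ⟶ L) (f : A ⟶ B) : Prop :=
  ∃ ω : B ≅ L ⊗ A, f ≫ ω.hom = (λ_ A).inv ≫ a ▷ A

variable {L L' A A' B B' Z : C} {a : 𝟙_ C ⟶ L} {b : 𝟙_ C ⟶ L'}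

theorem Eu.self (a : 𝟙_ C ⟶ L) (A : C) : Eu a ((λ_ A).inv ≫ a ▷ A) :=
  ⟨Iso.refl _, Category.comp_id _⟩

theorem Eu.of_isIso (f : A ⟶ B) [IsIso f] : Eu (𝟙 (𝟙_ C)) f :=
  ⟨(asIso f).symm ≪≫ (λ_ A).symm, by simp⟩

theorem Eu.comp {f : A ⟶ B} {g : B ⟶ Z} (h : Eu a f) (h' : Eu b g) :
    Eu (a ≫ (λ_ L).inv ≫ b ▷ L) (f ≫ g) := by
  obtain ⟨ω, h⟩ := h
  obtain ⟨ω', h'⟩ := h'
  refine ⟨ω' ≪≫ whiskerLeftIso L' ω ≪≫ (α_ _ _ _).symm, ?_⟩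
  rw [Iso.trans_hom, Iso.trans_hom, Category.assoc, reassoc_of% h', whiskerLeftIso_hom,
    ← whisker_exchange_assoc, ← leftUnitor_inv_naturality_assoc, reassoc_of% h, Iso.symm_hom]
  monoidal

theorem Eu.right {f : A ⟶ B} (h : Eu a f) (Z : C) : Eu a (f ▷ Z) := by
  obtain ⟨ω, h⟩ := h
  refine ⟨whiskerRightIso ω Z ≪≫ α_ _ _ _, ?_⟩
  rw [Iso.trans_hom, whiskerRightIso_hom, ← comp_whiskerRight_assoc, h]
  monoidal

theorem Eu.iso {f : A ⟶ B} {f' : A' ⟶ B'} (h : Eu a f) (i : A' ≅ A) (j : B' ≅ B)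
    (e : f' ≫ j.hom = i.hom ≫ f) : Eu a f' := by
  obtain ⟨ω, h⟩ := h
  refine ⟨j ≪≫ ω ≪≫ whiskerLeftIso L i.symm, ?_⟩
  rw [Iso.trans_hom, Iso.trans_hom, reassoc_of% e, reassoc_of% h, whiskerLeftIso_hom,
    ← whisker_exchange, ← leftUnitor_inv_naturality_assoc, Iso.symm_hom, Iso.hom_inv_id_assoc]

theorem Eu.cast {f : A ⟶ B} (h : Eu a f) (e : L ≅ L') (he : a ≫ e.hom = b) : Eu b f := by
  obtain ⟨ω, h⟩ := h
  refine ⟨ω ≪≫ whiskerRightIso e A, ?_⟩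
  rw [Iso.trans_hom, reassoc_of% h, whiskerRightIso_hom, ← comp_whiskerRight, he]

theorem Eu.map {f : A ⟶ B} (h : Eu a f) (J : C ⥤ D) [J.Monoidal] :
    Eu (ε J ≫ J.map a) (J.map f) := by
  obtain ⟨ω, h⟩ := h
  refine ⟨J.mapIso ω ≪≫ (Functor.Monoidal.μIso J _ _).symm, ?_⟩
  rw [Iso.trans_hom, Functor.mapIso_hom, ← J.map_comp_assoc, h, Iso.symm_hom,
    Iso.comp_inv_eq, comp_whiskerRight, Category.assoc, Category.assoc, Functor.Monoidal.μIso_hom,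
    μ_natural_left, J.map_comp, left_unitality_inv_assoc]

theorem Eu.uniq {f : A ⟶ B} {f' : A ⟶ B'} (h : Eu a f) (h' : Eu a f') :
    ∃ χ : B ≅ B', f ≫ χ.hom = f' := by
  obtain ⟨ω, h⟩ := h
  obtain ⟨ω', h'⟩ := h'
  exact ⟨ω ≪≫ ω'.symm, by rw [Iso.trans_hom, reassoc_of% h, ← reassoc_of% h']; simp⟩

theorem Eu.act {n : ℕ} {f : A ⟶ B} (h : Eu (apw a n) f) :
    ∀ m : ℕ, Eu (apw a (n + m)) (f ≫ act a m B)
  | 0 => h.iso (Iso.refl _) (λ_ B) (by rw [act_zero]; simp)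
  | m + 1 => ((Eu.act h m).comp ((Eu.self a (Pw L m)).right B)).iso (Iso.refl _) (Iso.refl _) (by
      change (f ≫ (λ_ B).inv ≫ (apw a m ≫ (λ_ _).inv ≫ a ▷ Pw L m) ▷ B) ≫ 𝟙 _ = _
      simp [SS.act])

theorem Eu.add {n m : ℕ} {f : A ⟶ B} {g : B ⟶ Z} (h : Eu (apw a n) f) (h' : Eu (apw a m) g) :
    Eu (apw a (n + m)) (f ≫ g) := by
  obtain ⟨ω, h'⟩ := h'
  exact (h.act m).iso (Iso.refl _) ω (by rw [Category.assoc, h', Iso.refl_hom, Category.id_comp]; rfl)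

theorem Eu.left [SymmetricCategory C] {n : ℕ} {f : A ⟶ B} (h : Eu (apw a n) f) (Z : C) :
    Eu (apw a n) (Z ◁ f) := by
  obtain ⟨ω, h⟩ := h
  refine ⟨whiskerLeftIso Z ω ≪≫ exch _ _ _, ?_⟩
  rw [Iso.trans_hom, whiskerLeftIso_hom, ← MonoidalCategory.whiskerLeft_comp_assoc, h]
  exact (act_right a n Z A).symm

theorem Eu.of_right [SymmetricCategory C] {f : A ⟶ B} (ω : B ≅ A ⊗ L)
    (h : f ≫ ω.hom = (ρ_ A).inv ≫ A ◁ a) : Eu a f := by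
  refine ⟨ω ≪≫ β_ _ _, ?_⟩
  rw [Iso.trans_hom, reassoc_of% h, BraidedCategory.braiding_naturality_right,
    braiding_tensorUnit_right, Category.assoc, Iso.inv_hom_id_assoc]

theorem Eu.src {n : ℕ} [IsInv (Pw L n)] {f : A ⟶ Pw L n ⊗ B} (h : Eu (apw a n) f) :
    ∃ χ : B ≅ A, χ.hom ≫ f = SS.act a n B := by
  obtain ⟨ω, h⟩ := h
  have e : Pw L n ◁ (cancelIso _ ω).hom = ω.hom := (tensorLeft (Pw L n)).map_preimage ω.hom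
  refine ⟨cancelIso _ ω, ?_⟩
  rw [← cancel_mono ω.hom, Category.assoc, h]
  exact (act_nat a n _).trans (by rw [e])

theorem Eu.zero_iff [Preadditive C] {n : ℕ} {f : A ⟶ B} (h : Eu (apw a n) f) (z : Z ⟶ A) :
    z ≫ f = 0 ↔ z ≫ SS.act a n A = 0 := by
  obtain ⟨ω, h⟩ := h
  rw [SS.act, ← h, ← Category.assoc]
  exact (Preadditive.IsIso.comp_right_eq_zero _ _).symm

end Eu

variable {W : Tower} (G : W.Geo) (x : Mdl W)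

include G

theorem eu_U {A B : W.T₂.C} {f : A ⟶ B} (h : Eu W.a f) : Eu W.s₁.ar (W.s₂.U.F.map f) :=
  (h.map W.s₂.U.F).cast W.UL (by rw [Category.assoc, G.c9.2.2, Functor.Monoidal.ε_η_assoc])

theorem eu_up (k : ℕ) : ∀ l : ℕ, Eu (apw W.s₁.ar l) (W.s₂.U.F.map (x.up k l))
  | 0 => by
    have : IsIso (x.up k 0) := inferInstanceAs (IsIso (𝟙 _))
    exact Eu.of_isIso _
  | l + 1 => by
    rw [x.up_succ, Functor.map_comp]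
    exact (eu_up k l).comp (eu_U G ((Eu.self W.a _).right x.X))

theorem eu_pw : ∀ l : ℕ, Eu (apw W.s₁.ar l) (ε W.s₂.U.F ≫ W.s₂.U.F.map (apw W.a l))
  | 0 => by
    have : IsIso (apw W.a 0) := inferInstanceAs (IsIso (𝟙 _))
    exact Eu.of_isIso _
  | l + 1 => by
    have h := (eu_pw l).comp (eu_U G (Eu.self W.a (Pw W.L l)))
    rw [Category.assoc, ← Functor.map_comp] at h
    exact h

theorem γ_pw : ∀ l : ℕ, W.s₂.γ (Pw W.L l) = 𝟙 _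
  | 0 => (congrArg W.s₂.U.F.map W.L₂.t.one).trans (W.s₂.U.F.map_id _)
  | l + 1 => Q.PsiAux.γ_ten G.c9.2.1 (γ_pw l)

omit G in
theorem act_up (k : ℕ) : ∀ l : ℕ, act W.a k x.X ≫ x.up k l = act W.a (k + l) x.X
  | 0 => Category.comp_id _
  | l + 1 => by
    refine (Category.assoc _ _ (x.up1 (k + l))).symm.trans
      ((congrArg (· ≫ x.up1 (k + l)) (act_up k l)).trans ((Category.assoc _ _ _).trans ?_))
    exact congrArg ((λ_ x.X).inv ≫ ·) (comp_whiskerRight _ _ _).symm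

omit G in
theorem st_eq (k : ℕ) : x.st k = act W.a (0 + k) x.X := by
  rw [← act_up, act_zero]
  rfl

theorem exists_ψ (M : ℕ) : ∃ ψ : Pw W.s₁.Lr M ⊗ x.X₁ ≅ W.s₂.U.F.obj (x.Z M),
    act W.s₁.ar M x.X₁ ≫ ψ.hom = W.s₂.U.F.map (act W.a M x.X) ∧
      _ ◁ W.s₂.γ x.X ≫ ψ.hom = ψ.hom ≫ W.s₂.γ _ := by
  obtain ⟨ω, h⟩ := eu_pw G M
  have h' : apw W.s₁.ar M ≫ (ρ_ _).inv ≫ ω.inv = ε W.s₂.U.F ≫ W.s₂.U.F.map (apw W.a M) := by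
    rw [← Category.assoc, Iso.comp_inv_eq, h, rightUnitor_inv_naturality, unitors_inv_equal]
  refine ⟨whiskerRightIso ((ρ_ _).symm ≪≫ ω.symm) _ ≪≫ Functor.Monoidal.μIso _ _ _, ?_, ?_⟩
  · change ((λ_ _).inv ≫ apw W.s₁.ar M ▷ x.X₁) ≫ ((ρ_ _).inv ≫ ω.inv) ▷ x.X₁ ≫ μ W.s₂.U.F _ _ = _
    rw [Category.assoc, ← comp_whiskerRight_assoc, h', comp_whiskerRight, Category.assoc,
      μ_natural_left, left_unitality_inv_assoc, act, Functor.map_comp]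
  · change _ ◁ W.s₂.γ x.X ≫ ((ρ_ _).inv ≫ ω.inv) ▷ x.X₁ ≫ μ W.s₂.U.F _ _ =
      (((ρ_ _).inv ≫ ω.inv) ▷ x.X₁ ≫ μ W.s₂.U.F _ _) ≫ _
    rw [Category.assoc, W.s₂.μ_γ, γ_pw G, id_tensorHom, whisker_exchange_assoc]

omit G in
include x in
theorem isInv_Lr : IsInv W.s₁.Lr := by
  obtain ⟨X', ⟨j⟩⟩ := W.s₁.exists_inv W.s₁.Lr (Λ W).L'
    (whiskerRightIso (W.s₁.JU.app (Pl _ hv0) ≪≫ x.e) _ ≪≫ (Λ W).j)
  exact IsInv.of_inverse j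

/-- the diagonal of the product of two planes is the fourth power of the Euler class -/
theorem eu_dg : Eu (apw W.s₁.ar 4) (Q.PsiAux.dg W (CCF ⊗ CCF)) := by
  have h1 : Eu (apw W.s₁.ar 2) (Q.PsiAux.dg W CCF) := by
    obtain ⟨ω, h⟩ := G.p1
    have h2 : Eu ((λ_ _).inv ≫ (W.s₁.ar ⊗ₘ W.s₁.ar)) (Q.PsiAux.dg W CCF) :=
      Eu.of_right ω h
    refine h2.cast (whiskerLeftIso _ (ρ_ _).symm) ?_
    rw [Category.assoc]
    exact (Q.PsiAux.sq_eq W.s₁.ar).trans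
      (congrArg (· ≫ (λ_ _).inv ≫ W.s₁.ar ▷ _) (Category.id_comp _).symm)
  have h2 := (h1.right _).add (h1.left (W.s₁.N.obj (W.F.S.obj CCF)))
  rw [← MonoidalCategory.tensorHom_def] at h2
  exact h2.iso (asIso (W.L₁.tv.F.map (δ W.F.S CCF CCF) ≫ δ W.L₁.tv.F _ _))
    (asIso (W.s₁.N.map (δ W.F.S CCF CCF) ≫ δ W.s₁.N _ _))
    ((Q.PsiAux.dg_mul G CCF CCF).trans (Category.assoc _ _ _).symm)

variable (τ : Tow W)

/-- The dictionary between the stages of the tower and the stages of the model. -/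
theorem dict (hA : ACT W) (M : ℕ) (s t : ℤ) (hs : s + 2 * M = 0) {B : W.T₁.C}
    (ζ : τ.A 0 t ≅ B) : ∃ Φ : (τ.A s t ⟶ x.X₁) →+ (B ⟶ W.s₂.U.F.obj (x.Z M)),
      Function.Surjective Φ ∧
      (∀ a, Φ (τ.I s 0 t ≫ a) = ζ.inv ≫ a ≫ W.s₂.U.F.map (act W.a M x.X)) ∧
      (∀ y, Φ (y ≫ W.s₂.γ x.X) = Φ y ≫ W.s₂.γ _) ∧
      ∀ (l : ℕ) (s' : ℤ), s' + 2 * l = s → ∀ y,
        τ.I s' s t ≫ y = 0 ↔ Φ y ≫ W.s₂.U.F.map (x.up M l) = 0 := by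
  have := isInv_Lr x
  obtain ⟨ξ₀, h0, -⟩ := hA τ M s 0 t hs
  obtain ⟨ξ, hξ⟩ := (Eu.left ⟨ξ₀, h0⟩ (Pw W.s₁.Lr M)).src
  obtain ⟨ψ, h1, h2⟩ := exists_ψ G x M
  refine ⟨AddMonoidHom.mk' (fun y => ζ.inv ≫ ξ.hom ≫ Pw W.s₁.Lr M ◁ y ≫ ψ.hom) fun y z => by
    rw [MonoidalPreadditive.whiskerLeft_add, Preadditive.add_comp, Preadditive.comp_add,
      Preadditive.comp_add], fun z => ?_, fun a => ?_, fun y => ?_, fun l s' hl y => ?_⟩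
  · obtain ⟨y, hy⟩ := whiskerLeft_surj (Pw W.s₁.Lr M) (ξ.inv ≫ ζ.hom ≫ z ≫ ψ.inv)
    exact ⟨y, by simp [hy]⟩
  · rw [AddMonoidHom.mk'_apply, MonoidalCategory.whiskerLeft_comp, Category.assoc, reassoc_of% hξ,
      ← act_nat_assoc, h1]
  · rw [AddMonoidHom.mk'_apply, MonoidalCategory.whiskerLeft_comp, Category.assoc, h2,
      Category.assoc, Category.assoc, Category.assoc]
  · obtain ⟨-, -, h3⟩ := hA τ l s' s t hl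
    rw [h3, (eu_up G x M l).zero_iff, AddMonoidHom.mk'_apply, Category.assoc, Category.assoc,
      Category.assoc, Preadditive.IsIso.comp_left_eq_zero ζ.inv,
      Preadditive.IsIso.comp_left_eq_zero ξ.hom, act_nat _ _ ψ.hom, ← Category.assoc,
      Preadditive.IsIso.comp_right_eq_zero _ (_ ◁ ψ.hom), act_cancel]

omit G

theorem unit_iff {s t n : ℤ} (hs : Even s) (h : s + t = 2 * n) (a : τ.A s t ⟶ x.X₁) :
    x.IsU₁ a ↔ IsUnit (x.A.ev (τ.jj x s t a)) := by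
  have := τ.gen_iso s t hs
  rw [Tow.jj, τ.val_eq x h, ← x.isU₀_iff, x.isU₀_iso, Category.assoc, x.isU₀_iso, x.isU₁_iff]

theorem exists_one : ∃ ζ : τ.A 0 0 ≅ 𝟙_ W.T₁.C, τ.jj x 0 0 (ζ.hom ≫ x.one₁) = 1 := by
  have := τ.gen_iso 0 0 Even.zero
  let ζ : τ.A 0 0 ≅ 𝟙_ W.T₁.C := (τ.ζ 0).some ≪≫ (shiftFunctorZero _ ℤ).app _
  obtain ⟨e, he, h⟩ := (sph_S 0).sign ((τ.φ 0 0 0 rfl).hom ≫ τ.gen 0 0 ≫ (U W).map ζ.hom)
    ((Λ W).zero.inv ≫ ε (U W))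
  refine ⟨⟨e • ζ.hom, e • ζ.inv, by simp [smul_smul, he.sq], by simp [smul_smul, he.sq]⟩, ?_⟩
  have h1 : ε (U W) ≫ (U W).map x.one₁ ≫ x.Y.e.hom = MonObj.one := x.Y.e_one
  rw [Preadditive.zsmul_comp, Tow.jj_zsmul, Tow.jj, τ.val_eq x (n := 0) rfl, Functor.map_comp,
    Category.assoc, Category.assoc, reassoc_of% h, Preadditive.zsmul_comp, Category.assoc, h1]
  exact (congrArg (e • ·) ((DirectSum.of ((Λ W).Gr x.P.E) 0).map_zsmul _ _)).trans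
    ((he.smul_smul _).trans of_one)

theorem st_zero {Q : W.T₂.C} (z : Q ⟶ x.X) (h : z ≫ (λ_ _).inv ≫ W.a ▷ x.X = 0) :
    z ≫ x.st 22 = 0 := by
  have h1 : x.st 22 = act W.a 1 x.X ≫ x.up 1 21 := (st_eq x 22).trans (act_up x 1 21).symm
  have h2 : Eu (apw W.a 1) ((λ_ _).inv ≫ W.a ▷ x.X) :=
    ((Eu.of_isIso (𝟙 _)).comp (Eu.self W.a x.X)).iso (Iso.refl _) (Iso.refl _) (by simp)
  exact (congrArg (z ≫ ·) h1).trans ((Category.assoc _ _ _).symm.trans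
    ((congrArg (· ≫ x.up 1 21) ((h2.zero_iff z).1 h)).trans zero_comp))

theorem flat1_comp {B B' : W.T₂.C} (η : W.s₂.O⟦(1 : ℤ)⟧ ⟶ B) (f : B ⟶ B') :
    Mdl.flat1 (η ≫ f) = Mdl.flat1 η ≫ W.s₂.U.F.map f := by
  rw [Mdl.flat1, Mdl.flat1, Functor.map_comp, Category.assoc, Category.assoc]

end Rw

open Rw in
/-- (ROWT) -/
theorem rowt (W : Tower) : ROWT W := by
  intro G _ hA x τ hl O _ red hu hR
  obtain ⟨C, e₀, e₁, D⟩ := H.exists_cone (𝟙 _ - (W.L₂.t.h W.s₂.O).hom)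
  obtain ⟨p, hp⟩ := D.desc₂ W.s₂.oe (by
    rw [Preadditive.sub_comp, ← W.L₂.t.nat, W.L₂.t.one, Category.id_comp, Category.comp_id,
      sub_self])
  obtain ⟨η₀, -, R⟩ := hR C e₀ e₁ p D hp
  replace R := R (τ.ζ 1).some
  obtain ⟨ζ₀, h₀⟩ := exists_one x τ
  have d := fun t {B : W.T₁.C} (ζ : τ.A 0 t ≅ B) =>
    dict G x τ hA (0 + 22) (-44) t (by norm_num) ζ
  simp only [← st_eq] at d
  refine ⟨fun y => ?_, fun y hy => ?_, ?_, fun y => ?_, fun C e₀ e₁ p D hp => ?_, fun y => ?_,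
    fun y => ?_, fun κ v hv => ?_, fun n k hn hk => ?_⟩
  · obtain ⟨ζ⟩ := τ.ζ (-2)
    exact (Preadditive.IsIso.comp_left_eq_zero ζ.hom y).1 (R.r1 (ζ.hom ≫ y))
  · obtain ⟨ζ⟩ := τ.ζ (-1)
    have r : ∀ y : τ.A 0 (-1) ⟶ x.X₁, y + y ≫ W.s₂.γ _ + (y ≫ W.s₂.γ _) ≫ W.s₂.γ _ = 0 →
      ∃ z : τ.A 0 (-1) ⟶ x.X₁, y = z ≫ W.s₂.γ _ - z := R.r2
    obtain ⟨z, hz⟩ := r (ζ.hom ≫ y) (by
      simp only [Category.assoc, ← Preadditive.comp_add, hy, comp_zero])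
    exact ⟨ζ.inv ≫ z, by rw [Category.assoc, ← Preadditive.comp_sub, ← hz, Iso.inv_hom_id_assoc]⟩
  · obtain ⟨Φ, -, h1, -, -⟩ := d 0 ζ₀
    have r : ∀ y : τ.A 0 0 ⟶ x.X₁, 3 • τ.I (-34) 0 0 ≫ ζ₀.hom ≫ x.one₁ = 0 ∧
        ∃ c : ℤ, τ.I (-34) 0 0 ≫ y = c • τ.I (-34) 0 0 ≫ ζ₀.hom ≫ x.one₁ ∧
          (IsUnit (red (τ.jj x 0 0 y)) → ¬ 3 ∣ c) := fun y => R.r3 y _ h₀
    have h2 : ∀ y : 𝟙_ W.T₁.C ⟶ x.X₁, Φ (τ.I (-44) (-34) 0 ≫ τ.I (-34) 0 0 ≫ ζ₀.hom ≫ y) =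
        y ≫ W.s₂.U.F.map (x.st 22) := fun y => by
      rw [reassoc_of% τ.I_I 0 (show (-44 : ℤ) ≤ -34 by omega) (show (-34 : ℤ) ≤ 0 by omega), h1,
        Category.assoc, Iso.inv_hom_id_assoc]
    refine ⟨?_, fun y => ?_⟩
    · rw [← h2, ← map_zsmul, ← Preadditive.comp_zsmul, ofNat_zsmul, (r 0).1, comp_zero, map_zero]
    · obtain ⟨-, c, h3, h4⟩ := r (ζ₀.hom ≫ y)
      refine ⟨c, by rw [← h2, h3, Preadditive.comp_zsmul, map_zsmul, h2], fun hy => h4 ?_⟩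
      rw [hu, ← unit_iff x τ (n := 0) Even.zero rfl, x.isU₁_iso]
      exact hy
  · obtain ⟨Φ, h1, h2, -, h3⟩ := dict G x τ hA (0 + 6) (-12) 0 (by norm_num) ζ₀
    obtain ⟨y, rfl⟩ := h1 y
    obtain ⟨c, (hc : τ.I (-44) (-12) 0 ≫ y = c • τ.I (-44) 0 0 ≫ ζ₀.hom ≫ x.one₁)⟩ :=
      R.r3b y _ h₀
    have h4 := (h3 16 (-44) (by norm_num) (y - c • τ.I (-12) 0 0 ≫ ζ₀.hom ≫ x.one₁)).1 (by
      rw [Preadditive.comp_sub, hc, Preadditive.comp_zsmul,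
        reassoc_of% τ.I_I 0 (show (-44 : ℤ) ≤ -12 by omega) (show (-12 : ℤ) ≤ 0 by omega), sub_self])
    rw [map_sub, map_zsmul, h2, Category.assoc, Iso.inv_hom_id_assoc, ← st_eq, Preadditive.sub_comp,
      sub_eq_zero, Preadditive.zsmul_comp, Category.assoc, ← Functor.map_comp] at h4
    exact ⟨c, h4⟩
  · obtain ⟨η, h1, R'⟩ := hR C e₀ e₁ p D hp
    obtain ⟨ζ⟩ := τ.ζ 1
    obtain ⟨Φ, h2, h3, -, -⟩ := d 1 ζ
    have h4 := st_zero x _ h1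
    rw [Preadditive.add_comp, Preadditive.zsmul_comp, Category.assoc, Category.assoc,
      add_eq_zero_iff_eq_neg, ← Preadditive.comp_neg, ← Preadditive.neg_comp] at h4
    refine ⟨_, h4, fun y => ?_⟩
    obtain ⟨y, rfl⟩ := h2 y
    obtain ⟨c, (hc : y = c • τ.I (-44) 0 1 ≫ ζ.hom ≫ Mdl.flat1 η)⟩ := (R' ζ).r4 y
    refine ⟨-c, ?_⟩
    rw [hc, map_zsmul, h3, Category.assoc, Iso.inv_hom_id_assoc, Preadditive.neg_comp,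
      ← Preadditive.comp_neg, flat1_comp, Functor.map_neg, Preadditive.comp_neg, neg_smul_neg]
  · obtain ⟨Φ, h1, -⟩ := d 2 (τ.ζ 2).some
    obtain ⟨y, rfl⟩ := h1 y
    exact (congrArg Φ (R.r5 y)).trans (map_zero Φ)
  · obtain ⟨Φ, h1, -⟩ := d 3 (τ.ζ 3).some
    obtain ⟨y, rfl⟩ := h1 y
    exact (congrArg Φ (R.r6 y)).trans (map_zero Φ)
  · obtain ⟨ζ⟩ := τ.ζ 4
    obtain ⟨Φ, h1, h2, h3, h4⟩ := d 4 ζ
    replace h4 := h4 9 (-62) (by norm_num)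
    obtain ⟨ξ, hξ, -⟩ := hA τ 4 0 8 4 (by norm_num)
    obtain ⟨χ, hχ⟩ := Eu.uniq ⟨ξ, hξ⟩ ((eu_dg G).iso (f' := (ζ ≪≫ κ).hom ≫ _) (ζ ≪≫ κ)
      (Iso.refl _) (Category.comp_id _))
    obtain ⟨w, hw⟩ : ∃ w, w = χ.hom ≫ W.s₁.N.map v ≫ x.nm₁ := ⟨_, rfl⟩
    have h5 : Φ (τ.I (-44) 8 4 ≫ w) = x.cls κ v ≫ W.s₂.U.F.map (x.st 22) := by
      rw [← τ.I_I 4 (show (-44 : ℤ) ≤ 0 by omega) (show (0 : ℤ) ≤ 8 by omega), Category.assoc, h2,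
        hw, reassoc_of% hχ, Iso.trans_hom, Category.assoc, Category.assoc, Iso.inv_hom_id_assoc,
        ← Category.assoc]
      rfl
    obtain ⟨(r1 : τ.I (-62) 8 4 ≫ w ≠ 0), (r2 : 3 • τ.I (-62) 8 4 ≫ w = 0),
      (r3 : ∀ y : τ.A (-44) 4 ⟶ x.X₁, τ.I (-62) (-44) 4 ≫ (y ≫ W.s₂.γ _ - y) = 0 ∧
        ∃ c : ℤ, τ.I (-62) (-44) 4 ≫ y = c • τ.I (-62) 8 4 ≫ w)⟩ := R.r7 w (by
      change IsUnit (red (τ.jj x 8 4 w))
      rw [hu, ← unit_iff x τ (n := 6) (by decide) rfl, hw, x.isU₁_iso]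
      exact isU₁_nm₁ x hv)
    rw [← τ.I_I 4 (show (-62 : ℤ) ≤ -44 by omega) (show (-44 : ℤ) ≤ 8 by omega),
      Category.assoc] at r1 r2 r3
    rw [Functor.map_comp, ← Category.assoc, ← h5]
    refine ⟨fun h => r1 ((h4 _).2 h), ?_, fun y => ?_⟩
    · rw [← Preadditive.zsmul_comp, ← map_zsmul, ← h4, Preadditive.comp_zsmul, ofNat_zsmul]
      exact r2
    · obtain ⟨y, rfl⟩ := h1 y
      obtain ⟨r4, c, r5⟩ := r3 y
      refine ⟨by rw [← h3, ← map_sub, ← h4, r4], c, ?_⟩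
      rw [← Preadditive.zsmul_comp, ← sub_eq_zero, ← Preadditive.sub_comp, ← map_zsmul, ← map_sub,
        ← h4, Preadditive.comp_sub, r5, Preadditive.comp_zsmul, sub_self]
  · obtain ⟨ζ⟩ := τ.ζ n
    obtain ⟨y, hy⟩ : ∃ y : τ.A 0 n ⟶ x.X₁, red (τ.jj x 0 n y) = 1 := R.r9 n k hn hk
    refine ⟨ζ.inv ≫ y, ?_⟩
    rw [x.isU₁_iso, unit_iff x τ (n := 6 * k) Even.zero (by omega), ← hu, hy]
    exact isUnit_one

end Vale.Agent.P236Z.SS
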