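import Vale.Agent.P236Z.SS.Small
import Vale.Agent.P236Z.SS.Push
import Vale.Agent.P236Z.SS.Leib
import Vale.Agent.P236Z.SS.Rowt
import Vale.Agent.P236Z.Nb.Bnd
import Vale.Agent.P236Z.Nb.Kill
import Vale.Agent.P236Z.Nb.Dual
import Vale.Agent.P236Z.Nb.Eta2
import Vale.Agent.P236Z.Nb.Alpha
import Vale.Agent.P236Z.Q.Cpg
import Vale.Agent.P236Z.Q.Xcp

/-!
# P236: the blocks SS and NB, given the tower
-/

namespace Vale.Agent.P236Z.SS

open Vale.Agent.P236Z.Top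

theorem stRows_of_tow (h : ∀ W, TOW W) : StRows :=
  stRows_of h leib nrm actT bnd kill dual nil om eta1 eta2 (alpha_of Q.cpg Q.xcp) rowt

theorem stRows_of_three (h1 : ∀ W, TEN W) (h2 : ∀ W, SWAP W) (h3 : ∀ W, ASM W)
    (h4 : ∀ W, EXT W) : StRows :=
  stRows_of_tow fun W => tow_of W (h1 W) (h2 W) (push W) (small W (h1 W)) (h3 W) (h4 W)

end Vale.Agent.P236Z.SS
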