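import Vale.Agent.P236Z.SS.Tow0
import Vale.Agent.P236Z.Nb.Eta1

/-!
# P236, block SS: the cells of the rotation sphere and their diagonal
-/

open CategoryTheory MonoidalCategory Limits Pretriangulated
open Functor.LaxMonoidal Functor.OplaxMonoidal
open Vale.Agent.P251 Vale.Agent.P251.T Vale.Agent.P251.M Vale.Agent.P251.I Vale.Agent.P251.G
  Vale.Agent.P236Z.Cat Vale.Agent.P236Z.Mod Vale.Agent.P236Z.Top

noncomputable section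

namespace Vale.Agent.P236Z.SS

namespace Sml

variable {W : Tower}

@[reassoc] theorem γ_cs (Y : W.T₁.C) :
    W.s₁.γ (Y⟦(1 : ℤ)⟧) ≫ (cs W Y).hom = (cs W Y).hom ≫ (W.s₁.γ Y)⟦(1 : ℤ)⟧' := by
  rw [← cs_nat, ← Eta1.h_shift]

theorem γ3 (Y : W.T₁.C) : W.s₁.γ Y ≫ W.s₁.γ Y ≫ W.s₁.γ Y = 𝟙 _ := W.s₁.γ_cube Y

theorem dd0 (Y : W.T₁.C) : dd 0 Y = W.s₁.γ Y - 𝟙 _ := if_pos Even.zero

theorem dd1 (Y : W.T₁.C) : dd 1 Y = 𝟙 _ + W.s₁.γ Y + W.s₁.γ Y ≫ W.s₁.γ Y :=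
  if_neg Int.not_even_one

@[reassoc] theorem dd_cs (Y : W.T₁.C) :
    dd 1 (Y⟦(1 : ℤ)⟧) ≫ (cs W Y).hom = (cs W Y).hom ≫ (dd 1 Y)⟦(1 : ℤ)⟧' := by
  simp only [dd1, Preadditive.add_comp, Preadditive.comp_add, Functor.map_add, Functor.map_comp,
    CategoryTheory.Functor.map_id, Category.assoc, Category.id_comp, Category.comp_id, γ_cs,
    γ_cs_assoc]

/-- induction commutes with the suspension -/
def ci (S : W.T₀.C) : W.s₁.ind.obj (S⟦(1 : ℤ)⟧) ≅ (W.s₁.ind.obj S)⟦(1 : ℤ)⟧ :=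
  (W.s₁.ind.commShiftIso (1 : ℤ)).app S

@[reassoc] theorem un_ci (S : W.T₀.C) :
    W.s₁.un (S⟦(1 : ℤ)⟧) ≫ (U W).map (ci S).hom ≫ (cs W _).hom = (W.s₁.un S)⟦(1 : ℤ)⟧' :=
  (W.s₁.adj.shift_unit_app (1 : ℤ) S).symm

theorem cell_ind {S : W.T₀.C} {d : ℤ} (h : Sph S d) :
    BigCell W.T₀.C d ((U W).obj (W.s₁.ind.obj S)) :=
  (BigCell.coprod (fun _ : Fin 3 => S) fun _ => h.cell).of_iso
    ((coproductIsCoproduct _).coconePointUniqueUpToIso (W.s₁.cofan S).some)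

theorem cells (hg : W.Geo) : ∃ (P : W.T₁.C) (a₀ : 𝟙_ W.T₁.C ⟶ P) (a₁ : P ⟶ W.s₁.Lr)
    (g : (𝟙_ W.T₀.C)⟦(1 : ℤ)⟧ ⟶ (U W).obj P)
    (b₀ : P ⟶ (W.s₁.ind.obj (𝟙_ W.T₀.C))⟦(1 : ℤ)⟧)
    (b₁ : W.s₁.Lr ⟶ (W.s₁.ind.obj ((𝟙_ W.T₀.C)⟦(1 : ℤ)⟧))⟦(1 : ℤ)⟧)
    (κ : (U W).obj W.s₁.Lr ≅ ((𝟙_ W.T₀.C)⟦(1 : ℤ)⟧)⟦(1 : ℤ)⟧),
    a₀ ≫ a₁ = W.s₁.ar ∧ H.Dist (shp (ε (U W))) a₀ b₀ ∧ H.Dist (shp g) a₁ b₁ ∧
    g ≫ (U W).map b₀ ≫ (cs W _).hom = (W.s₁.un _ ≫ dd 0 _)⟦(1 : ℤ)⟧' ∧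
    (U W).map b₁ ≫ (cs W _).hom = κ.hom ≫ (W.s₁.un _ ≫ dd 1 _)⟦(1 : ℤ)⟧' := by
  obtain ⟨⟨r, ⟨C, e₀, e₁, p, b, D₁, D₂, he, hr⟩, hi⟩, -⟩ := hg.c1
  obtain ⟨P, a₀, b₀, D₀⟩ := H.exists_cone W.s₁.oe
  let o := Triangulated.someOctahedron he D₁.rot D₂ D₀
  have hs : shp (W.s₁.un _ ≫ (U W).map ((ci _).hom ≫ o.m₁)) = (ci _).hom ≫ o.m₁ := shp_un _
  refine ⟨P, a₀, o.m₃, W.s₁.un _ ≫ (U W).map ((ci _).hom ≫ o.m₁), b₀,
    (b ≫ e₁⟦(1 : ℤ)⟧') ≫ (ci _).inv⟦(1 : ℤ)⟧', (asIso (W.s₁.flat2 r)).symm, o.comm₃, D₀, ?_, ?_, ?_⟩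
  · rw [hs]
    refine isomorphic_distinguished _ o.mem _ (Triangle.isoMk _ _ (ci _) (Iso.refl _) (Iso.refl _)
      (Category.comp_id _) ((Category.comp_id _).trans (Category.id_comp _).symm) ?_)
    change (_ ≫ (ci _).inv⟦(1 : ℤ)⟧') ≫ (ci _).hom⟦(1 : ℤ)⟧' = 𝟙 _ ≫ b ≫ e₁⟦(1 : ℤ)⟧'
    rw [Category.assoc, ← Functor.map_comp, Iso.inv_hom_id, CategoryTheory.Functor.map_id,
      Category.comp_id, Category.id_comp]
  · rw [Category.assoc, ← Functor.map_comp_assoc, Category.assoc, o.comm₂, ← Functor.map_neg,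
      Functor.map_comp_assoc, cs_nat, un_ci_assoc, ← Functor.map_comp, neg_sub, Functor.map_sub,
      CategoryTheory.Functor.map_id, dd0]
  · have h1 : (U W).map (∑ i ∈ Finset.range 3, Dt.pw (W.L₁.t.h W.s₁.O).hom i) = dd 1 _ := by
      rw [Eta1.sum3, Eta1.map_s3, dd1, Eta1.s3]
    rw [Iso.symm_hom, asIso_inv, IsIso.eq_inv_comp, ← Category.assoc, ← Eta1.flat2_comp,
      Category.assoc, reassoc_of% hr, Eta1.flat2_comp, Category.assoc, cs_nat,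
      ← cancel_mono (((U W).map (ci _).hom ≫ (cs W _).hom)⟦(1 : ℤ)⟧'), Category.assoc,
      Category.assoc, ← Functor.map_comp, ← Functor.map_comp, ← Functor.map_comp_assoc,
      Iso.inv_hom_id, CategoryTheory.Functor.map_id, Category.id_comp, Category.assoc,
      dd_nat_assoc, dd_cs, un_ci_assoc, ← Functor.map_comp, ← h1]
    exact Eta1.flat2_shift W.s₁ _

section

variable {T : Type 1} [Category.{0} T] [Preadditive T] [HasZeroObject T] [HasShift T ℤ]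
  [∀ n : ℤ, (shiftFunctor T n).Additive] [Pretriangulated T]
  [MonoidalCategory T] [SymmetricCategory T] [TensorTriangulated T]

@[reassoc] theorem rS_nat {A A' B B' : T} (f : A ⟶ A') (g : B ⟶ B') :
    (f ⊗ₘ g⟦(1 : ℤ)⟧') ≫ (rS A' B').hom = (rS A B).hom ≫ (f ⊗ₘ g)⟦(1 : ℤ)⟧' := by
  have h1 : (rS A B).hom ≫ (f ▷ B)⟦(1 : ℤ)⟧' = f ▷ B⟦(1 : ℤ)⟧ ≫ (rS A' B).hom :=
    NatTrans.shift_app_comm (S.tlMap f) (1 : ℤ) B
  have h2 : A' ◁ g⟦(1 : ℤ)⟧' ≫ (rS A' B').hom = (rS A' B).hom ≫ (A' ◁ g)⟦(1 : ℤ)⟧' :=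
    ((tensorLeft A').commShiftIso (1 : ℤ)).hom.naturality g
  rw [MonoidalCategory.tensorHom_def, MonoidalCategory.tensorHom_def, Category.assoc, h2, Functor.map_comp, reassoc_of% h1]

theorem tensor_sub {A A' B B' : T} (f : A ⟶ A') (g h : B ⟶ B') :
    f ⊗ₘ (g - h) = f ⊗ₘ g - f ⊗ₘ h := by
  rw [eq_sub_iff_add_eq, ← MonoidalPreadditive.tensor_add, sub_add_cancel]

omit [MonoidalCategory T] [SymmetricCategory T] [TensorTriangulated T] in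
theorem ext₃ {X Y Z A : T} {f : X ⟶ Y} {g : Y ⟶ Z} {h : Z ⟶ X⟦(1 : ℤ)⟧} (D : H.Dist f g h)
    (h0 : ∀ w : X⟦(1 : ℤ)⟧ ⟶ A, w = 0) {u v : Z ⟶ A} (e : g ≫ u = g ≫ v) : u = v := by
  obtain ⟨w, hw⟩ := D.desc₃ (u - v) (by rw [Preadditive.comp_sub, e, sub_self])
  rw [← sub_eq_zero, ← hw, h0 w, comp_zero]

omit [MonoidalCategory T] [SymmetricCategory T] [TensorTriangulated T] in
theorem mono₃ {X Y Z A : T} {f : X ⟶ Y} {g : Y ⟶ Z} {h : Z ⟶ X⟦(1 : ℤ)⟧} (D : H.Dist f g h)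
    (h0 : g = 0) {u v : A ⟶ Z} (e : u ≫ h = v ≫ h) : u = v := by
  obtain ⟨w, hw⟩ := D.lift₃ (u - v) (by rw [Preadditive.sub_comp, e, sub_self])
  rw [← sub_eq_zero, ← hw, h0, comp_zero]

end

theorem conn_tensor {A B : W.T₁.C} {m n : ℤ} (hA : BigCell W.T₀.C m ((U W).obj A))
    (hB : BigCell W.T₀.C n ((U W).obj B)) : M.Conn (m + n) ((U W).obj (A ⊗ B)) :=
  cell_conn ((hA.tensor hB _ rfl).of_iso (Functor.Monoidal.μIso (U W) A B))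

end Sml

open Sml

theorem small (W : Tower) (hT : TEN W) : SMALL W := by
  intro hg
  obtain ⟨P, a₀, a₁, g, b₀, b₁, κ, aa, D₀, D₁, hb₀, hb₁⟩ := cells hg
  have s1 : Sph ((𝟙_ W.T₀.C)⟦(1 : ℤ)⟧) 1 := ⟨Iso.refl _⟩
  have sL : Sph ((U W).obj W.s₁.Lr) 2 := (s1.shift 1).of_iso κ
  have cP : BigCell W.T₀.C 1 ((U W).obj P) :=
    BigCell.ext _ (dist_U D₁) (cell_ind s1) (sL.cell.mono (by norm_num))
  have u0 : (U W).map a₀ = 0 :=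
    (sph_unit.of_iso (Functor.Monoidal.εIso (U W)).symm).eq_zero (cell_conn cP) (by norm_num) _
  have hz : ∀ w : ((U W).obj (W.s₁.ind.obj (𝟙_ W.T₀.C)))⟦(1 : ℤ)⟧ ⟶ (U W).obj W.s₁.Lr, w = 0 := by
    intro w
    obtain ⟨w', rfl⟩ := (shiftFunctor _ (1 : ℤ)).map_surjective
      (w ≫ ((shiftFunctor _ (1 : ℤ)).objObjPreimageIso _).inv) |>.imp fun w' (h : _ = _) =>
        (Iso.eq_comp_inv _).1 h
    have h1 : ∀ v : 𝟙_ W.T₀.C ⟶ _, v ≫ w' = v ≫ 0 := fun v => by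
      apply (shiftFunctor _ (1 : ℤ)).map_injective
      rw [← cancel_mono ((shiftFunctor _ (1 : ℤ)).objObjPreimageIso _).hom]
      exact (s1.eq_zero (cell_conn sL.cell) (by norm_num) _).trans
        (s1.eq_zero (cell_conn sL.cell) (by norm_num) _).symm
    rw [W.s₁.cof_ext (f := w') (g := 0) (h1 _) (by simpa only [Category.assoc] using h1 (_ ≫ _))
      (by simpa only [Category.assoc] using h1 (_ ≫ _ ≫ _)), Functor.map_zero, zero_comp]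
  have u1 : (U W).map a₁ = 0 := ext₃ (dist_U D₀) hz (by rw [u0, zero_comp, zero_comp])
  have DP : H.Dist (P ◁ shp (ε (U W))) (P ◁ a₀) (P ◁ b₀ ≫ (rS _ _).hom) :=
    S.dist_whiskerLeft P D₀
  obtain ⟨d, hd, hd'⟩ := D₁.map₃ DP
    (shp ((ρ_ _).inv ≫ (g ⊗ₘ W.s₁.un _) ≫ μ (U W) P _)) (ρ_ P).inv (by
      rw [shp_comp, shp_comp, Category.assoc, Category.assoc, ← μ_natural_right,
        tensorHom_comp_whiskerLeft_assoc, un_shp, MonoidalCategory.tensorHom_def,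
        Category.assoc,
        ← rightUnitor_inv_naturality_assoc, right_unitality_inv])
  have ad : a₁ ≫ d = (λ_ P).inv ≫ a₀ ▷ P := by
    refine ext₃ D₀ (fun w => ind_shift_eq_zero sph_unit (conn_tensor cP cP) (by norm_num) w) ?_
    rw [hd, rightUnitor_inv_naturality_assoc, leftUnitor_inv_naturality_assoc, whisker_exchange,
      unitors_inv_equal]
  have hγ : ∀ (y : (𝟙_ W.T₀.C)⟦(1 : ℤ)⟧ ⟶ (U W).obj P) (z : 𝟙_ W.T₀.C ⟶ _),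
      y ≫ (U W).map b₀ ≫ (cs W _).hom = z⟦(1 : ℤ)⟧' →
      (y ≫ W.s₁.γ P) ≫ (U W).map b₀ ≫ (cs W _).hom = (z ≫ W.s₁.γ _)⟦(1 : ℤ)⟧' := by
    intro y z h
    rw [Category.assoc, ← W.s₁.γ_nat_assoc, γ_cs, reassoc_of% h, Functor.map_comp]
  have h3 : g + g ≫ W.s₁.γ P + (g ≫ W.s₁.γ P) ≫ W.s₁.γ P = 0 := by
    refine mono₃ (dist_U D₀) u0 ?_
    rw [Preadditive.add_comp, Preadditive.add_comp, hγ _ _ (hγ _ _ hb₀), hγ _ _ hb₀, hb₀,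
      ← Functor.map_add, ← Functor.map_add, zero_comp, Functor.map_eq_zero_iff]
    simp only [dd0, Preadditive.sub_comp, Preadditive.comp_sub, Category.assoc,
      Category.comp_id, γ3]
    abel
  refine ⟨⟨P, a₀, a₁, aa, g, b₀, b₁, D₀, D₁, cP, sL, u0, u1, hb₀, ⟨κ, hb₁⟩, d, ad, hd, ?_, ?_,
    κ ≪≫ (shiftFunctor _ (1 : ℤ)).mapIso (ρ_ _).symm ≪≫ (rS _ _).symm, ?_⟩⟩
  · refine ext₃ D₁ (fun w => ind_shift_eq_zero s1 (conn_tensor sL.cell cP) (by norm_num) w) ?_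
    rw [reassoc_of% hd, rightUnitor_inv_naturality_assoc, whisker_exchange]
  · refine ext₃ D₁ (fun w => ind_shift_eq_zero s1 (conn_tensor cP sL.cell) (by norm_num) w) ?_
    rw [reassoc_of% ad, leftUnitor_inv_naturality_assoc, whisker_exchange]
  · rw [← cancel_mono (μ (U W) P P), Category.assoc, Functor.Monoidal.δ_μ, Category.comp_id]
    refine mono₃ (dist_U DP) (by
      rw [Functor.Monoidal.map_whiskerLeft, u0, MonoidalPreadditive.whiskerLeft_zero, zero_comp,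
        comp_zero]) ?_
    have k1 : ∀ (x y : (𝟙_ W.T₀.C)⟦(1 : ℤ)⟧ ⟶ (U W).obj P) (z : 𝟙_ W.T₀.C ⟶ _),
        y ≫ (U W).map b₀ ≫ (cs W _).hom = z⟦(1 : ℤ)⟧' →
        (x ⊗ₘ y) ≫ μ (U W) P P ≫ (U W).map (P ◁ b₀ ≫ (rS _ _).hom) ≫ (cs W _).hom =
          (rS _ _).hom ≫ ((x ⊗ₘ z) ≫ μ (U W) P _)⟦(1 : ℤ)⟧' := by
      intro x y z h
      rw [Functor.map_comp, Category.assoc, ← μ_natural_right_assoc, hT.μ_rS,
        tensorHom_comp_whiskerLeft_assoc, tensorHom_comp_whiskerLeft_assoc, Category.assoc, h,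
        rS_nat_assoc, Functor.map_comp]
    rw [← Functor.map_comp_assoc, ← hd', Functor.map_comp_assoc, cs_nat, reassoc_of% hb₁,
      ← Functor.map_comp, Category.assoc, dd_nat, un_shp_assoc, cupf,
      if_pos ⟨odd_one, odd_one⟩, Category.assoc (_ ≫ _), Category.assoc _ (_ + _),
      Preadditive.add_comp,
      k1 _ _ _ hb₀, k1 _ _ (_ + _) (by
        rw [Preadditive.add_comp, hγ _ _ hb₀, hb₀, ← Functor.map_add])]
    simp only [Iso.trans_hom, Functor.mapIso_hom, Iso.symm_hom, Category.assoc,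
      Preadditive.comp_add, Iso.inv_hom_id_assoc, ← Functor.map_comp]
    rw [← Preadditive.comp_add, ← Functor.map_add]
    refine congrArg (fun t => κ.hom ≫ t⟦(1 : ℤ)⟧') ?_
    have h4 : ((g + g ≫ W.s₁.γ P + (g ≫ W.s₁.γ P) ≫ W.s₁.γ P) ⊗ₘ W.s₁.un (𝟙_ _)) = 0 := by
      rw [h3, MonoidalPreadditive.zero_tensor]
    rw [← Preadditive.comp_add, ← Preadditive.add_comp, ← add_zero (_ ⊗ₘ _ + _ ⊗ₘ _), ← h4]
    simp only [dd0, dd1, Preadditive.comp_add, Preadditive.add_comp, Preadditive.comp_sub,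
      Preadditive.sub_comp, Category.comp_id, Category.id_comp, Category.assoc, W.s₁.μ_γ,
      reassoc_of% W.s₁.μ_γ, tensorHom_comp_tensorHom_assoc, MonoidalPreadditive.add_tensor,
      MonoidalPreadditive.tensor_add, tensor_sub, Functor.map_comp]
    abel

end Vale.Agent.P236Z.SS
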