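import Vale.Agent.P236Z.Top.Mdl
import Vale.Agent.P236Z.Cat.Wir2
import Vale.Agent.P236Z.Nb.Defs
import Vale.Agent.P251.S.TensorShift
import Vale.Agent.P251.M.PiZero
import Vale.Agent.P251.G.CellInst

/-!
# P236, blocks SS and NB: the tower of the representation spheres (definitions and statements)

`A m t` is `S^(k λ) ∧ S^t` for `m = 2 k`, and `S^(k λ) ∧ S^t ∧ P₁` for `m = 2 k + 1`, where `P₁` is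
the cofibre of the projection of the free orbit to the point.  The free cell of `A m t` is induced
from the sphere `S m t` of dimension `m + t`.
-/

open CategoryTheory MonoidalCategory Limits Pretriangulated
open Functor.LaxMonoidal Functor.OplaxMonoidal
open Vale.Agent.P251 Vale.Agent.P251.T Vale.Agent.P251.M Vale.Agent.P251.I Vale.Agent.P251.G
  Vale.Agent.P236Z.Cat Vale.Agent.P236Z.Mod Vale.Agent.P236Z.Top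

noncomputable section

namespace Vale.Agent.P236Z.SS

section

variable {T : Type 1} [Category.{0} T] [Preadditive T] [HasZeroObject T] [HasShift T ℤ]
  [∀ n : ℤ, (shiftFunctor T n).Additive] [Pretriangulated T]
  [MonoidalCategory T] [SymmetricCategory T] [TensorTriangulated T]

/-- the suspension coordinate is in the left factor -/
def lS (A B : T) : A⟦(1 : ℤ)⟧ ⊗ B ≅ (A ⊗ B)⟦(1 : ℤ)⟧ :=
  ((tensorRight B).commShiftIso (1 : ℤ)).app A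

/-- the suspension coordinate is in the right factor -/
def rS (A B : T) : A ⊗ B⟦(1 : ℤ)⟧ ≅ (A ⊗ B)⟦(1 : ℤ)⟧ :=
  ((tensorLeft A).commShiftIso (1 : ℤ)).app B

omit [Preadditive T] [HasZeroObject T] [HasShift T ℤ] [∀ n : ℤ, (shiftFunctor T n).Additive]
  [Pretriangulated T] [SymmetricCategory T] [TensorTriangulated T] in
/-- the powers of an Euler class -/
def apw {L : T} (a : 𝟙_ T ⟶ L) : ∀ M : ℕ, 𝟙_ T ⟶ Pw L M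
  | 0 => 𝟙 _
  | M + 1 => apw a M ≫ (λ_ _).inv ≫ a ▷ Pw L M

omit [Preadditive T] [HasZeroObject T] [HasShift T ℤ] [∀ n : ℤ, (shiftFunctor T n).Additive]
  [Pretriangulated T] [SymmetricCategory T] [TensorTriangulated T] in
/-- multiplication by a power of an Euler class -/
def act {L : T} (a : 𝟙_ T ⟶ L) (M : ℕ) (Y : T) : Y ⟶ Pw L M ⊗ Y := (λ_ Y).inv ≫ apw a M ▷ Y

end

variable (W : Tower)

/-- the restriction to the trivial group -/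
abbrev U : W.T₁.C ⥤ W.T₀.C := W.s₁.U.F

/-- the even spheres -/
abbrev Λ : EvenSpheres W.T₀.C := stdEven W.T₀.C

/-- the restriction commutes with the suspension -/
def cs (Y : W.T₁.C) : (U W).obj (Y⟦(1 : ℤ)⟧) ≅ ((U W).obj Y)⟦(1 : ℤ)⟧ :=
  ((U W).commShiftIso (1 : ℤ)).app Y

variable {W}

/-- the equivariant map on the induced object -/
def shp {S : W.T₀.C} {Y : W.T₁.C} (u : S ⟶ (U W).obj Y) : W.s₁.ind.obj S ⟶ Y :=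
  W.s₁.ind.map u ≫ W.s₁.cu Y

/-- the cellular boundary -/
def dd (m : ℤ) (Y : W.T₁.C) : (U W).obj Y ⟶ (U W).obj Y :=
  if Even m then W.s₁.γ Y - 𝟙 _ else 𝟙 _ + W.s₁.γ Y + W.s₁.γ Y ≫ W.s₁.γ Y

/-- the cellular diagonal -/
def cupf (m m' : ℤ) {S S' : W.T₀.C} {Y Y' : W.T₁.C} (u : S ⟶ (U W).obj Y)
    (v : S' ⟶ (U W).obj Y') : S ⊗ S' ⟶ (U W).obj Y ⊗ (U W).obj Y' :=
  if Odd m ∧ Odd m' then ((u ≫ W.s₁.γ Y) ⊗ₘ v) +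
    ((u ≫ W.s₁.γ Y ≫ W.s₁.γ Y) ⊗ₘ (v + v ≫ W.s₁.γ Y')) else u ⊗ₘ v

variable (W) in
/-- The tower. -/
structure Tow where
  /-- the stages -/
  A : ℤ → ℤ → W.T₁.C
  /-- the maps of the tower -/
  I : ∀ m m' t, A m t ⟶ A m' t
  I_self : ∀ m t, I m m t = 𝟙 _
  I_I : ∀ {m m' m''} t, m ≤ m' → m' ≤ m'' → I m m' t ≫ I m' m'' t = I m m'' t
  /-- the suspension -/
  τ : ∀ m {t t'}, t + 1 = t' → (A m t' ≅ (A m t)⟦(1 : ℤ)⟧)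
  τ_I : ∀ {m m' t t'} (h : t + 1 = t'), m ≤ m' →
    I m m' t' ≫ (τ m' h).hom = (τ m h).hom ≫ (I m m' t)⟦(1 : ℤ)⟧'
  /-- the spheres -/
  S : ℤ → ℤ → W.T₀.C
  sph : ∀ m t, Nonempty (S m t ≅ (𝟙_ W.T₀.C)⟦m + t⟧)
  /-- the generating cell -/
  gen : ∀ m t, S m t ⟶ (U W).obj (A m t)
  /-- the boundary -/
  b : ∀ {m m'} t, m + 1 = m' → (A m' t ⟶ (W.s₁.ind.obj (S m t))⟦(1 : ℤ)⟧)
  dist : ∀ {m m'} t (h : m + 1 = m'), H.Dist (shp (gen m t)) (I m m' t) (b t h)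
  cell : ∀ m t, BigCell W.T₀.C (m + t) ((U W).obj (A m t))
  U_I : ∀ {m m'} t, m < m' → (U W).map (I m m' t) = 0
  gen_iso : ∀ m t, Even m → IsIso (gen m t)
  /-- the suspension of the spheres -/
  τ₀ : ∀ m {t t'}, t + 1 = t' → (S m t' ≅ (S m t)⟦(1 : ℤ)⟧)
  gen_τ : ∀ m {t t'} (h : t + 1 = t'), gen m t' ≫ (U W).map (τ m h).hom ≫ (cs W _).hom =
    (τ₀ m h).hom ≫ (gen m t)⟦(1 : ℤ)⟧'
  gen_b : ∀ {m m'} t (h : m + 1 = m'), ∃ κ : S m' t ≅ (S m t)⟦(1 : ℤ)⟧,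
    gen m' t ≫ (U W).map (b t h) ≫ (cs W _).hom = κ.hom ≫ (W.s₁.un _ ≫ dd m _)⟦(1 : ℤ)⟧'
  /-- the diagonal -/
  δ : ∀ {m m' m'' t t' t''}, m + m' = m'' → t + t' = t'' → (A m'' t'' ⟶ A m t ⊗ A m' t')
  δ_l : ∀ {m m₁ m' m'' m₁'' t t' t''} (h : m + m' = m'') (h₁ : m₁ + m' = m₁'')
    (k : t + t' = t''), m ≤ m₁ → I m'' m₁'' t'' ≫ δ h₁ k = δ h k ≫ I m m₁ t ▷ A m' t'
  δ_r : ∀ {m m' m₁' m'' m₁'' t t' t''} (h : m + m' = m'') (h₁ : m + m₁' = m₁'')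
    (k : t + t' = t''), m' ≤ m₁' → I m'' m₁'' t'' ≫ δ h₁ k = δ h k ≫ A m t ◁ I m' m₁' t'
  /-- the diagonal of the spheres -/
  θ : ∀ {m m' m'' t t' t''}, m + m' = m'' → t + t' = t'' → (S m'' t'' ≅ S m t ⊗ S m' t')
  gen_δ : ∀ {m m' m'' t t' t''} (h : m + m' = m'') (k : t + t' = t''),
    gen m'' t'' ≫ (U W).map (δ h k) ≫ Functor.OplaxMonoidal.δ (U W) _ _ =
      (θ h k).hom ≫ cupf m m' (gen m t) (gen m' t')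
  /-- the framings of the spheres of even dimension -/
  φ : ∀ m t n, m + t = 2 * n → ((Λ W).S n ≅ S m t)
  φ_ee : ∀ {m m' m'' t t' t'' n n' n''} (h : m + m' = m'') (k : t + t' = t'') (l : n + n' = n'')
    (e : m + t = 2 * n) (e' : m' + t' = 2 * n') (e'' : m'' + t'' = 2 * n''), Even m → Even m' →
    (φ m'' t'' n'' e'').hom ≫ (θ h k).hom =
      ((Λ W).mu n n' n'' l).inv ≫ ((φ m t n e).hom ⊗ₘ (φ m' t' n' e').hom)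
  φ_oe : ∀ {m m' m'' t₀ t t' t₀'' t'' n n' n''} (h : m + m' = m'') (k : t + t' = t'')
    (j : t₀ + 1 = t) (j'' : t₀'' + 1 = t'') (l : n + n' = n'')
    (e : m + t₀ = 2 * n) (e' : m' + t' = 2 * n') (e'' : m'' + t₀'' = 2 * n''), Odd m → Even m' →
    (φ m'' t₀'' n'' e'').hom⟦(1 : ℤ)⟧' ≫ (τ₀ m'' j'').inv ≫ (θ h k).hom ≫
      (τ₀ m j).hom ▷ S m' t' ≫ (lS _ _).hom =
      (((Λ W).mu n n' n'' l).inv ≫ ((φ m t₀ n e).hom ⊗ₘ (φ m' t' n' e').hom))⟦(1 : ℤ)⟧'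
  φ_eo : ∀ {m m' m'' t t₀' t' t₀'' t'' n n' n''} (h : m + m' = m'') (k : t + t' = t'')
    (j' : t₀' + 1 = t') (j'' : t₀'' + 1 = t'') (l : n + n' = n'')
    (e : m + t = 2 * n) (e' : m' + t₀' = 2 * n') (e'' : m'' + t₀'' = 2 * n''), Even m → Odd m' →
    (φ m'' t₀'' n'' e'').hom⟦(1 : ℤ)⟧' ≫ (τ₀ m'' j'').inv ≫ (θ h k).hom ≫
      S m t ◁ (τ₀ m' j').hom ≫ (rS _ _).hom =
      (((Λ W).mu n n' n'' l).inv ≫ ((φ m t n e).hom ⊗ₘ (φ m' t₀' n' e').hom))⟦(1 : ℤ)⟧'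
  /-- two steps are the multiplication by the Euler class -/
  ξ : ∀ {m m'} t, m + 2 = m' → ∃ ξ : A m' t ≅ W.s₁.Lr ⊗ A m t,
    I m m' t ≫ ξ.hom = (λ_ _).inv ≫ W.s₁.ar ▷ A m t
  ζ : ∀ t, Nonempty (A 0 t ≅ (𝟙_ W.T₁.C)⟦t⟧)

/-- `t` is the transfer from the point to the free orbit -/
def IsTr (t : 𝟙_ W.T₁.C ⟶ W.s₁.O) : Prop :=
  ε (U W) ≫ (U W).map t = W.s₁.un _ ≫ dd 1 _

/-- the projective space of `ℂ^(k+1)` -/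
abbrev CPF (k : ℕ) : FCat := FCat.mk (Cell.fc_gr 1 (Fin (k + 1)))

variable (x : Mdl W)

/-- the homotopy ring -/
abbrev RR : Type := HRing (Λ W) x.P.E

/-- `z` is the image of the fundamental class of the circle -/
def Fund (z : (𝟙_ W.T₁.C)⟦(1 : ℤ)⟧ ⟶ x.X₁) : Prop :=
  ∃ (P : W.T₁.C) (e₀ : W.s₁.O ⟶ P) (e₁ : P ⟶ W.s₁.O⟦(1 : ℤ)⟧) (p : P ⟶ 𝟙_ W.T₁.C)
    (y : (𝟙_ W.T₁.C)⟦(1 : ℤ)⟧ ⟶ P) (t : 𝟙_ W.T₁.C ⟶ W.s₁.O) (e : ℤ),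
    H.Dist (𝟙 _ - (W.L₁.t.h W.s₁.O).hom) e₀ e₁ ∧ e₀ ≫ p = W.s₁.oe ∧ IsTr t ∧ Sg e ∧
      y ≫ e₁ = e • t⟦(1 : ℤ)⟧' ∧ z = y ≫ p ≫ x.one₁

namespace Tow

variable (τ : Tow W)

/-- the value of a class on a cell -/
def val (m t : ℤ) (u : τ.S m t ⟶ (U W).obj x.X₁) : RR x :=
  if h : Even (m + t) then HRing.of (Λ W) x.P.E ((m + t) / 2)
    ((τ.φ m t ((m + t) / 2) (Int.two_mul_ediv_two_of_even h).symm).hom ≫ u ≫ x.Y.e.hom) else 0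

/-- the leading term -/
def jj (m t : ℤ) (a : τ.A m t ⟶ x.X₁) : RR x := τ.val x m t (τ.gen m t ≫ (U W).map a)

/-- `a` is the boundary of `u` -/
def IsK {m₀ m t t₁ : ℤ} (h : m₀ + 1 = m) (k : t + 1 = t₁) (u : τ.S m₀ t₁ ⟶ (U W).obj x.X₁)
    (a : τ.A m t ⟶ x.X₁) : Prop :=
  (τ.τ m k).hom ≫ a⟦(1 : ℤ)⟧' = τ.b t₁ h ≫ (shp u)⟦(1 : ℤ)⟧'

/-- the differentials -/
def Dif (m m' t : ℤ) (y z : RR x) : Prop :=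
  ∃ (m₁ t₁ : ℤ) (h : m + 1 = m₁) (k : t + 1 = t₁) (u : τ.S m t₁ ⟶ (U W).obj x.X₁)
    (a : τ.A m' t ⟶ x.X₁), τ.val x m t₁ u = y ∧ τ.IsK x h k u (τ.I m₁ m' t ≫ a) ∧
      τ.jj x m' t a = z

/-- the Leibniz rule -/
def Leib : Prop := ∀ (r s₁ s₁' t₁ s₂ s₂' t₂ s₃ s₃' t₃ : ℤ), 5 ≤ r → s₁ + r = s₁' → s₂ + r = s₂' →
    s₁ + s₂ = s₃ → s₃ + r = s₃' → t₁ + t₂ + 1 = t₃ → ∃ e₁ e₂, Sg e₁ ∧ Sg e₂ ∧
    (Even s₁ → Even s₂ → e₁ = 1 ∧ e₂ = 1) ∧ ∀ y y' z z',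
      τ.Dif x s₁ s₁' t₁ y y' → τ.Dif x s₂ s₂' t₂ z z' →
      τ.Dif x s₃ s₃' t₃ (cup (hA x.P) s₁ s₂ y z)
        (e₁ • cup (hA x.P) s₁' s₂ y' z + e₂ • cup (hA x.P) s₁ s₂' y z')

/-- `a` is the norm of `u`, up to an isomorphism of the source -/
def IsN {k s t : ℤ} (u : (Λ W).S k ⟶ x.P.E) (a : τ.A s t ⟶ x.X₁) : Prop :=
  ∃ χ : τ.A s t ≅ W.s₁.N.obj ((Λ W).S k), a = χ.hom ≫ W.s₁.N.map u ≫ x.nm₁

end Tow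

variable (W)

/-- the tower exists -/
def TOW : Prop := W.Geo → Nonempty (Tow W)

/-- the Leibniz rule -/
def LEIB : Prop := ∀ (x : Mdl W) (τ : Tow W), τ.Leib x

/-- norms -/
def NRM : Prop := W.Geo → ∀ (x : Mdl W) (τ : Tow W) (k s t : ℤ), s = 4 * k → t = 2 * k →
  ∀ u : (Λ W).S k ⟶ x.P.E, ∃ a : τ.A s t ⟶ x.X₁, τ.IsN x u a ∧ ∃ e, Sg e ∧
    τ.jj x s t a = e • nm (hA x.P) (HRing.of (Λ W) x.P.E k u)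

/-- the maps of the tower and the powers of the Euler class -/
def ACT : Prop := ∀ (τ : Tow W) (M : ℕ) (s s' t : ℤ), s + 2 * M = s' →
  ∃ ξ : τ.A s' t ≅ Pw W.s₁.Lr M ⊗ τ.A s t, τ.I s s' t ≫ ξ.hom = act W.s₁.ar M _ ∧
    ∀ (Y : W.T₁.C) (a : τ.A s' t ⟶ Y), τ.I s s' t ≫ a = 0 ↔ a ≫ act W.s₁.ar M Y = 0

/-- a power of the Euler class vanishes outside of the diagonal -/
def KILL : Prop := ∀ (k : ℕ) (Y : W.T₁.C) (z : W.s₁.N.obj (W.F.S.obj (CPF k)) ⟶ Y),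
  W.s₁.dg (CPF k) ≫ z = 0 → z ≫ act W.s₁.ar (3 * k + 1) Y = 0

/-- the homology class dual to the top power of the coordinate -/
def DUAL : Prop := ∀ (x : Mdl W) (k : ℕ) (n : ℤ), 2 ≤ k → n + 1 = k →
  ∃ (z : W.F.S.obj (CPF k) ⟶ W.F.S.obj CCF ⊗ x.P.E)
    (β : W.F.S.obj CCF ⊗ (Λ W).S n ⟶ W.F.S.obj (CPF k) ⊗ x.P.E) (u : (Λ W).S n ⟶ x.P.E),
    HRing.of (Λ W) x.P.E n u = sg x.P k ∧
    β ≫ z ▷ x.P.E ≫ (α_ _ _ _).hom ≫ _ ◁ MonObj.mul = 0 ∧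
    β ≫ (z ≫ _ ◁ (x.P.ρ ≫ x.P.ρ ≫ x.P.ρ)) ▷ x.P.E ≫ (α_ _ _ _).hom ≫ _ ◁ MonObj.mul = _ ◁ u

/-- the norm bound -/
def BND : Prop := W.Geo → KILL W → DUAL W → ∀ (x : Mdl W) (k : ℕ) (n : ℤ), 2 ≤ k → n + 1 = k →
  ∃ u : (Λ W).S n ⟶ x.P.E, HRing.of (Λ W) x.P.E n u = sg x.P k ∧
    W.s₁.N.map u ≫ x.nm₁ ≫ act W.s₁.ar (3 * k + 1) _ = 0

/-- nilpotence -/
def NIL : Prop := ∀ (x : Mdl W) (n : ℤ) (u : (Λ W).S n ⟶ x.P.E) (M : ℕ),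
  IsUnit (HRing.of (Λ W) x.P.E n u) → W.s₁.N.map u ≫ x.nm₁ ≫ act W.s₁.ar M _ = 0 →
    act W.s₁.ar M x.X₁ = 0

/-- three is the transfer of one -/
def OM : Prop := W.Geo → ∀ x : Mdl W, HasTate x.P x.A → ∀ t, IsTr t →
  t ≫ W.s₁.oe ≫ x.one₁ = (3 : ℤ) • x.one₁

/-- the class `η` -/
def ETA1 : Prop := W.Geo → ∀ x : Mdl W, (∀ t, IsTr t → t ≫ W.s₁.oe ≫ x.one₁ = (3 : ℤ) • x.one₁) →
  ∀ (C : W.T₂.C) (e₀ : W.s₂.O ⟶ C) (e₁ : C ⟶ W.s₂.O⟦(1 : ℤ)⟧) (p : C ⟶ 𝟙_ W.T₂.C),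
    H.Dist (𝟙 _ - (W.L₂.t.h W.s₂.O).hom) e₀ e₁ → e₀ ≫ p = W.s₂.oe →
    ∃ η : W.s₂.O⟦(1 : ℤ)⟧ ⟶ x.X,
      ((3 : ℤ) • (p ≫ x.Y.one) + e₁ ≫ η) ≫ (λ_ _).inv ≫ W.a ▷ x.X = 0 ∧
      Fund x (Mdl.flat1 η + Mdl.flat1 η ≫ W.s₂.γ _ + Mdl.flat1 η ≫ W.s₂.γ _ ≫ W.s₂.γ _)

/-- the fundamental class of the circle is the boundary of `c⁻¹` -/
def ETA2 : Prop := ∀ (x : Mdl W) (τ : Tow W) (z : (𝟙_ W.T₁.C)⟦(1 : ℤ)⟧ ⟶ x.X₁), Fund x z →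
  ∀ ζ : τ.A 0 1 ≅ (𝟙_ W.T₁.C)⟦(1 : ℤ)⟧, ∃ (u : τ.S (-2) 2 ⟶ (U W).obj x.X₁) (e : ℤ), Sg e ∧
    τ.val x (-2) 2 u = 1 ∧ τ.IsK x (m := -1) (t := 1) (by norm_num) (by norm_num) u
      (e • τ.I (-1) 0 1 ≫ ζ.hom ≫ z)

/-- the class `α` -/
def ALPHA : Prop := W.Geo → ∀ (x : Mdl W) (τ : Tow W), ∃ (α : τ.A 1 3 ⟶ x.X₁) (e : ℤ), Sg e ∧
  τ.jj x 1 3 α = e • sg x.P 3 ∧ τ.I 0 1 3 ≫ α ≫ act W.s₁.ar 2 _ = 0

end Vale.Agent.P236Z.SS
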