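import Vale.Agent.P236Z.SS.Val
import Vale.Agent.P236Z.Cat.Proj

/-!
# P236, block SS: the construction of the tower (definitions and statements)

`Sm` is the cell structure of the rotation sphere, `Tow0` the tower without the suspension
coordinate.
-/

open CategoryTheory MonoidalCategory Limits Pretriangulated
open Functor.LaxMonoidal Functor.OplaxMonoidal
open Vale.Agent.P251 Vale.Agent.P251.T Vale.Agent.P251.M Vale.Agent.P251.I Vale.Agent.P251.G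
  Vale.Agent.P236Z.Cat Vale.Agent.P236Z.Mod Vale.Agent.P236Z.Top

noncomputable section

namespace Vale.Agent.P236Z.SS

variable {W : Tower}

/-- the generating cell of a tensor product -/
def tg (V : W.T₁.C) {S : W.T₀.C} {Y : W.T₁.C} (g : S ⟶ (U W).obj Y) :
    (U W).obj V ⊗ S ⟶ (U W).obj (V ⊗ Y) := (U W).obj V ◁ g ≫ μ (U W) V Y

/-- the boundary of a tensor product -/
def tb (V : W.T₁.C) {S : W.T₀.C} {Y : W.T₁.C} (b : Y ⟶ (W.s₁.ind.obj S)⟦(1 : ℤ)⟧) :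
    V ⊗ Y ⟶ (W.s₁.ind.obj ((U W).obj V ⊗ S))⟦(1 : ℤ)⟧ :=
  V ◁ b ≫ (rS _ _).hom ≫ (inv (W.s₁.projMap V S))⟦(1 : ℤ)⟧'

theorem dd_congr {m m' : ℤ} (h : Even m ↔ Even m') (Y : W.T₁.C) : dd m Y = dd m' Y := by
  simp only [dd, h]

theorem cupf_congr {m m' n n' : ℤ} (h : Odd m ∧ Odd m' ↔ Odd n ∧ Odd n') {S S' : W.T₀.C}
    {Y Y' : W.T₁.C} (u : S ⟶ (U W).obj Y) (v : S' ⟶ (U W).obj Y') :
    cupf m m' u v = cupf n n' u v := by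
  simp only [cupf, h]

variable (W)

/-- The cells of the rotation sphere and their diagonal. -/
structure Sm where
  /-- the cofibre of the projection of the free orbit -/
  P : W.T₁.C
  /-- the first step -/
  a₀ : 𝟙_ W.T₁.C ⟶ P
  /-- the second step -/
  a₁ : P ⟶ W.s₁.Lr
  a_a : a₀ ≫ a₁ = W.s₁.ar
  /-- the generating cell -/
  g : (𝟙_ W.T₀.C)⟦(1 : ℤ)⟧ ⟶ (U W).obj P
  /-- the first boundary -/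
  b₀ : P ⟶ (W.s₁.ind.obj (𝟙_ W.T₀.C))⟦(1 : ℤ)⟧
  /-- the second boundary -/
  b₁ : W.s₁.Lr ⟶ (W.s₁.ind.obj ((𝟙_ W.T₀.C)⟦(1 : ℤ)⟧))⟦(1 : ℤ)⟧
  dist₀ : H.Dist (shp (ε (U W))) a₀ b₀
  dist₁ : H.Dist (shp g) a₁ b₁
  cell : BigCell W.T₀.C 1 ((U W).obj P)
  sph : Sph ((U W).obj W.s₁.Lr) 2
  U_a₀ : (U W).map a₀ = 0
  U_a₁ : (U W).map a₁ = 0
  g_b₀ : g ≫ (U W).map b₀ ≫ (cs W _).hom = (W.s₁.un _ ≫ dd 0 _)⟦(1 : ℤ)⟧'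
  g_b₁ : ∃ κ : (U W).obj W.s₁.Lr ≅ ((𝟙_ W.T₀.C)⟦(1 : ℤ)⟧)⟦(1 : ℤ)⟧,
    (U W).map b₁ ≫ (cs W _).hom = κ.hom ≫ (W.s₁.un _ ≫ dd 1 _)⟦(1 : ℤ)⟧'
  /-- the diagonal -/
  d : W.s₁.Lr ⟶ P ⊗ P
  a_d : a₁ ≫ d = (λ_ P).inv ≫ a₀ ▷ P
  a_d' : a₁ ≫ d = (ρ_ P).inv ≫ P ◁ a₀
  d_a : d ≫ a₁ ▷ P = (ρ_ _).inv ≫ W.s₁.Lr ◁ a₀
  d_a' : d ≫ P ◁ a₁ = (λ_ _).inv ≫ a₀ ▷ W.s₁.Lr
  /-- the diagonal of the spheres -/
  θ : (U W).obj W.s₁.Lr ≅ (𝟙_ W.T₀.C)⟦(1 : ℤ)⟧ ⊗ (𝟙_ W.T₀.C)⟦(1 : ℤ)⟧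
  U_d : (U W).map d ≫ Functor.OplaxMonoidal.δ (U W) P P = θ.hom ≫ cupf 1 1 g g

/-- The tower without the suspension coordinate, indexed by a set with a degree function. -/
structure Tow0 (ι : Type) (dg : ι → ℤ) where
  /-- the stages -/
  B : ι → W.T₁.C
  /-- the steps -/
  st : ∀ {i j}, dg i + 1 = dg j → (B i ⟶ B j)
  /-- the spheres -/
  S : ι → W.T₀.C
  sph : ∀ i, Sph (S i) (dg i)
  /-- the generating cell -/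
  gen : ∀ i, S i ⟶ (U W).obj (B i)
  /-- the boundary -/
  b : ∀ {i j}, dg i + 1 = dg j → (B j ⟶ (W.s₁.ind.obj (S i))⟦(1 : ℤ)⟧)
  dist : ∀ {i j} (h : dg i + 1 = dg j), H.Dist (shp (gen i)) (st h) (b h)
  cell : ∀ i, BigCell W.T₀.C (dg i) ((U W).obj (B i))
  U_st : ∀ {i j} (h : dg i + 1 = dg j), (U W).map (st h) = 0
  gen_iso : ∀ i, Even (dg i) → IsIso (gen i)
  gen_b : ∀ {i j} (h : dg i + 1 = dg j), ∃ κ : S j ≅ (S i)⟦(1 : ℤ)⟧,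
    gen j ≫ (U W).map (b h) ≫ (cs W _).hom = κ.hom ≫ (W.s₁.un _ ≫ dd (dg i) _)⟦(1 : ℤ)⟧'
  /-- the diagonal -/
  δ : ∀ {i i' i''}, dg i + dg i' = dg i'' → (B i'' ⟶ B i ⊗ B i')
  δ_l : ∀ {i j i' i'' j''} (h : dg i + dg i' = dg i'') (h₁ : dg j + dg i' = dg j'')
    (e : dg i + 1 = dg j) (e'' : dg i'' + 1 = dg j''), st e'' ≫ δ h₁ = δ h ≫ st e ▷ B i'
  δ_r : ∀ {i i' j' i'' j''} (h : dg i + dg i' = dg i'') (h₁ : dg i + dg j' = dg j'')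
    (e' : dg i' + 1 = dg j') (e'' : dg i'' + 1 = dg j''), st e'' ≫ δ h₁ = δ h ≫ B i ◁ st e'
  /-- the diagonal of the spheres -/
  θ : ∀ {i i' i''}, dg i + dg i' = dg i'' → (S i'' ≅ S i ⊗ S i')
  gen_δ : ∀ {i i' i''} (h : dg i + dg i' = dg i''),
    gen i'' ≫ (U W).map (δ h) ≫ Functor.OplaxMonoidal.δ (U W) _ _ =
      (θ h).hom ≫ cupf (dg i) (dg i') (gen i) (gen i')
  /-- the framings of the spheres of even dimension -/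
  φ : ∀ i n, dg i = 2 * n → ((Λ W).S n ≅ S i)
  /-- the framings of the spheres of odd dimension -/
  ψ : ∀ i n, dg i = 2 * n + 1 → (((Λ W).S n)⟦(1 : ℤ)⟧ ≅ S i)
  φ_ee : ∀ {i i' i'' n n' n''} (h : dg i + dg i' = dg i'') (l : n + n' = n'')
    (e : dg i = 2 * n) (e' : dg i' = 2 * n') (e'' : dg i'' = 2 * n''),
    (φ i'' n'' e'').hom ≫ (θ h).hom =
      ((Λ W).mu n n' n'' l).inv ≫ ((φ i n e).hom ⊗ₘ (φ i' n' e').hom)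
  ψ_oe : ∀ {i i' i'' n n' n''} (h : dg i + dg i' = dg i'') (l : n + n' = n'')
    (e : dg i = 2 * n + 1) (e' : dg i' = 2 * n') (e'' : dg i'' = 2 * n'' + 1),
    (ψ i'' n'' e'').hom ≫ (θ h).hom = ((Λ W).mu n n' n'' l).inv⟦(1 : ℤ)⟧' ≫ (lS _ _).inv ≫
      ((ψ i n e).hom ⊗ₘ (φ i' n' e').hom)
  ψ_eo : ∀ {i i' i'' n n' n''} (h : dg i + dg i' = dg i'') (l : n + n' = n'')
    (e : dg i = 2 * n) (e' : dg i' = 2 * n' + 1) (e'' : dg i'' = 2 * n'' + 1),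
    (ψ i'' n'' e'').hom ≫ (θ h).hom = ((Λ W).mu n n' n'' l).inv⟦(1 : ℤ)⟧' ≫ (rS _ _).inv ≫
      ((φ i n e).hom ⊗ₘ (ψ i' n' e').hom)
  ξ : ∀ {i j k} (h : dg i + 1 = dg j) (h' : dg j + 1 = dg k), ∃ ξ : B k ≅ W.s₁.Lr ⊗ B i,
    st h ≫ st h' ≫ ξ.hom = (λ_ _).inv ≫ W.s₁.ar ▷ B i
  ζ : ∀ i, dg i = 0 → Nonempty (B i ≅ 𝟙_ W.T₁.C)

/-- the degree of a pair -/
def dgP (i : ℤ × Bool) : ℤ := 2 * i.1 + if i.2 then 1 else 0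

/-- tensor products of cell structures -/
structure TEN : Prop where
  dist : ∀ (V : W.T₁.C) {S : W.T₀.C} {Y Y' : W.T₁.C} {g : S ⟶ (U W).obj Y} {i : Y ⟶ Y'}
    {b : Y' ⟶ (W.s₁.ind.obj S)⟦(1 : ℤ)⟧}, H.Dist (shp g) i b →
      H.Dist (shp (tg V g)) (V ◁ i) (tb V b)
  gen_b : ∀ (V : W.T₁.C) {S S' : W.T₀.C} {Y' : W.T₁.C} {g' : S' ⟶ (U W).obj Y'}
    {b : Y' ⟶ (W.s₁.ind.obj S)⟦(1 : ℤ)⟧} {m : ℤ} {κ : S' ⟶ S⟦(1 : ℤ)⟧}, W.s₁.γ V = 𝟙 _ →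
    g' ≫ (U W).map b ≫ (cs W _).hom = κ ≫ (W.s₁.un _ ≫ dd m _)⟦(1 : ℤ)⟧' →
    tg V g' ≫ (U W).map (tb V b) ≫ (cs W _).hom =
      ((U W).obj V ◁ κ ≫ (rS _ _).hom) ≫ (W.s₁.un _ ≫ dd m _)⟦(1 : ℤ)⟧'
  gen_δ : ∀ {V V' V'' : W.T₁.C} (σ : V'' ⟶ V ⊗ V') {S S' S'' : W.T₀.C} {Y Y' Y'' : W.T₁.C}
    {g : S ⟶ (U W).obj Y} {g' : S' ⟶ (U W).obj Y'} {g'' : S'' ⟶ (U W).obj Y''}
    {d : Y'' ⟶ Y ⊗ Y'} {θ : S'' ⟶ S ⊗ S'} {m m' : ℤ}, W.s₁.γ V = 𝟙 _ → W.s₁.γ V' = 𝟙 _ →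
    g'' ≫ (U W).map d ≫ Functor.OplaxMonoidal.δ (U W) _ _ = θ ≫ cupf m m' g g' →
    tg V'' g'' ≫ (U W).map ((σ ⊗ₘ d) ≫ tensorμ V V' Y Y') ≫ Functor.OplaxMonoidal.δ (U W) _ _ =
      ((((U W).map σ ≫ Functor.OplaxMonoidal.δ (U W) V V') ⊗ₘ θ) ≫ tensorμ _ _ S S') ≫
        cupf m m' (tg V g) (tg V' g')
  μ_lS : ∀ V Y : W.T₁.C, μ (U W) (V⟦(1 : ℤ)⟧) Y ≫ (U W).map (lS V Y).hom ≫ (cs W _).hom =
    (cs W V).hom ▷ (U W).obj Y ≫ (lS _ _).hom ≫ (μ (U W) V Y)⟦(1 : ℤ)⟧'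
  μ_rS : ∀ V Y : W.T₁.C, μ (U W) V (Y⟦(1 : ℤ)⟧) ≫ (U W).map (rS V Y).hom ≫ (cs W _).hom =
    (U W).obj V ◁ (cs W Y).hom ≫ (rS _ _).hom ≫ (μ (U W) V Y)⟦(1 : ℤ)⟧'

/-- the rotation sphere is an even sphere -/
def SWAP : Prop := W.Geo → (β_ W.s₁.Lr W.s₁.Lr).hom = 𝟙 _ ∧
  ∃ L' : W.T₁.C, Nonempty (W.s₁.Lr ⊗ L' ≅ 𝟙_ W.T₁.C)

/-- the restriction of even spheres -/
def PUSH : Prop := ∀ E : EvenSpheres W.T₁.C, Nonempty ((U W).obj E.L ≅ (Λ W).L) →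
  W.s₁.γ E.L = 𝟙 _ → (∀ k, W.s₁.γ (E.S k) = 𝟙 _) ∧
    ∃ π : ∀ k, (Λ W).S k ≅ (U W).obj (E.S k), ∀ (k k' k'' : ℤ) (h : k + k' = k''),
      (π k'').hom ≫ (U W).map (E.mu k k' k'' h).inv ≫ Functor.OplaxMonoidal.δ (U W) _ _ =
        ((Λ W).mu k k' k'' h).inv ≫ ((π k).hom ⊗ₘ (π k').hom)

/-- the cells exist -/
def SMALL : Prop := W.Geo → Nonempty (Sm W)

/-- the tower of the powers of the rotation sphere -/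
def ASM : Prop := W.Geo → TEN W → SWAP W → PUSH W → Sm W → Nonempty (Tow0 W (ℤ × Bool) dgP)

/-- the suspension coordinate -/
def EXT : Prop := TEN W → ∀ (ι : Type) (dg : ι → ℤ) (s : ℤ → ι), (∀ m, dg (s m) = m) →
  Tow0 W ι dg → Nonempty (Tow W)

theorem tow_of (h1 : TEN W) (h2 : SWAP W) (h3 : PUSH W) (h4 : SMALL W) (h5 : ASM W)
    (h6 : EXT W) : TOW W := fun hg =>
  h6 h1 _ dgP (fun m => (m / 2, decide (m % 2 = 1))) (fun m => by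
    simp only [dgP, decide_eq_true_eq]
    split_ifs <;> omega) (h5 hg h1 h2 h3 (h4 hg).some).some

end Vale.Agent.P236Z.SS
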